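import Vale.Agent.P292E.BdC

/-! Circle bundles with a unitary connection over a formally integrable almost complex manifold,
written in a finite family of charts. -/

set_option maxSynthPendingDepth 3

open scoped ContDiff Topology ComplexConjugate
open Set Filter MeasureTheory Metric

noncomputable section

namespace Vale.Agent.P292E

variable {N : ℕ}

/-- the exterior derivative of a one-form -/
def cur (A : V N → V N →L[ℝ] ℝ) (y v w : V N) : ℝ := fderiv ℝ A y v w - fderiv ℝ A y w v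

/-- the covariant derivative on the `k`-th power -/
def Dv (A : V N → V N →L[ℝ] ℝ) (k : ℕ) (F : V N → ℂ) (y v : V N) : ℂ :=
  fderiv ℝ F y v + Complex.I * k * A y v * F y

/-- the antiholomorphic part -/
def Dbv (J : V N → V N →L[ℝ] V N) (A : V N → V N →L[ℝ] ℝ) (k : ℕ) (F : V N → ℂ) (y v : V N) : ℂ :=
  Dv A k F y v + Complex.I * Dv A k F y (J y v)

/-- the holomorphic part -/
def Dpv (J : V N → V N →L[ℝ] V N) (A : V N → V N →L[ℝ] ℝ) (k : ℕ) (F : V N → ℂ) (y v : V N) : ℂ :=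
  Dv A k F y v - Complex.I * Dv A k F y (J y v)

/-- the Levi form -/
def Lv (J : V N → V N →L[ℝ] V N) (A : V N → V N →L[ℝ] ℝ) (y v w : V N) : ℂ :=
  2 * Complex.I * cur A y v w - 2 * cur A y v (J y w)

/-- the local geometric data on an open set -/
structure Geo (J : V N → V N →L[ℝ] V N) (A : V N → V N →L[ℝ] ℝ) (B : Set (V N)) : Prop where
  opn : IsOpen B
  J_sm : ContDiffOn ℝ ∞ J B
  A_sm : ContDiffOn ℝ ∞ A B
  J_sq : ∀ y ∈ B, ∀ v, J y (J y v) = -v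
  nij : ∀ y ∈ B, ∀ v w, fderiv ℝ J y (J y v) w - fderiv ℝ J y (J y w) v +
    J y (fderiv ℝ J y w v) - J y (fderiv ℝ J y v w) = 0
  F11 : ∀ y ∈ B, ∀ v w, cur A y (J y v) (J y w) = cur A y v w
  Fneg : ∀ y ∈ B, ∀ v, v ≠ 0 → cur A y v (J y v) < 0

/-- the charts, the gauges, the cut-offs and the geometric data -/
structure UC (N : ℕ) (S : Type) where
  ι : Type
  [fin : Fintype ι]
  B : ι → Set (V N)
  O : ι → Set S
  z : ι → S → V N
  l : ι → S → ℂ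
  σ : ι → V N → S
  z_mem : ∀ a, ∀ c ∈ O a, z a c ∈ B a
  σ_mem : ∀ a, ∀ y ∈ B a, σ a y ∈ O a
  z_σ : ∀ a, ∀ y ∈ B a, z a (σ a y) = y
  l_σ : ∀ a, ∀ y ∈ B a, l a (σ a y) = 1
  l_norm : ∀ a, ∀ c ∈ O a, ‖l a c‖ = 1
  mem_iff : ∀ a b, ∀ c ∈ O a, σ a (z a c) ∈ O b ↔ c ∈ O b
  z_eq : ∀ a b, ∀ c ∈ O a, c ∈ O b → z b (σ a (z a c)) = z b c
  l_eq : ∀ a b, ∀ c ∈ O a, c ∈ O b → l b c = l a c * l b (σ a (z a c))
  W_open : ∀ a b, IsOpen {y | y ∈ B a ∧ σ a y ∈ O b}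
  z_sm : ∀ a b, ContDiffOn ℝ ∞ (fun y => z b (σ a y)) {y | y ∈ B a ∧ σ a y ∈ O b}
  l_sm : ∀ a b, ContDiffOn ℝ ∞ (fun y => l b (σ a y)) {y | y ∈ B a ∧ σ a y ∈ O b}
  cl : ∀ a b K, IsCompact K → K ⊆ B b → IsOpen {y | y ∈ B a ∧ ¬(σ a y ∈ O b ∧ z b (σ a y) ∈ K)}
  χ : ι → V N → ℝ
  κ : ι → V N → ℝ
  χ_tst : ∀ a, Tst (B a) fun y => (χ a y : ℂ)
  κ_tst : ∀ a, Tst (B a) fun y => (κ a y : ℂ)
  χ_one : ∀ a, ∀ y ∈ tsupport (κ a), χ a y = 1
  cover : ∀ c, ∃ a, c ∈ O a ∧ κ a (z a c) = 1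
  J : ι → V N → V N →L[ℝ] V N
  A : ι → V N → V N →L[ℝ] ℝ
  geo : ∀ a, Geo (J a) (A a) (B a)
  J_tr : ∀ a b, ∀ y ∈ B a, σ a y ∈ O b → ∀ v, fderiv ℝ (fun y => z b (σ a y)) y (J a y v) =
    J b (z b (σ a y)) (fderiv ℝ (fun y => z b (σ a y)) y v)
  A_tr : ∀ a b, ∀ y ∈ B a, σ a y ∈ O b → ∀ v, fderiv ℝ (fun y => l b (σ a y)) y v =
    Complex.I * l b (σ a y) *
      ((A b (z b (σ a y)) (fderiv ℝ (fun y => z b (σ a y)) y v) : ℝ) - (A a y v : ℝ))

attribute [instance] UC.fin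

namespace UC

variable {S : Type} (U : UC N S)

/-- the overlap of two charts, in the first chart -/
def W (a b : U.ι) : Set (V N) := {y | y ∈ U.B a ∧ U.σ a y ∈ U.O b}

/-- the change of charts from `a` to `b` -/
def tr (b a : U.ι) (y : V N) : V N := U.z b (U.σ a y)

/-- a function read in a chart -/
def loc (a : U.ι) (s : S → ℂ) (y : V N) : ℂ := s (U.σ a y)

/-- smooth sections of the `k`-th power -/
def G (k : ℕ) : Submodule ℂ (S → ℂ) where
  carrier := {s | ∀ a, (∀ c ∈ U.O a, s c = U.l a c ^ k * U.loc a s (U.z a c)) ∧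
    ContDiffOn ℝ ∞ (U.loc a s) (U.B a)}
  add_mem' := fun {s t} hs ht a => ⟨fun c hc => by
    rw [Pi.add_apply, (hs a).1 c hc, (ht a).1 c hc, ← mul_add]; rfl, (hs a).2.add (ht a).2⟩
  zero_mem' := fun a => ⟨fun c _ => by simp [loc], contDiffOn_const⟩
  smul_mem' := fun t s hs a => ⟨fun c hc => by
    rw [Pi.smul_apply, (hs a).1 c hc, smul_eq_mul, mul_left_comm]; rfl, (hs a).2.const_smul t⟩

open Classical in
/-- extension by zero of a function given in a chart -/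
def ext (a : U.ι) (k : ℕ) (F : V N → ℂ) (c : S) : ℂ :=
  if c ∈ U.O a then U.l a c ^ k * F (U.z a c) else 0

/-- vector fields -/
structure VF where
  X : U.ι → V N → V N
  sm : ∀ a, ContDiffOn ℝ ∞ (X a) (U.B a)
  tr : ∀ a b, ∀ y ∈ U.W a b, fderiv ℝ (U.tr b a) y (X a y) = X b (U.tr b a y)

/-- the rotated field -/
def VF.J {U : UC N S} (X : U.VF) : U.VF where
  X a y := U.J a y (X.X a y)
  sm a := (U.geo a).J_sm.clm_apply (X.sm a)
  tr a b y hy := by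
    rw [← X.tr a b y hy]
    exact U.J_tr a b y hy.1 hy.2 _

/-- a chart around a point -/
def ch (c : S) : U.ι := (U.cover c).choose

/-- the covariant derivative along a field -/
def DX (X : U.VF) (k : ℕ) (s : S → ℂ) (c : S) : ℂ :=
  U.l (U.ch c) c ^ k * Dv (U.A (U.ch c)) k (U.loc (U.ch c) s) (U.z (U.ch c) c)
    (X.X (U.ch c) (U.z (U.ch c) c))

/-- the integral -/
def I (f : S → ℂ) : ℂ := ∑ a, ∫ y, (U.χ a y : ℂ) ^ 2 * U.loc a f y

/-- the sum of the squares of the cut-offs -/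
def Xi (c : S) : ℂ := ∑ a, U.ext a 0 (fun y => (U.χ a y : ℂ) ^ 2) c

/-- the index set of the basic fields -/
abbrev Λ : Type := U.ι × Fin N

end UC

end Vale.Agent.P292E
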