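import Vale.Agent.P292E.FStep

/-! The interior estimate. -/

open scoped ContDiff Topology FourierTransform
open Set Filter MeasureTheory Metric

noncomputable section

namespace Vale.Agent.P292E

variable {N : ℕ}

/-- the nested bump functions -/
def ellB (N i : ℕ) : ContDiffBump (0 : V N) where
  rIn := 1 + 1 / (2 * i + 2)
  rOut := 1 + 1 / (2 * i + 1)
  rIn_pos := by positivity
  rIn_lt_rOut := by
    have := one_div_lt_one_div_of_lt (by positivity : (0 : ℝ) < 2 * i + 1)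
      (by linarith : (2 * i + 1 : ℝ) < 2 * i + 2)
    linarith

/-- the nested cut-offs -/
def ellC (N i : ℕ) (x : V N) : ℂ := (ellB N i x : ℝ)

theorem ell_supp (N i : ℕ) : tsupport (ellC N i) ⊆ closedBall 0 (1 + 1 / (2 * i + 1)) := by
  have h : tsupport (ellC N i) ⊆ tsupport (ellB N i) :=
    closure_mono fun x hx h0 => hx (by simp only [ellC, h0, Complex.ofReal_zero])
  rwa [ContDiffBump.tsupport_eq] at h

theorem ell_tst (N i : ℕ) : Tst (ball 0 3) (ellC N i) := by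
  refine ⟨Complex.ofRealCLM.contDiff.comp (ellB N i).contDiff,
    (isCompact_closedBall _ _).of_isClosed_subset (isClosed_tsupport _) (ell_supp N i),
    (ell_supp N i).trans (closedBall_subset_ball ?_)⟩
  have : (1 : ℝ) / (2 * i + 1) ≤ 1 := by
    rw [div_le_one (by positivity)]
    linarith [Nat.cast_nonneg (α := ℝ) i]
  linarith

theorem ell_one (N i : ℕ) {x : V N} (hx : x ∈ closedBall (0 : V N) (1 + 1 / (2 * i + 2))) :
    ellC N i x = 1 := by
  rw [ellC, (ellB N i).one_of_mem_closedBall hx, Complex.ofReal_one]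

theorem ell_nest (N i : ℕ) : ∀ x ∈ tsupport (ellC N (i + 1)), ellC N i x = 1 := by
  intro x hx
  refine ell_one N i (closedBall_subset_closedBall ?_ (ell_supp N (i + 1) hx))
  have := one_div_le_one_div_of_le (by positivity : (0 : ℝ) < 2 * i + 2)
    (by push_cast; linarith : (2 * i + 2 : ℝ) ≤ 2 * ((i + 1 : ℕ) : ℝ) + 1)
  linarith

theorem ell_base {u : V N → ℂ} (hu : IntegrableOn u (ball 0 3)) (ξ : V N) :
    ‖𝓕 (fun x => ellC N 0 x * u x) ξ‖ ≤ ∫ x in ball 0 3, ‖u x‖ := by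
  refine (VectorFourier.norm_fourierIntegral_le_integral_norm _ _ _ _ _).trans ?_
  rw [← setIntegral_eq_integral_of_forall_compl_eq_zero (s := ball 0 3)]
  · refine setIntegral_mono_on ((ell_tst N 0).integrable_mul hu).norm.integrableOn hu.norm
      measurableSet_ball fun x _ => ?_
    rw [norm_mul, ellC, Complex.norm_real, Real.norm_of_nonneg (ellB N 0).nonneg]
    exact mul_le_of_le_one_left (norm_nonneg _) (ellB N 0).le_one
  · intro x hx
    rw [image_eq_zero_of_notMem_tsupport fun h => hx ((ell_tst N 0).2.2 h), zero_mul, norm_zero]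

theorem ell_ind (N i : ℕ) :
    ∃ M : ℕ, ∀ κ : ℝ, 0 < κ → ∃ ε : ℝ, 0 < ε ∧ ∀ K : ℝ, ∃ C : ℝ, 0 ≤ C ∧
    ∀ (a₀ : Fin N → Fin N → ℂ) (a : Fin N → Fin N → V N → ℂ) (b : Fin N → V N → ℂ)
      (c u f : V N → ℂ) (g : Fin N → V N → ℂ) (A B : ℝ),
      (∀ ξ, κ * ‖ξ‖ ^ 2 ≤ symb a₀ ξ) → (∀ p q, ‖a₀ p q‖ ≤ K) →
      (∀ p q, ContDiffOn ℝ ∞ (a p q) (ball 0 3)) → (∀ p, ContDiffOn ℝ ∞ (b p) (ball 0 3)) →
      ContDiffOn ℝ ∞ c (ball 0 3) → ContDiffOn ℝ ∞ f (ball 0 3) →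
      (∀ p, ContDiffOn ℝ ∞ (g p) (ball 0 3)) →
      (∀ p q, Bd M (fun x => a p q x - a₀ p q) (ball 0 3) ε) → (∀ p, Bd M (b p) (ball 0 3) K) →
      Bd M c (ball 0 3) K → Bd M f (ball 0 3) B → (∀ p, Bd M (g p) (ball 0 3) B) →
      IntegrableOn u (ball 0 3) → ∫ x in ball 0 3, ‖u x‖ ≤ A → Weak (ball 0 3) a b c u f g →
      ∀ ξ, ‖𝓕 (fun x => ellC N i x * u x) ξ‖ * (1 + ‖ξ‖) ^ i ≤ C * (A + B) := by
  induction i with
  | zero =>
    refine ⟨0, fun κ _ => ⟨1, one_pos, fun K => ⟨1, zero_le_one, ?_⟩⟩⟩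
    intro a₀ a b c u f g A B _ _ _ _ _ _ _ _ _ _ hf _ hu hA _ ξ
    have hB : 0 ≤ B := (norm_nonneg _).trans (hf.norm_le (mem_ball_self (by norm_num)))
    have h1 := ell_base hu ξ
    rw [pow_zero, mul_one, one_mul]
    linarith
  | succ i ih =>
    obtain ⟨M₁, h₁⟩ := ih
    obtain ⟨M₂, h₂⟩ := ell_step N i (ell_tst N (i + 1)) (ell_tst N i) (ell_nest N i)
    refine ⟨max M₁ M₂, fun κ hκ => ?_⟩
    obtain ⟨ε₁, hε₁, h₁⟩ := h₁ κ hκ
    obtain ⟨ε₂, hε₂, h₂⟩ := h₂ κ hκ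
    refine ⟨min ε₁ ε₂, lt_min hε₁ hε₂, fun K => ?_⟩
    obtain ⟨C₁, hC₁, h₁⟩ := h₁ K
    obtain ⟨C₂, hC₂, h₂⟩ := h₂ K
    refine ⟨C₂ * (C₁ + 1), by positivity, ?_⟩
    intro a₀ a b c u f g A B k1 k2 k3 k4 k5 k6 k7 k8 k9 k10 k11 k12 hu hA hW ξ
    have hA0 : 0 ≤ A := (integral_nonneg fun x => norm_nonneg _).trans hA
    have h3 := h₁ a₀ a b c u f g A B k1 k2 k3 k4 k5 k6 k7
      (fun p q => (k8 p q).mono (le_max_left _ _) subset_rfl (min_le_left _ _))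
      (fun p => (k9 p).mono (le_max_left _ _) subset_rfl le_rfl)
      (k10.mono (le_max_left _ _) subset_rfl le_rfl) (k11.mono (le_max_left _ _) subset_rfl le_rfl)
      (fun p => (k12 p).mono (le_max_left _ _) subset_rfl le_rfl) hu hA hW
    have h4 := h₂ a₀ a b c u f g _ B k1 k2 k3 k4 k5 k6 k7
      (fun p q => (k8 p q).mono (le_max_right _ _) subset_rfl (min_le_right _ _))
      (fun p => (k9 p).mono (le_max_right _ _) subset_rfl le_rfl)
      (k10.mono (le_max_right _ _) subset_rfl le_rfl)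
      (k11.mono (le_max_right _ _) subset_rfl le_rfl)
      (fun p => (k12 p).mono (le_max_right _ _) subset_rfl le_rfl) hu hW h3 ξ
    refine h4.trans ?_
    rw [mul_assoc]
    exact mul_le_mul_of_nonneg_left (by linarith) hC₂

theorem ellS (N : ℕ) : EllS N := by
  intro j
  obtain ⟨s, C₀, -, h₀⟩ := four_inv N j
  obtain ⟨M, h⟩ := ell_ind N s
  refine ⟨M, fun κ hκ => ?_⟩
  obtain ⟨ε, hε, h⟩ := h κ hκ
  refine ⟨ε, hε, fun K => ?_⟩
  obtain ⟨C, -, h⟩ := h K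
  refine ⟨C₀ * C, ?_⟩
  intro a₀ a b c u f g A B k1 k2 k3 k4 k5 k6 k7 k8 k9 k10 k11 k12 hu hA hW
  obtain ⟨w, h1, h2, h3⟩ := h₀ _ _ ((ell_tst N s).integrable_mul hu)
    (h a₀ a b c u f g A B k1 k2 k3 k4 k5 k6 k7 k8 k9 k10 k11 k12 hu hA hW)
  refine ⟨w, h1, ?_, by rwa [mul_assoc]⟩
  filter_upwards [h2] with x hx hx1
  rw [← hx, ell_one N s (ball_subset_closedBall.trans (closedBall_subset_closedBall ?_) hx1),
    one_mul]
  have : (0 : ℝ) ≤ 1 / (2 * s + 2) := by positivity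
  linarith

end Vale.Agent.P292E
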