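import Vale.Agent.P292E.BdC

/-! Interior regularity. -/

open scoped ContDiff Topology FourierTransform
open Set Filter MeasureTheory Metric

noncomputable section

namespace Vale.Agent.P292E

variable {N : ℕ}

theorem Reg_int (G : V N → ℂ) (x₀ : V N) (ρ : ℝ) :
    ∫ y, G (x₀ + ρ • y) = |(ρ ^ Module.finrank ℝ (V N))⁻¹| • ∫ x, G x := by
  rw [Measure.integral_comp_smul volume (fun z => G (x₀ + z)) ρ, integral_add_left_eq_self]

theorem Reg_pd {φ : V N → ℂ} (hφ : ContDiff ℝ ∞ φ) (x₀ : V N) (r : ℝ) (p : Fin N) :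
    pd p (fun x => φ (r • (x - x₀))) = fun x => (r : ℂ) * pd p φ (r • (x - x₀)) := by
  funext x
  have h1 : HasFDerivAt (fun x : V N => r • (x - x₀)) (r • ContinuousLinearMap.id ℝ (V N)) x :=
    ((hasFDerivAt_id x).sub_const x₀).const_smul r
  have h2 := ((hφ.differentiable (by simp) (r • (x - x₀))).hasFDerivAt.comp x h1).fderiv
  unfold pd
  rw [show (fun x => φ (r • (x - x₀))) = φ ∘ fun x => r • (x - x₀) from rfl, h2]
  simp

theorem Reg_pd_mul (k : ℂ) {φ : V N → ℂ} (hφ : ContDiff ℝ ∞ φ) (p : Fin N) (x : V N) :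
    pd p (fun x => k * φ x) x = k * pd p φ x := by
  unfold pd
  rw [fderiv_const_mul (hφ.differentiable (by simp) x)]
  simp

theorem Reg_mem {x₀ y : V N} {ρ t : ℝ} (hρ : 0 < ρ) (hy : y ∈ closedBall (0 : V N) t) :
    x₀ + ρ • y ∈ closedBall x₀ (t * ρ) := by
  rw [mem_closedBall, dist_eq_norm, add_sub_cancel_left, norm_smul, Real.norm_of_nonneg hρ.le,
    mul_comm]
  exact mul_le_mul_of_nonneg_right (mem_closedBall_zero_iff.1 hy) hρ.le

theorem Reg_weak {U : Set (V N)} {a : Fin N → Fin N → V N → ℂ} {b : Fin N → V N → ℂ}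
    {c u f : V N → ℂ} {x₀ : V N} {ρ : ℝ} (hρ : 0 < ρ) (hU : closedBall x₀ (3 * ρ) ⊆ U)
    (hw : Weak U a b c u f 0) :
    Weak (ball 0 3) (fun p q y => a p q (x₀ + ρ • y)) (fun p y => (ρ : ℂ) * b p (x₀ + ρ • y))
      (fun y => (ρ : ℂ) ^ 2 * c (x₀ + ρ • y)) (fun y => u (x₀ + ρ • y))
      (fun y => (ρ : ℂ) ^ 2 * f (x₀ + ρ • y)) 0 := by
  intro φ hφ
  have hS : ContDiff ℝ ∞ fun x : V N => ρ⁻¹ • (x - x₀) := by fun_prop
  have e1 : ∀ y : V N, ρ⁻¹ • (x₀ + ρ • y - x₀) = y := fun y => by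
    rw [add_sub_cancel_left, inv_smul_smul₀ hρ.ne']
  have hsup : tsupport (fun x => φ (ρ⁻¹ • (x - x₀))) ⊆ closedBall x₀ (3 * ρ) := by
    refine closure_minimal (fun x hx => ?_) isClosed_closedBall
    have := Reg_mem (x₀ := x₀) hρ (ball_subset_closedBall (hφ.2.2 (subset_tsupport _ hx)))
    rwa [smul_inv_smul₀ hρ.ne', add_sub_cancel] at this
  have h1 := hw (fun x => φ (ρ⁻¹ • (x - x₀))) ⟨hφ.1.comp hS,
    (isCompact_closedBall x₀ (3 * ρ)).of_isClosed_subset (isClosed_tsupport _) hsup,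
    hsup.trans hU⟩
  have h2 := Reg_int (fun x => u x * Qop a b c (fun x => φ (ρ⁻¹ • (x - x₀))) x) x₀ ρ
  rw [h1, ← Reg_int _ x₀] at h2
  have hρ' : (ρ : ℂ) ≠ 0 := by exact_mod_cast hρ.ne'
  have e2 : ∀ p q x, pd p (pd q fun x => φ (ρ⁻¹ • (x - x₀))) x =
      (ρ⁻¹ : ℝ) * ((ρ⁻¹ : ℝ) * pd p (pd q φ) (ρ⁻¹ • (x - x₀))) := by
    intro p q x
    rw [Reg_pd hφ.1, Reg_pd_mul _ (φ := fun x => pd q φ (ρ⁻¹ • (x - x₀))) (((hφ.pd q).1.1).comp hS),
      Reg_pd (hφ.pd q).1.1]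
  have h3 := congrArg (fun t => (ρ : ℂ) ^ 2 * t) h2
  simp only [← integral_const_mul] at h3
  refine Eq.trans ?_ (h3.trans ?_)
  · refine integral_congr_ae (Eventually.of_forall fun y => ?_)
    simp only [Qop, e2]
    simp only [Reg_pd hφ.1 x₀ ρ⁻¹, e1, mul_add, Finset.mul_sum, Complex.ofReal_inv]
    congr 1
    · congr 1
      · refine Finset.sum_congr rfl fun p _ => Finset.sum_congr rfl fun q _ => ?_
        field_simp
      · refine Finset.sum_congr rfl fun p _ => ?_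
        field_simp
    · ring
  · refine integral_congr_ae (Eventually.of_forall fun y => ?_)
    simp only [e1, Pi.zero_apply, zero_mul, Finset.sum_const_zero, add_zero, mul_assoc]

theorem Reg_bd (M : ℕ) {U : Set (V N)} (hO : IsOpen U) {f : V N → ℂ} (hf : ContDiffOn ℝ ∞ f U)
    {x₀ : V N} {ρ : ℝ} (hρ : 0 < ρ) (hU : closedBall x₀ (3 * ρ) ⊆ U) (k : ℂ) :
    ContDiffOn ℝ ∞ (fun y => k * f (x₀ + ρ • y)) (ball 0 3) ∧
      ∀ᶠ K in atTop, Bd M (fun y => k * f (x₀ + ρ • y)) (ball 0 3) K := by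
  have h1 : IsOpen ((fun y : V N => x₀ + ρ • y) ⁻¹' U) := hO.preimage (by fun_prop)
  have h2 : ContDiffOn ℝ ∞ (fun y => k * f (x₀ + ρ • y)) ((fun y : V N => x₀ + ρ • y) ⁻¹' U) :=
    contDiffOn_const.mul (hf.comp (by fun_prop) fun y hy => hy)
  have h3 : closedBall (0 : V N) 3 ⊆ (fun y : V N => x₀ + ρ • y) ⁻¹' U := fun y hy =>
    hU (Reg_mem hρ hy)
  obtain ⟨B, -, hB⟩ := exists_Bd M h1 h2 (isCompact_closedBall 0 3) h3
  exact ⟨h2.mono (ball_subset_closedBall.trans h3),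
    (eventually_ge_atTop B).mono fun K hK => hB.mono le_rfl ball_subset_closedBall hK⟩

theorem Reg_loc (h : EllS N) {U : Set (V N)} {a : Fin N → Fin N → V N → ℂ}
    {b : Fin N → V N → ℂ} {c u f : V N → ℂ} (hO : IsOpen U)
    (ha : ∀ p q, ContDiffOn ℝ ∞ (a p q) U) (hb : ∀ p, ContDiffOn ℝ ∞ (b p) U)
    (hc : ContDiffOn ℝ ∞ c U) (hf : ContDiffOn ℝ ∞ f U) {x₀ : V N} (hx : x₀ ∈ U) {κ : ℝ}
    (hκ : 0 < κ) (hs : ∀ ξ, κ * ‖ξ‖ ^ 2 ≤ symb (fun p q => a p q x₀) ξ)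
    (hu : LocallyIntegrableOn u U) (hw : Weak U a b c u f 0) (j : ℕ) :
    ∃ ρ, 0 < ρ ∧ ball x₀ ρ ⊆ U ∧ ∃ w : V N → ℂ, ContDiff ℝ j w ∧
      ∀ᵐ x, x ∈ ball x₀ ρ → u x = w x := by
  obtain ⟨M, hM⟩ := h j
  obtain ⟨ε, hε, hK⟩ := hM κ hκ
  have e1 : ∀ p q, ∀ᶠ ρ in 𝓝[>] (0 : ℝ),
      Bd M (fun y => a p q (x₀ + ρ • y) - a p q x₀) (ball 0 3) ε := by
    intro p q
    obtain ⟨C, ρ₀, hC, hρ₀, -, hB⟩ := Bd_scale M 1 (f := fun x => a p q x - a p q x₀) hO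
      ((ha p q).sub contDiffOn_const) hx (fun n hn => by
        obtain rfl : n = 0 := by omega
        ext m
        simp)
    filter_upwards [Ioc_mem_nhdsGT (lt_min hρ₀ (div_pos hε (by positivity : 0 < C + 1)))]
      with ρ hρ
    refine (hB ρ hρ.1 (hρ.2.trans (min_le_left _ _))).2.mono le_rfl le_rfl ?_
    have := (le_div_iff₀ (by positivity : 0 < C + 1)).1 (hρ.2.trans (min_le_right _ _))
    nlinarith [hρ.1]
  obtain ⟨δ, hδ, hδU⟩ := nhds_basis_closedBall.mem_iff.1 (hO.mem_nhds hx)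
  obtain ⟨ρ, hρa, hρ⟩ := ((eventually_all.2 fun p => eventually_all.2 fun q => e1 p q).and
    (Ioc_mem_nhdsGT (by positivity : 0 < δ / 3))).exists
  have hU : closedBall x₀ (3 * ρ) ⊆ U :=
    (closedBall_subset_closedBall (by linarith [hρ.2])).trans hδU
  have hρ0 := hρ.1
  obtain ⟨K, k1, k2, k3, k4, k5⟩ := ((eventually_all.2 fun p => eventually_all.2 fun q =>
      eventually_ge_atTop ‖a p q x₀‖).and
    ((eventually_all.2 fun p => (Reg_bd M hO (hb p) hρ0 hU (ρ : ℂ)).2).and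
    ((Reg_bd M hO hc hρ0 hU ((ρ : ℂ) ^ 2)).2.and
    ((Reg_bd M hO hf hρ0 hU ((ρ : ℂ) ^ 2)).2.and (eventually_ge_atTop (0 : ℝ)))))).exists
  obtain ⟨C, hC⟩ := hK K
  have hi : IntegrableOn (fun y => u (x₀ + ρ • y)) (ball 0 3) := by
    have i1 := (integrable_indicator_iff measurableSet_closedBall).2
      (hu.integrableOn_compact_subset hU (isCompact_closedBall _ _))
    have i2 := ((i1.comp_add_left x₀).comp_smul hρ0.ne').integrableOn (s := ball 0 3)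
    exact i2.congr_fun (fun y hy => indicator_of_mem (Reg_mem hρ0 (ball_subset_closedBall hy)) u)
      measurableSet_ball
  obtain ⟨w, hw1, hw2, -⟩ := hC (fun p q => a p q x₀) _ _ _ _ _ 0 _ K hs k1
    (fun p q => by simpa using (Reg_bd M hO (ha p q) hρ0 hU 1).1)
    (fun p => (Reg_bd M hO (hb p) hρ0 hU (ρ : ℂ)).1) (Reg_bd M hO hc hρ0 hU _).1
    (Reg_bd M hO hf hρ0 hU _).1 (fun _ => contDiffOn_const) hρa k2 k3 k4
    (fun _ => (Bd_const M (0 : ℂ) _).mono le_rfl le_rfl (by simpa using k5)) hi le_rfl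
    (Reg_weak hρ0 hU hw)
  refine ⟨ρ, hρ0, (ball_subset_closedBall.trans (closedBall_subset_closedBall (by linarith))).trans
    hU, fun x => w (ρ⁻¹ • (x - x₀)), hw1.comp (by fun_prop), ?_⟩
  have q1 : Measure.QuasiMeasurePreserving (fun x : V N => ρ⁻¹ • x) volume volume :=
    ⟨by fun_prop, by
      rw [Measure.map_addHaar_smul volume (inv_ne_zero hρ0.ne')]
      exact Measure.smul_absolutelyContinuous⟩
  have q2 := q1.comp (measurePreserving_sub_right (volume : Measure (V N)) x₀).quasiMeasurePreserving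
  filter_upwards [q2.ae hw2] with x hx' hxb
  have := hx' (by
    rw [mem_ball_zero_iff, Function.comp_apply, norm_smul, norm_inv, Real.norm_of_nonneg hρ0.le,
      inv_mul_lt_iff₀ hρ0, mul_one]
    rwa [mem_ball, dist_eq_norm] at hxb)
  rwa [Function.comp_apply, smul_inv_smul₀ hρ0.ne', add_sub_cancel] at this

theorem Reg_eq {u f g : V N → ℂ} {s t : Set (V N)} (hs : IsOpen s) (ht : IsOpen t)
    (hf : Continuous f) (hg : Continuous g) (h1 : ∀ᵐ x, x ∈ s → u x = f x)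
    (h2 : ∀ᵐ x, x ∈ t → u x = g x) : EqOn f g (s ∩ t) := by
  refine Measure.eqOn_open_of_ae_eq (μ := volume) ?_ (hs.inter ht) hf.continuousOn hg.continuousOn
  rw [EventuallyEq, ae_restrict_iff' (hs.inter ht).measurableSet]
  filter_upwards [h1, h2] with x k1 k2 hx
  rw [← k1 hx.1, k2 hx.2]

theorem regS (h : EllS N) : RegS N := by
  intro U a b c u f hO ha hb hc hf hs hu hw
  have loc : ∀ j : ℕ, ∀ x₀ ∈ U, ∃ ρ, 0 < ρ ∧ ball x₀ ρ ⊆ U ∧ ∃ w : V N → ℂ, ContDiff ℝ j w ∧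
      ∀ᵐ x, x ∈ ball x₀ ρ → u x = w x := fun j x₀ hx => by
    obtain ⟨κ, hκ, hs'⟩ := hs x₀ hx
    exact Reg_loc h hO ha hb hc hf hx hκ hs' hu hw j
  choose! ρ hρ hρU w hw1 hw2 using loc
  have key : ∀ j, ∀ x₀ ∈ U, ∀ x ∈ ball x₀ (ρ j x₀), w 0 x x = w j x₀ x := by
    intro j x₀ hx₀ x hx
    have hxU := hρU j x₀ hx₀ hx
    exact Reg_eq isOpen_ball isOpen_ball (hw1 0 x hxU).continuous (hw1 j x₀ hx₀).continuous
      (hw2 0 x hxU) (hw2 j x₀ hx₀) ⟨mem_ball_self (hρ 0 x hxU), hx⟩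
  refine ⟨fun x => w 0 x x, fun x₀ hx₀ => ContDiffAt.contDiffWithinAt ?_, ?_⟩
  · refine contDiffAt_infty.2 fun j => (hw1 j x₀ hx₀).contDiffAt.congr_of_eventuallyEq ?_
    exact mem_of_superset (ball_mem_nhds x₀ (hρ j x₀ hx₀)) (key j x₀ hx₀)
  · rw [ae_iff]
    refine measure_null_of_locally_null _ fun x₀ hx₀ => ?_
    have hxU : x₀ ∈ U := (Classical.not_imp.1 hx₀).1
    refine ⟨_, inter_mem_nhdsWithin _ (ball_mem_nhds x₀ (hρ 0 x₀ hxU)), ?_⟩
    refine measure_mono_null ?_ (ae_iff.1 (hw2 0 x₀ hxU))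
    intro x hx hx'
    exact hx.1 fun _ => (hx' hx.2).trans (key 0 x₀ hxU x hx.2).symm

end Vale.Agent.P292E
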