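import Mathlib

/-! The projection on the kernel by iteration of the resolvent. -/

open scoped InnerProductSpace
open Set

namespace Vale.Agent.P292E

section aux

variable {Γ H Λ : Type} [AddCommGroup Γ] [Module ℂ Γ] [NormedAddCommGroup H]
  [InnerProductSpace ℂ H] [Fintype Λ] {ι : Γ →ₗ[ℂ] H} {Db δ : Λ → Γ →ₗ[ℂ] Γ}

theorem iter_right (adj : ∀ l v w, ⟪ι (Db l v), ι w⟫_ℂ = ⟪ι v, ι (δ l w)⟫_ℂ) (v w : Γ) :
    ⟪ι v, ι (∑ l, δ l (Db l w))⟫_ℂ = ∑ l, ⟪ι (Db l v), ι (Db l w)⟫_ℂ := by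
  simp only [map_sum, inner_sum, adj]

theorem iter_left (adj : ∀ l v w, ⟪ι (Db l v), ι w⟫_ℂ = ⟪ι v, ι (δ l w)⟫_ℂ) (v w : Γ) :
    ⟪ι (∑ l, δ l (Db l v)), ι w⟫_ℂ = ∑ l, ⟪ι (Db l v), ι (Db l w)⟫_ℂ := by
  rw [← inner_conj_symm, iter_right adj, map_sum]
  simp only [inner_conj_symm]

theorem iter_re (adj : ∀ l v w, ⟪ι (Db l v), ι w⟫_ℂ = ⟪ι v, ι (δ l w)⟫_ℂ) (v : Γ) :
    (⟪ι v, ι (∑ l, δ l (Db l v))⟫_ℂ).re = ∑ l, ‖ι (Db l v)‖ ^ 2 := by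
  rw [iter_right adj, Complex.re_sum]
  exact Finset.sum_congr rfl fun l _ => inner_self_eq_norm_sq (𝕜 := ℂ) _

theorem iter_riesz [CompleteSpace H] (hι : Function.Injective ι) (T : Γ →ₗ[ℂ] Γ) {c : ℝ}
    (hc : 0 < c) (hT : ∀ φ, c * ‖ι φ‖ ≤ ‖ι (T φ)‖) (y : H) :
    ∃ W ∈ closure (range ι), ∀ φ, ⟪ι (T φ), W⟫_ℂ = ⟪ι φ, y⟫_ℂ := by
  have hinj : Function.Injective (ι ∘ₗ T) := by
    refine (injective_iff_map_eq_zero _).2 fun φ hφ => hι ?_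
    have h1 := hT φ
    rw [show ι (T φ) = 0 from hφ, norm_zero] at h1
    rw [map_zero, ← norm_le_zero_iff]
    exact le_of_mul_le_mul_left (by simpa using h1) hc
  let e := LinearEquiv.ofInjective (ι ∘ₗ T) hinj
  let l0 : LinearMap.range (ι ∘ₗ T) →ₗ[ℂ] ℂ := (innerₛₗ ℂ y) ∘ₗ ι ∘ₗ e.symm.toLinearMap
  have hb : ∀ x, ‖l0 x‖ ≤ ‖y‖ / c * ‖x‖ := by
    intro x
    obtain ⟨φ, rfl⟩ := e.surjective x
    have h1 : l0 (e φ) = ⟪y, ι φ⟫_ℂ := by simp [l0]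
    have h2 : ‖e φ‖ = ‖ι (T φ)‖ := rfl
    rw [h1, h2, div_mul_eq_mul_div, le_div_iff₀ hc]
    have h3 := norm_inner_le_norm (𝕜 := ℂ) y (ι φ)
    nlinarith [mul_le_mul_of_nonneg_left (hT φ) (norm_nonneg y)]
  obtain ⟨g, hg, -⟩ := exists_extension_norm_eq (LinearMap.range (ι ∘ₗ T)) (l0.mkContinuous _ hb)
  let K : Submodule ℂ H := (LinearMap.range ι).topologicalClosure
  haveI : CompleteSpace K := (Submodule.isClosed_topologicalClosure _).completeSpace_coe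
  refine ⟨K.starProjection ((InnerProductSpace.toDual ℂ H).symm g), K.starProjection_apply_mem _,
    fun φ => ?_⟩
  have hm : ι (T φ) ∈ K := Submodule.le_topologicalClosure _ ⟨_, rfl⟩
  rw [← K.inner_starProjection_left_eq_right, K.starProjection_eq_self_iff.2 hm,
    ← inner_conj_symm, InnerProductSpace.toDual_symm_apply, ← inner_conj_symm (ι φ)]
  congr 1
  refine (hg (e φ)).trans ?_
  simp [l0]

theorem iter_res [CompleteSpace H] (hι : Function.Injective ι)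
    (adj : ∀ l v w, ⟪ι (Db l v), ι w⟫_ℂ = ⟪ι v, ι (δ l w)⟫_ℂ) {c : ℝ} (hc : 0 < c)
    (reg : ∀ W ∈ closure (range ι), ∀ f : Γ,
      (∀ φ, ⟪ι ((c : ℂ) • φ + ∑ l, δ l (Db l φ)), W⟫_ℂ = ⟪ι φ, ι f⟫_ℂ) → W ∈ range ι) (f : Γ) :
    ∃ u, (c : ℂ) • u + ∑ l, δ l (Db l u) = f := by
  let T : Γ →ₗ[ℂ] Γ := (c : ℂ) • LinearMap.id + ∑ l, δ l ∘ₗ Db l
  have hT : ∀ φ, T φ = (c : ℂ) • φ + ∑ l, δ l (Db l φ) := fun φ => by simp [T]
  have hb : ∀ φ, c * ‖ι φ‖ ≤ ‖ι (T φ)‖ := by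
    intro φ
    have h1 : (⟪ι φ, ι (T φ)⟫_ℂ).re = c * ‖ι φ‖ ^ 2 + ∑ l, ‖ι (Db l φ)‖ ^ 2 := by
      rw [hT, map_add, inner_add_right, Complex.add_re, iter_re adj, map_smul, inner_smul_right,
        Complex.re_ofReal_mul, ← inner_self_eq_norm_sq (𝕜 := ℂ)]
      rfl
    have h2 := (Complex.re_le_norm _).trans (norm_inner_le_norm (𝕜 := ℂ) (ι φ) (ι (T φ)))
    have h3 : 0 ≤ ∑ l, ‖ι (Db l φ)‖ ^ 2 := Finset.sum_nonneg fun _ _ => sq_nonneg _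
    rcases (norm_nonneg (ι φ)).eq_or_lt with h | h
    · rw [← h, mul_zero]
      exact norm_nonneg _
    · exact le_of_mul_le_mul_left (by nlinarith) h
  obtain ⟨W, hW, h⟩ := iter_riesz hι T hc hb (ι f)
  obtain ⟨u, rfl⟩ := reg W hW f fun φ => by rw [← hT, h]
  have h2 : ∀ φ, ⟪ι φ, ι (T u - f)⟫_ℂ = 0 := by
    intro φ
    rw [map_sub, inner_sub_right, ← h, hT, hT, map_add, map_add, inner_add_right, inner_add_left,
      iter_left adj, iter_right adj, map_smul, map_smul, inner_smul_left, inner_smul_right,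
      Complex.conj_ofReal, sub_self]
  refine ⟨u, ?_⟩
  rw [← hT, ← sub_eq_zero]
  exact hι (by rw [map_zero]; exact inner_self_eq_zero.1 (h2 _))

theorem iter_step (adj : ∀ l v w, ⟪ι (Db l v), ι w⟫_ℂ = ⟪ι v, ι (δ l w)⟫_ℂ) {c : ℝ} (hc : 0 < c)
    {u v : Γ} (gap : c * ∑ l, ‖ι (Db l v)‖ ^ 2 ≤ ‖ι (∑ l, δ l (Db l v))‖ ^ 2)
    (h : (c : ℂ) • v + ∑ l, δ l (Db l v) = (c : ℂ) • u) :
    3 * ∑ l, ‖ι (Db l v)‖ ^ 2 ≤ ∑ l, ‖ι (Db l u)‖ ^ 2 ∧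
      2 * c * ‖ι u - ι v‖ ^ 2 ≤ ∑ l, ‖ι (Db l u)‖ ^ 2 := by
  obtain ⟨b, hb⟩ : ∃ b, b = ∑ l, δ l (Db l v) := ⟨_, rfl⟩
  have h1 : (∑ l, ⟪ι (Db l v), ι (Db l b)⟫_ℂ).re = ‖ι b‖ ^ 2 := by
    rw [← iter_left adj, ← hb]
    exact inner_self_eq_norm_sq (𝕜 := ℂ) _
  rw [← hb] at h gap
  have h2 : ∀ l, c ^ 2 * ‖ι (Db l u)‖ ^ 2 = c ^ 2 * ‖ι (Db l v)‖ ^ 2 +
      2 * c * (⟪ι (Db l v), ι (Db l b)⟫_ℂ).re + ‖ι (Db l b)‖ ^ 2 := by
    intro l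
    have h3 : (c : ℂ) • ι (Db l u) = (c : ℂ) • ι (Db l v) + ι (Db l b) := by
      rw [← map_smul, ← map_smul, ← h, map_add, map_add, map_smul, map_smul]
    have h4 := norm_add_sq (𝕜 := ℂ) ((c : ℂ) • ι (Db l v)) (ι (Db l b))
    rw [← h3, norm_smul, norm_smul, inner_smul_left, Complex.conj_ofReal, Complex.norm_real,
      Real.norm_of_nonneg hc.le] at h4
    have h5 : RCLike.re ((c : ℂ) * ⟪ι (Db l v), ι (Db l b)⟫_ℂ) =
        c * (⟪ι (Db l v), ι (Db l b)⟫_ℂ).re := Complex.re_ofReal_mul _ _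
    rw [h5] at h4
    linarith
  have h6 := Finset.sum_congr rfl fun l (_ : l ∈ Finset.univ) => h2 l
  simp only [Finset.sum_add_distrib, ← Finset.mul_sum] at h6
  rw [← Complex.re_sum, h1] at h6
  have h7 : 0 ≤ ∑ l, ‖ι (Db l b)‖ ^ 2 := Finset.sum_nonneg fun _ _ => sq_nonneg _
  have h8 : 0 ≤ ∑ l, ‖ι (Db l v)‖ ^ 2 := Finset.sum_nonneg fun _ _ => sq_nonneg _
  have h9 : ‖ι b‖ = c * ‖ι u - ι v‖ := by
    rw [eq_sub_of_add_eq' h, ← smul_sub, map_smul, norm_smul, Complex.norm_real,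
      Real.norm_of_nonneg hc.le, map_sub]
  have hc2 : 0 < c ^ 2 := by positivity
  refine ⟨le_of_mul_le_mul_left ?_ hc2, le_of_mul_le_mul_left ?_ hc2⟩
  · nlinarith [mul_le_mul_of_nonneg_left gap hc.le]
  · rw [h9] at h6
    nlinarith [mul_nonneg hc2.le h8]

end aux

theorem iter {Γ H Λ : Type} [AddCommGroup Γ] [Module ℂ Γ] [NormedAddCommGroup H]
    [InnerProductSpace ℂ H] [CompleteSpace H] [Fintype Λ] (ι : Γ →ₗ[ℂ] H)
    (hι : Function.Injective ι) (Db δ : Λ → Γ →ₗ[ℂ] Γ)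
    (adj : ∀ l v w, ⟪ι (Db l v), ι w⟫_ℂ = ⟪ι v, ι (δ l w)⟫_ℂ) {c : ℝ} (hc : 0 < c)
    (gap : ∀ u, c * ∑ l, ‖ι (Db l u)‖ ^ 2 ≤ ‖ι (∑ l, δ l (Db l u))‖ ^ 2)
    (reg : ∀ t : ℝ, 0 ≤ t → ∀ W ∈ closure (range ι), ∀ f : Γ,
      (∀ φ, ⟪ι ((t : ℂ) • φ + ∑ l, δ l (Db l φ)), W⟫_ℂ = ⟪ι φ, ι f⟫_ℂ) → W ∈ range ι) (u : Γ) :
    ∃ s, (∀ l, Db l s = 0) ∧ ‖ι (s - u)‖ ^ 2 ≤ 4 / c * ∑ l, ‖ι (Db l u)‖ ^ 2 := by
  choose R hR using fun f => iter_res hι adj hc (reg c hc.le) ((c : ℂ) • f)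
  have st := fun f => iter_step adj hc (gap (R f)) (hR f)
  obtain ⟨E, hE0, hE⟩ : ∃ E : ℝ, 0 ≤ E ∧ E ^ 2 = ∑ l, ‖ι (Db l u)‖ ^ 2 :=
    ⟨_, Real.sqrt_nonneg _, Real.sq_sqrt (Finset.sum_nonneg fun _ _ => sq_nonneg _)⟩
  have h1 : ∀ n : ℕ, ∑ l, ‖ι (Db l (R^[n] u))‖ ^ 2 ≤ (E * (3 / 5) ^ n) ^ 2 := by
    intro n
    induction n with
    | zero => simp [hE]
    | succ n ih =>
      rw [Function.iterate_succ_apply', pow_succ (3 / 5 : ℝ)]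
      nlinarith [(st (R^[n] u)).1, sq_nonneg (E * (3 / 5) ^ n)]
  obtain ⟨k, hk0, hk⟩ : ∃ k : ℝ, 0 < k ∧ k ^ 2 = 2 * c :=
    ⟨_, Real.sqrt_pos.2 (by positivity), Real.sq_sqrt (by positivity)⟩
  have h2 : ∀ n : ℕ, dist (ι (R^[n] u)) (ι (R^[n + 1] u)) ≤ E / k * (3 / 5) ^ n := by
    intro n
    rw [dist_eq_norm, Function.iterate_succ_apply', div_mul_eq_mul_div, le_div_iff₀ hk0]
    refine (pow_le_pow_iff_left₀ (by positivity) (by positivity) two_ne_zero).1 ?_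
    rw [mul_pow _ k, hk, mul_comm]
    exact (st _).2.trans (h1 n)
  obtain ⟨W, hW⟩ := cauchySeq_tendsto_of_complete (cauchySeq_of_le_geometric _ _ (by norm_num) h2)
  have h3 : ∀ l, Filter.Tendsto (fun n : ℕ => ι (Db l (R^[n] u))) Filter.atTop (nhds 0) := by
    intro l
    refine squeeze_zero_norm (a := fun n : ℕ => E * (3 / 5) ^ n) (fun n => ?_) ?_
    · refine (pow_le_pow_iff_left₀ (by positivity) (by positivity) two_ne_zero).1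
        (le_trans ?_ (h1 n))
      exact Finset.single_le_sum (f := fun l => ‖ι (Db l (R^[n] u))‖ ^ 2)
        (fun _ _ => sq_nonneg _) (Finset.mem_univ l)
    · simpa using (tendsto_pow_atTop_nhds_zero_of_lt_one (r := (3 / 5 : ℝ)) (by norm_num)
        (by norm_num)).const_mul E
  have h4 : ∀ φ, ⟪ι (∑ l, δ l (Db l φ)), W⟫_ℂ = 0 := by
    intro φ
    have h5 := Filter.Tendsto.inner (𝕜 := ℂ)
      (tendsto_const_nhds (x := ι (∑ l, δ l (Db l φ)))) hW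
    rw [funext fun n : ℕ => iter_left adj φ (R^[n] u)] at h5
    have h6 := tendsto_finsetSum Finset.univ fun l _ => Filter.Tendsto.inner (𝕜 := ℂ)
      (tendsto_const_nhds (x := ι (Db l φ))) (h3 l)
    rw [tendsto_nhds_unique h5 h6]
    simp
  obtain ⟨s, rfl⟩ := reg 0 le_rfl W
    (mem_closure_of_tendsto hW (Filter.Eventually.of_forall fun n => ⟨_, rfl⟩)) 0
    fun φ => by rw [Complex.ofReal_zero, zero_smul, zero_add, h4, map_zero, inner_zero_right]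
  refine ⟨s, fun l => hι ?_, ?_⟩
  · have h5 := iter_re adj s
    rw [← inner_conj_symm, h4, map_zero, Complex.zero_re] at h5
    have h6 := (Finset.sum_eq_zero_iff_of_nonneg fun _ _ => sq_nonneg _).1 h5.symm l
      (Finset.mem_univ l)
    rw [map_zero]
    exact norm_eq_zero.1 (pow_eq_zero_iff two_ne_zero |>.1 h6)
  · have h5 := dist_le_of_le_geometric_of_tendsto₀ _ _ (by norm_num) h2 hW
    rw [Function.iterate_zero_apply, dist_comm, dist_eq_norm, ← map_sub] at h5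
    have h6 := pow_le_pow_left₀ (norm_nonneg _) h5 2
    rw [div_pow, div_pow, hk] at h6
    refine h6.trans ?_
    rw [← hE, div_div, div_mul_eq_mul_div, div_le_div_iff₀ (by positivity) hc]
    nlinarith [mul_nonneg hc.le (sq_nonneg E)]

end Vale.Agent.P292E
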