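import Vale.Agent.P292E.UOps

/-! The Laplacian in a chart. -/

set_option maxSynthPendingDepth 3

open scoped ContDiff Topology ComplexConjugate InnerProductSpace
open Set Filter MeasureTheory Metric

noncomputable section

namespace Vale.Agent.P292E

variable {N : ℕ}

/-- first order operators -/
def UBox_P (z : Fin N → V N → ℂ) (e F : V N → ℂ) (y : V N) : ℂ :=
  ∑ q, z q y * pd q F y + e y * F y

theorem UBox_at {B : Set (V N)} (hB : IsOpen B) {f : V N → ℂ} (hf : ContDiffOn ℝ ∞ f B) {y : V N}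
    (hy : y ∈ B) : HasFDerivAt f (fderiv ℝ f y) y :=
  ((hf.contDiffAt (hB.mem_nhds hy)).differentiableAt (by simp)).hasFDerivAt

theorem UBox_pd {B : Set (V N)} (hB : IsOpen B) {z : Fin N → V N → ℂ} {e F : V N → ℂ}
    (hz : ∀ q, ContDiffOn ℝ ∞ (z q) B) (he : ContDiffOn ℝ ∞ e B) (hF : ContDiffOn ℝ ∞ F B)
    {y : V N} (hy : y ∈ B) (p : Fin N) : pd p (UBox_P z e F) y =
      ∑ q, (z q y * pd p (pd q F) y + pd p (z q) y * pd q F y) +
        (e y * pd p F y + pd p e y * F y) := by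
  have h1 := (HasFDerivAt.fun_sum (u := Finset.univ) fun q _ =>
    (UBox_at hB (hz q) hy).fun_mul (UBox_at hB (contDiffOn_pd hB hF q) hy)).fun_add
    ((UBox_at hB he hy).fun_mul (UBox_at hB hF hy))
  have h2 : fderiv ℝ (UBox_P z e F) y = _ := h1.fderiv
  rw [pd, h2]
  simp only [add_apply, sum_apply, smul_apply, smul_eq_mul]
  congr 1
  · exact Finset.sum_congr rfl fun q _ => by rw [mul_comm (pd q F y)]; rfl
  · rw [mul_comm (F y)]
    rfl

theorem UBox_comp {B : Set (V N)} (hB : IsOpen B) (w : Fin N → V N → ℂ) (d : V N → ℂ)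
    {z : Fin N → V N → ℂ} {e F G : V N → ℂ}
    (hz : ∀ q, ContDiffOn ℝ ∞ (z q) B) (he : ContDiffOn ℝ ∞ e B) (hF : ContDiffOn ℝ ∞ F B)
    (hG : EqOn G (UBox_P z e F) B) {y : V N} (hy : y ∈ B) :
    UBox_P w d G y = Qop (fun p q y => w p y * z q y)
      (fun q y => ∑ p, w p y * pd p (z q) y + w q y * e y + d y * z q y)
      (fun y => ∑ p, w p y * pd p e y + d y * e y) F y := by
  have h1 : ∀ p, pd p G y = pd p (UBox_P z e F) y := fun p => by
    rw [pd, pd, (hG.eventuallyEq_of_mem (hB.mem_nhds hy)).fderiv_eq]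
  have h2 : ∑ q, (∑ p, w p y * pd p (z q) y) * pd q F y
      = ∑ p, ∑ q, w p y * (pd p (z q) y * pd q F y) := by
    simp only [Finset.sum_mul, mul_assoc]
    exact Finset.sum_comm
  rw [UBox_P, hG hy]
  simp only [h1, UBox_pd hB hz he hF hy, Qop, UBox_P, add_mul, mul_add, Finset.sum_add_distrib, h2]
  simp only [Finset.mul_sum, Finset.sum_mul, mul_assoc]
  ring

theorem UBox_sum {α : Type} [Fintype α] (a : α → Fin N → Fin N → V N → ℂ)
    (b : α → Fin N → V N → ℂ) (c : α → V N → ℂ) (F : V N → ℂ) (y : V N) :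
    ∑ l, Qop (a l) (b l) (c l) F y = Qop (fun p q y => ∑ l, a l p q y) (fun p y => ∑ l, b l p y)
      (fun y => ∑ l, c l y) F y := by
  simp only [Qop, Finset.sum_add_distrib, Finset.sum_mul]
  congr 2
  · rw [Finset.sum_comm]
    exact Finset.sum_congr rfl fun p _ => Finset.sum_comm
  · exact Finset.sum_comm

theorem UBox_main {α : Type} [Fintype α] {B : Set (V N)} (hB : IsOpen B)
    {w z : α → Fin N → V N → ℂ} {d e : α → V N → ℂ} (hw : ∀ l q, ContDiffOn ℝ ∞ (w l q) B)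
    (hz : ∀ l q, ContDiffOn ℝ ∞ (z l q) B) (hd : ∀ l, ContDiffOn ℝ ∞ (d l) B)
    (he : ∀ l, ContDiffOn ℝ ∞ (e l) B) : ∃ (β : Fin N → V N → ℂ) (γ : V N → ℂ),
      (∀ p, ContDiffOn ℝ ∞ (β p) B) ∧ ContDiffOn ℝ ∞ γ B ∧
      ∀ (F : V N → ℂ) (G : α → V N → ℂ), ContDiffOn ℝ ∞ F B →
        (∀ l, EqOn (G l) (UBox_P (z l) (e l) F) B) → ∀ y ∈ B, ∑ l, UBox_P (w l) (d l) (G l) y =
          Qop (fun p q y => ∑ l, w l p y * z l q y) β γ F y := by
  refine ⟨fun q y => ∑ l, (∑ p, w l p y * pd p (z l q) y + w l q y * e l y + d l y * z l q y),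
    fun y => ∑ l, (∑ p, w l p y * pd p (e l) y + d l y * e l y), fun q => ?_, ?_,
    fun F G hF hG y hy => ?_⟩
  · exact ContDiffOn.sum fun l _ => ((ContDiffOn.sum fun p _ =>
      (hw l p).mul (contDiffOn_pd hB (hz l q) p)).add ((hw l q).mul (he l))).add
      ((hd l).mul (hz l q))
  · exact ContDiffOn.sum fun l _ => (ContDiffOn.sum fun p _ =>
      (hw l p).mul (contDiffOn_pd hB (he l) p)).add ((hd l).mul (he l))
  · rw [← UBox_sum]
    exact Finset.sum_congr rfl fun l _ => UBox_comp hB _ _ (hz l) (he l) hF (hG l) hy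

/-- the coefficients of a complex vector field -/
def UBox_z (c : ℂ) (X Y : V N → V N) (q : Fin N) (y : V N) : ℂ := X y q + c * Y y q

/-- the connection term -/
def UBox_e (A : V N → V N →L[ℝ] ℝ) (k : ℕ) (c : ℂ) (X Y : V N → V N) (y : V N) : ℂ :=
  Complex.I * k * (A y (X y) + c * A y (Y y))

theorem UBox_fderiv (F : V N → ℂ) (y v : V N) : fderiv ℝ F y v = ∑ p, (v p : ℂ) * pd p F y := by
  simpa [Dv, pd] using Dv_eq_sum (A := 0) (k := 0) (F := F) (y := y) v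

theorem UBox_Dv (A : V N → V N →L[ℝ] ℝ) (k : ℕ) (c : ℂ) (X Y : V N → V N) (F : V N → ℂ)
    (y : V N) : Dv A k F y (X y) + c * Dv A k F y (Y y) =
      UBox_P (UBox_z c X Y) (UBox_e A k c X Y) F y := by
  simp only [Dv, UBox_P, UBox_z, UBox_e, UBox_fderiv F y (X y), UBox_fderiv F y (Y y), add_mul,
    mul_add, Finset.sum_add_distrib, Finset.mul_sum, mul_assoc]
  ring

theorem UBox_re {B : Set (V N)} {f : V N → ℝ} (hf : ContDiffOn ℝ ∞ f B) :
    ContDiffOn ℝ ∞ (fun y => (f y : ℂ)) B := Complex.ofRealCLM.contDiff.comp_contDiffOn hf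

theorem UBox_z_sm {B : Set (V N)} (c : ℂ) {X Y : V N → V N} (hX : ContDiffOn ℝ ∞ X B)
    (hY : ContDiffOn ℝ ∞ Y B) (q : Fin N) : ContDiffOn ℝ ∞ (UBox_z c X Y q) B :=
  (UBox_re ((EuclideanSpace.proj q : V N →L[ℝ] ℝ).contDiff.comp_contDiffOn hX)).add
    (contDiffOn_const.mul
      (UBox_re ((EuclideanSpace.proj q : V N →L[ℝ] ℝ).contDiff.comp_contDiffOn hY)))

theorem UBox_e_sm {B : Set (V N)} {A : V N → V N →L[ℝ] ℝ} (hA : ContDiffOn ℝ ∞ A B) (k : ℕ)
    (c : ℂ) {X Y : V N → V N} (hX : ContDiffOn ℝ ∞ X B) (hY : ContDiffOn ℝ ∞ Y B) :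
    ContDiffOn ℝ ∞ (UBox_e A k c X Y) B :=
  contDiffOn_const.mul ((UBox_re (hA.clm_apply hX)).add
    (contDiffOn_const.mul (UBox_re (hA.clm_apply hY))))

theorem UBox_symb {α : Type} [Fintype α] (X Y : α → V N → V N) (y ξ : V N) :
    ∑ l, (∑ p, X l y p * ξ p) ^ 2 ≤ symb (fun p q => ∑ l,
      UBox_z (-Complex.I) (X l) (Y l) p y * UBox_z Complex.I (X l) (Y l) q y) ξ := by
  have h1 : ∀ (c : ℂ) l, ∑ p, UBox_z c (X l) (Y l) p y * ξ p
      = (∑ p, X l y p * ξ p : ℝ) + c * (∑ p, Y l y p * ξ p : ℝ) := fun c l => by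
    simp only [UBox_z, add_mul, Finset.sum_add_distrib, Complex.ofReal_sum, Complex.ofReal_mul,
      Finset.mul_sum, mul_assoc]
  have h2 : ∑ p, ∑ q, (∑ l, UBox_z (-Complex.I) (X l) (Y l) p y *
      UBox_z Complex.I (X l) (Y l) q y) * ξ p * ξ q = ∑ l,
      (∑ p, UBox_z (-Complex.I) (X l) (Y l) p y * ξ p) *
        ∑ q, UBox_z Complex.I (X l) (Y l) q y * ξ q := by
    simp only [Finset.sum_mul_sum]
    simp only [Finset.sum_mul]
    rw [Finset.sum_comm (s := (Finset.univ : Finset α))]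
    refine Finset.sum_congr rfl fun p _ => ?_
    rw [Finset.sum_comm]
    refine Finset.sum_congr rfl fun l _ => Finset.sum_congr rfl fun q _ => by ring
  rw [symb, h2, Complex.re_sum]
  refine Finset.sum_le_sum fun l _ => ?_
  rw [h1, h1]
  generalize ∑ p, X l y p * ξ p = u
  generalize ∑ p, Y l y p * ξ p = w
  simp only [Complex.mul_re, Complex.add_re, Complex.add_im, Complex.mul_im, Complex.neg_re,
    Complex.neg_im, Complex.I_re, Complex.I_im, Complex.ofReal_re, Complex.ofReal_im]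
  nlinarith [sq_nonneg w]

namespace UC

variable {S : Type} (U : UC N S)

theorem box_loc (k : ℕ) (a : U.ι) : ∃ (α : Fin N → Fin N → V N → ℂ) (β : Fin N → V N → ℂ)
    (γ : V N → ℂ), (∀ p q, ContDiffOn ℝ ∞ (α p q) (U.B a)) ∧ (∀ p, ContDiffOn ℝ ∞ (β p) (U.B a)) ∧
    ContDiffOn ℝ ∞ γ (U.B a) ∧
    (∀ y ∈ U.B a, ∀ ξ, U.χ a y ^ 2 * ‖ξ‖ ^ 2 ≤ symb (fun p q => α p q y) ξ) ∧
    ∀ s : U.G k, ∀ y ∈ U.B a,
      U.loc a (∑ l, U.δ k l (U.Db k l s) : U.G k) y = -Qop α β γ (U.loc a s) y := by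
  have hB := U.B_open a
  have hX : ∀ l, ContDiffOn ℝ ∞ ((U.bas l).X a) (U.B a) := fun l => (U.bas l).sm a
  have hY : ∀ l, ContDiffOn ℝ ∞ ((U.bas l).J.X a) (U.B a) := fun l => (U.bas l).J.sm a
  have hz := fun (c : ℂ) l => UBox_z_sm c (hX l) (hY l)
  have he := fun (c : ℂ) l => UBox_e_sm (U.geo a).A_sm k c (hX l) (hY l)
  have hd : ∀ l, ContDiffOn ℝ ∞ (fun y => UBox_e (U.A a) k (-Complex.I) ((U.bas l).X a)
      ((U.bas l).J.X a) y + U.loc a (U.dd l) y) (U.B a) :=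
    fun l => (he _ l).add (loc_sm (U.dd l).2 a)
  obtain ⟨β, γ, h1, h2, h3⟩ := UBox_main hB (hz (-Complex.I)) (hz Complex.I) hd (he Complex.I)
  refine ⟨_, β, γ, fun p q => ContDiffOn.sum fun l _ => (hz _ l p).mul (hz _ l q), h1, h2,
    fun y hy ξ => le_trans ?_ (UBox_symb (fun l => (U.bas l).X a) (fun l => (U.bas l).J.X a) y ξ),
    fun s y hy => ?_⟩
  · rw [Fintype.sum_prod_type]
    refine le_trans (le_of_eq ?_) (Finset.single_le_sum
      (f := fun b => ∑ q, (∑ p, (U.bas (b, q)).X a y p * ξ p) ^ 2)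
      (fun b _ => Finset.sum_nonneg fun q _ => sq_nonneg _) (Finset.mem_univ a))
    rw [EuclideanSpace.real_norm_sq_eq, Finset.mul_sum]
    refine Finset.sum_congr rfl fun q _ => ?_
    rw [U.bas_self (a, q) hy]
    simp [ee, mul_pow]
  · rw [← h3 (U.loc a s) (fun l => U.loc a (U.Db k l s)) (loc_sm s.2 a) (fun l y hy =>
      (U.loc_Db k l s hy).trans
        (UBox_Dv (U.A a) k Complex.I ((U.bas l).X a) ((U.bas l).J.X a) (U.loc a s) y)) y hy,
      ← Finset.sum_neg_distrib, Submodule.coe_sum, loc, Finset.sum_apply]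
    refine Finset.sum_congr rfl fun l _ => (U.loc_δ k l _ hy).trans (congrArg Neg.neg ?_)
    have h4 := UBox_Dv (U.A a) k (-Complex.I) ((U.bas l).X a) ((U.bas l).J.X a)
      (U.loc a (U.Db k l s)) y
    rw [neg_mul, ← sub_eq_add_neg] at h4
    rw [UBox_P, add_mul, ← add_assoc]
    exact congrArg (· + _) h4

end UC

end Vale.Agent.P292E
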