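import Vale.Agent.P292E.UAdj
import Vale.Agent.P292E.UBox

/-! Regularity of weak solutions. -/

set_option maxSynthPendingDepth 3

open scoped ContDiff Topology ComplexConjugate InnerProductSpace
open Set Filter MeasureTheory Metric

noncomputable section

namespace Vale.Agent.P292E

variable {N : ℕ}

theorem UReg_tst {s K : Set (V N)} {F : V N → ℂ} (hs : IsOpen s) (hK : IsCompact K) (hKs : K ⊆ s)
    (hF : ContDiffOn ℝ ∞ F s) (h0 : ∀ x ∉ K, F x = 0) : Tst s F ∧ tsupport F ⊆ K := by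
  have h1 : tsupport F ⊆ K :=
    closure_minimal (fun x hx => by_contra fun h => hx (h0 x h)) hK.isClosed
  refine ⟨⟨contDiff_iff_contDiffAt.2 fun x => ?_,
    hK.of_isClosed_subset (isClosed_tsupport _) h1, h1.trans hKs⟩, h1⟩
  by_cases hx : x ∈ tsupport F
  · exact hF.contDiffAt (hs.mem_nhds (hKs (h1 hx)))
  · exact contDiffAt_const.congr_of_eventuallyEq (notMem_tsupport_iff_eventuallyEq.1 hx)

theorem UReg_pd {φ ψ : V N → ℂ} {x : V N} (h : φ =ᶠ[𝓝 x] ψ) (p : Fin N) :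
    pd p φ =ᶠ[𝓝 x] pd p ψ := by
  filter_upwards [h.fderiv (𝕜 := ℝ)] with y hy
  rw [pd, pd, hy]

theorem UReg_germ (α : Fin N → Fin N → V N → ℂ) (β : Fin N → V N → ℂ) (γ : V N → ℂ)
    {φ ψ : V N → ℂ} {x : V N} (h : φ =ᶠ[𝓝 x] ψ) : Qop α β γ φ x = Qop α β γ ψ x := by
  simp only [Qop, h.eq_of_nhds, fun p => (UReg_pd h p).eq_of_nhds,
    fun p q => (UReg_pd (UReg_pd h q) p).eq_of_nhds]

theorem UReg_zero (α : Fin N → Fin N → V N → ℂ) (β : Fin N → V N → ℂ) (γ : V N → ℂ)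
    {φ : V N → ℂ} {x : V N} (h : φ =ᶠ[𝓝 x] 0) : Qop α β γ φ x = 0 := by
  have h0 : ∀ p : Fin N, pd p (0 : V N → ℂ) = 0 := fun p => funext fun y => by simp [pd]
  rw [UReg_germ α β γ h]
  simp [Qop, h0]

theorem UReg_sm {α : Fin N → Fin N → V N → ℂ} {β : Fin N → V N → ℂ} {γ φ : V N → ℂ}
    {s : Set (V N)} (hs : IsOpen s) (hα : ∀ p q, ContDiffOn ℝ ∞ (α p q) s)
    (hβ : ∀ p, ContDiffOn ℝ ∞ (β p) s) (hγ : ContDiffOn ℝ ∞ γ s) (hφ : ContDiffOn ℝ ∞ φ s) :
    ContDiffOn ℝ ∞ (Qop α β γ φ) s :=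
  ((ContDiffOn.sum fun p _ => ContDiffOn.sum fun q _ =>
    (hα p q).mul (contDiffOn_pd hs (contDiffOn_pd hs hφ q) p)).add
    (ContDiffOn.sum fun p _ => (hβ p).mul (contDiffOn_pd hs hφ p))).add (hγ.mul hφ)

theorem UReg_conj {F : V N → ℂ} {s : Set (V N)} (hF : ContDiffOn ℝ ∞ F s) :
    ContDiffOn ℝ ∞ (fun y => conj (F y)) s :=
  Complex.conjCLE.contDiff.comp_contDiffOn hF

theorem UReg_re {F : V N → ℝ} {s : Set (V N)} (hF : ContDiffOn ℝ ∞ F s) :
    ContDiffOn ℝ ∞ (fun y => (F y : ℂ)) s :=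
  Complex.ofRealCLM.contDiff.comp_contDiffOn hF

namespace UC

variable {S : Type} (U : UC N S)

theorem UReg_open (a : U.ι) : IsOpen {y | U.χ a y ≠ 0} := by
  have h := (U.χ_tst a).1.continuous.isOpen_support
  simpa [Function.support] using h

theorem UReg_sub (a : U.ι) : {y | U.χ a y ≠ 0} ⊆ U.B a := fun _ hy =>
  (U.χ_tst a).2.2 (subset_tsupport _ (Complex.ofReal_ne_zero.2 hy))

/-- the Laplacian of a section supported in a chart vanishes outside the chart -/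
theorem UReg_out (k : ℕ) {a : U.ι} {ψ : V N → ℂ} (hψ : Tst (U.B a) ψ) {c : S} (hc : c ∉ U.O a) :
    (∑ l, U.δ k l (U.Db k l ⟨U.ext a k ψ, ext_mem hψ k⟩) : U.G k).1 c = 0 := by
  obtain ⟨α, β, γ, -, -, -, -, hb⟩ := U.box_loc k (U.ch c)
  have hz := U.z_mem _ c (ch_mem c)
  rw [eq_loc (Subtype.property _) (ch_mem c), hb _ _ hz, UReg_zero, neg_zero, mul_zero]
  filter_upwards [(U.cl (U.ch c) a _ hψ.2.1 hψ.2.2).mem_nhds
    ⟨hz, fun h => hc ((U.mem_iff _ a c (ch_mem c)).1 h.1)⟩] with y hy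
  change U.ext a k ψ (U.σ (U.ch c) y) = 0
  by_cases h : U.σ (U.ch c) y ∈ U.O a
  · rw [ext_of_mem h, image_eq_zero_of_notMem_tsupport fun h' => hy.2 ⟨h, h'⟩, mul_zero]
  · exact ext_of_notMem h

/-- the pairing of a section supported in a chart with a section -/
theorem UReg_inner (k : ℕ) (a : U.ι) {F : V N → ℂ} (hF : Tst (U.B a) F)
    (hχ : tsupport F ⊆ {y | U.χ a y ≠ 0}) (f : U.G k) :
    ⟪U.emb k ⟨U.ext a k F, ext_mem hF k⟩, U.emb k f⟫_ℂ =
      ∫ y, conj (F y) * (U.loc a f y * U.dens a y) := by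
  rw [U.inner_ext k a hF hχ (subset_closure ⟨f, rfl⟩)]
  refine integral_congr_ae ?_
  filter_upwards [U.emb_ae k f a] with y hy
  by_cases h : F y = 0
  · simp [h]
  · have h1 : (U.χ a y : ℂ) ≠ 0 := Complex.ofReal_ne_zero.2 (hχ (subset_tsupport _ h))
    rw [hy, mul_assoc, mul_div_cancel_left₀ _ h1]

/-- regularity in one chart -/
theorem UReg_loc (hR : RegS N) (k : ℕ) (t : ℝ) (W : U.Hs) (hW : W ∈ closure (range (U.emb k)))
    (f : U.G k) (h : ∀ φ : U.G k, ⟪U.emb k ((t : ℂ) • φ + ∑ l, U.δ k l (U.Db k l φ)), W⟫_ℂ =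
      ⟪U.emb k φ, U.emb k f⟫_ℂ) (a : U.ι) :
    ∃ w : V N → ℂ, ContDiffOn ℝ ∞ w {y | U.χ a y ≠ 0} ∧
      ∀ᵐ y, U.χ a y ≠ 0 → conj (W a y) * (U.dens a y / U.χ a y) = w y := by
  obtain ⟨α, β, γ, hα, hβ, hγ, hs, hb⟩ := U.box_loc k a
  have hP := U.UReg_open a
  have hB := U.UReg_sub a
  have hd := (UReg_re (U.dens_sm a)).mono hB
  refine hR _ α β (fun y => γ y - t) _ (fun y => -(conj (U.loc a f y) * U.dens a y)) hP
    (fun p q => (hα p q).mono hB) (fun p => (hβ p).mono hB) ((hγ.mono hB).sub contDiffOn_const)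
    ((UReg_conj ((loc_sm f.2 a).mono hB)).mul hd).neg
    (fun y hy => ⟨_, pow_pos (abs_pos.2 hy) 2, fun ξ => by rw [sq_abs]; exact hs y (hB hy) ξ⟩)
    ?_ fun ψ hψ => ?_
  · refine LocallyIntegrableOn.mul_continuousOn ?_ (hd.continuousOn.div
      (U.χ_tst a).1.continuous.continuousOn fun y hy => Complex.ofReal_ne_zero.2 hy)
      hP.isLocallyClosed
    exact ((Lp.memLp (W a)).star.locallyIntegrable one_le_two).locallyIntegrableOn _
  have hψ' : Tst (U.B a) ψ := ⟨hψ.1, hψ.2.1, hψ.2.2.trans hB⟩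
  obtain ⟨hF, hF'⟩ := UReg_tst (F := fun y => t * ψ y - Qop α β γ ψ y) (B_open a) hψ.2.1 hψ'.2.2
    ((contDiffOn_const.mul hψ.1.contDiffOn).sub (UReg_sm (B_open a) hα hβ hγ hψ.1.contDiffOn))
    fun y hy => by
      rw [UReg_zero α β γ (notMem_tsupport_iff_eventuallyEq.1 hy),
        image_eq_zero_of_notMem_tsupport hy, mul_zero, sub_zero]
  have e : (t : ℂ) • (⟨U.ext a k ψ, ext_mem hψ' k⟩ : U.G k)
      + ∑ l, U.δ k l (U.Db k l ⟨U.ext a k ψ, ext_mem hψ' k⟩) = ⟨_, ext_mem hF k⟩ := by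
    apply Subtype.ext
    change _ = U.ext a k fun y => t * ψ y - Qop α β γ ψ y
    refine eq_ext (Submodule.coe_mem (p := U.G k) _) (fun c hc => ?_) fun y hy => ?_
    · change t * U.ext a k ψ c + (∑ l, U.δ k l (U.Db k l ⟨_, ext_mem hψ' k⟩) : U.G k).1 c = 0
      rw [U.UReg_out k hψ' hc, ext_of_notMem hc, mul_zero, add_zero]
    · change _ = t * U.loc a (U.ext a k ψ) y
        + U.loc a (∑ l, U.δ k l (U.Db k l ⟨_, ext_mem hψ' k⟩) : U.G k) y
      have e1 : U.loc a (U.ext a k ψ) =ᶠ[𝓝 y] ψ := by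
        filter_upwards [(B_open a).mem_nhds hy] with x hx using loc_ext hx
      rw [hb _ y hy, loc_ext hy, UReg_germ α β γ e1, ← sub_eq_add_neg]
  have h1 := h ⟨_, ext_mem hψ' k⟩
  rw [e, U.inner_ext k a hF (hF'.trans hψ.2.2) hW, U.UReg_inner k a hψ' hψ.2.2] at h1
  have h2 := congrArg (fun z : ℂ => -conj z) h1
  simp only [← integral_conj, ← integral_neg] at h2
  refine Eq.trans (integral_congr_ae (Eventually.of_forall fun y => ?_))
    (h2.trans (integral_congr_ae (Eventually.of_forall fun y => ?_)))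
  · simp only [Qop, map_mul, map_div₀, Complex.conj_conj, Complex.conj_ofReal]
    ring
  · simp only [map_mul, Complex.conj_conj, Complex.conj_ofReal, Pi.zero_apply, zero_mul,
      Finset.sum_const_zero]
    ring

theorem reg (hR : RegS N) (k : ℕ) (t : ℝ) (W : U.Hs) (hW : W ∈ closure (range (U.emb k)))
    (f : U.G k) (h : ∀ φ : U.G k, ⟪U.emb k ((t : ℂ) • φ + ∑ l, U.δ k l (U.Db k l φ)), W⟫_ℂ =
      ⟪U.emb k φ, U.emb k f⟫_ℂ) : W ∈ range (U.emb k) := by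
  choose w hw hw' using U.UReg_loc hR k t W hW f h
  obtain ⟨ρ, hρ, hρ1, hρ2⟩ := exists_pou (U := U)
  have hρ3 : ∀ a, tsupport (ρ a) ⊆ {y | U.χ a y ≠ 0} := fun a y hy =>
    (hρ1 a hy).trans_ne one_ne_zero
  have hF : ∀ a, Tst {y | U.χ a y ≠ 0} (fun y => conj (ρ a y) * (conj (w a y) * (U.dens a y : ℂ)⁻¹)) :=
    fun a => (UReg_tst (U.UReg_open a) (hρ a).2.1 (hρ3 a) ((UReg_conj (hρ a).1.contDiffOn).mul
      ((UReg_conj (hw a)).mul (((UReg_re (U.dens_sm a)).mono (U.UReg_sub a)).inv fun y hy =>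
        Complex.ofReal_ne_zero.2 (U.dens_pos a (U.UReg_sub a hy)).ne'))) fun y hy => by
      rw [image_eq_zero_of_notMem_tsupport hy, map_zero, zero_mul]).1
  have hF' : ∀ a, Tst (U.B a) (fun y => conj (ρ a y) * (conj (w a y) * (U.dens a y : ℂ)⁻¹)) :=
    fun a => ⟨(hF a).1, (hF a).2.1, (hF a).2.2.trans (U.UReg_sub a)⟩
  have key : ∀ φ : U.G k,
      ⟪U.emb k φ, W - U.emb k (∑ a, ⟨_, ext_mem (hF' a) k⟩)⟫_ℂ = 0 := by
    intro φ
    have hG : ∀ a, Tst (U.B a) fun y => ρ a y * U.loc a φ y := fun a =>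
      cut_contDiff (B_open a) (hρ a) (loc_sm φ.2 a)
    have e : φ = ∑ a, ⟨_, ext_mem (hG a) k⟩ := by
      refine Subtype.ext (funext fun c => ?_)
      rw [Submodule.coe_sum, Finset.sum_apply, ← one_mul (φ.1 c), ← hρ2 c, Finset.sum_mul]
      refine Finset.sum_congr rfl fun a _ => ?_
      by_cases hc : c ∈ U.O a
      · simp only [ext_of_mem hc]
        rw [eq_loc φ.2 hc]
        ring
      · simp only [ext_of_notMem hc, zero_mul]
    rw [inner_sub_right, sub_eq_zero, map_sum, inner_sum]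
    refine (congrArg (fun x => ⟪U.emb k x, W⟫_ℂ) e).trans ?_
    simp only [map_sum, sum_inner]
    refine Finset.sum_congr rfl fun a _ => ?_
    rw [U.inner_ext k a (hG a) (tsupport_mul_subset_left.trans (hρ3 a)) hW, ← inner_conj_symm,
      U.UReg_inner k a (hF' a) (hF a).2.2, ← integral_conj]
    refine integral_congr_ae ?_
    filter_upwards [hw' a] with y hy
    by_cases h0 : ρ a y = 0
    · simp [h0]
    · have h1 := hρ3 a (subset_tsupport _ h0)
      have h2 : (U.dens a y : ℂ) ≠ 0 :=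
        Complex.ofReal_ne_zero.2 (U.dens_pos a (U.UReg_sub a h1)).ne'
      simp only [← hy h1, map_mul, map_div₀, map_inv₀, Complex.conj_conj, Complex.conj_ofReal]
      field_simp
  refine ⟨∑ a, ⟨_, ext_mem (hF' a) k⟩, (sub_eq_zero.1 (inner_self_eq_zero (𝕜 := ℂ).1 ?_)).symm⟩
  rw [inner_sub_left, key, sub_zero]
  exact closure_minimal (t := {x | ⟪x, _⟫_ℂ = 0}) (range_subset_iff.2 key)
    (isClosed_eq (continuous_id.inner continuous_const) continuous_const) hW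

end UC

end Vale.Agent.P292E
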