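import Vale.Agent.P292E.UGap
import Vale.Agent.P292E.UReg
import Vale.Agent.P292E.Iter

/-! The projection on holomorphic sections. -/

set_option maxSynthPendingDepth 3

open scoped ContDiff Topology ComplexConjugate InnerProductSpace
open Set Filter MeasureTheory Metric

noncomputable section

namespace Vale.Agent.P292E

variable {N : ℕ}

theorem UProj_congr {J : V N → V N →L[ℝ] V N} {A : V N → V N →L[ℝ] ℝ} {k : ℕ} {F F' : V N → ℂ}
    {y : V N} (h : F =ᶠ[𝓝 y] F') (v : V N) : Dbv J A k F y v = Dbv J A k F' y v := by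
  rw [Dbv, Dbv, Dv_congr h, Dv_congr h]

theorem UProj_cont {J : V N → V N →L[ℝ] V N} {A : V N → V N →L[ℝ] ℝ} {B : Set (V N)}
    (h : Geo J A B) (k : ℕ) {F : V N → ℂ} (hF : ContDiffOn ℝ ∞ F B) (v : V N) :
    ContinuousOn (fun y => Dbv J A k F y v) B :=
  (Dv_sm h.opn h.A_sm hF (X := fun _ => v) contDiffOn_const).continuousOn.add
    (continuousOn_const.mul (Dv_sm h.opn h.A_sm hF (X := fun y => J y v)
      (h.J_sm.clm_apply contDiffOn_const)).continuousOn)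

theorem UProj_cs {J : V N → V N →L[ℝ] V N} {A : V N → V N →L[ℝ] ℝ} {k : ℕ} {F : V N → ℂ}
    {y v : V N} {M : ℝ} (hv : ‖v‖ ≤ M) :
    ‖Dbv J A k F y v‖ ^ 2 ≤ M ^ 2 * ∑ p, ‖Dbv J A k F y (ee p)‖ ^ 2 := by
  have h1 : ‖Dbv J A k F y v‖ ≤ ∑ p, |v p| * ‖Dbv J A k F y (ee p)‖ := by
    rw [Dbv_eq_sum]
    refine (norm_sum_le _ _).trans (Finset.sum_le_sum fun p _ => ?_)
    rw [norm_mul, Complex.norm_real, Real.norm_eq_abs]
  have h2 := Finset.sum_mul_sq_le_sq_mul_sq Finset.univ (fun p => |v p|)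
    fun p => ‖Dbv J A k F y (ee p)‖
  have h3 : ∑ p, |v p| ^ 2 ≤ M ^ 2 := by
    simp only [sq_abs]
    rw [← EuclideanSpace.real_norm_sq_eq]
    exact pow_le_pow_left₀ (norm_nonneg _) hv 2
  exact (pow_le_pow_left₀ (norm_nonneg _) h1 2).trans (h2.trans
    (mul_le_mul_of_nonneg_right h3 (Finset.sum_nonneg fun _ _ => sq_nonneg _)))

namespace UC

variable {S : Type} (U : UC N S)

theorem UProj_hol {k : ℕ} (s : U.G k) (h : ∀ l, U.Db k l s = 0) (b : U.ι) {y : V N}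
    (hy : y ∈ U.B b) (v : V N) : Dbv (U.J b) (U.A b) k (U.loc b s) y v = 0 := by
  obtain ⟨e, he, hκ⟩ := U.cover (U.σ b y)
  have hx : U.tr e b y ∈ U.B e := U.z_mem e _ he
  have hχ : U.χ e (U.tr e b y) = 1 := U.χ_one e _ (subset_tsupport _ (by
    have : U.κ e (U.tr e b y) = 1 := hκ
    simp [this]))
  have h1 : ∀ p, Dbv (U.J e) (U.A e) k (U.loc e s) (U.tr e b y) (ee p) = 0 := by
    intro p
    have h2 := U.loc_Db k (e, p) s hx
    rw [h, U.bas_self (e, p) hx, hχ, one_smul] at h2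
    exact h2.symm
  rw [Dbv_tr s.2 (⟨hy, he⟩ : y ∈ U.W b e), Dbv_eq_sum]
  simp only [h1, mul_zero, Finset.sum_const_zero]

theorem UProj_supp {a : U.ι} {K : Set (V N)} (hK : IsCompact K) (hKa : K ⊆ U.B a) {k : ℕ}
    (u : U.G k) (hu : ∀ c, u.1 c ≠ 0 → c ∈ U.O a ∧ U.z a c ∈ K) (l : U.Λ) (c : S)
    (hc : (U.Db k l u).1 c ≠ 0) : c ∈ U.O a ∧ U.z a c ∈ K := by
  by_contra h
  have he := U.ch_mem c
  have hx := U.z_mem _ c he
  have hW := (U.cl (U.ch c) a K hK hKa).mem_nhds (x := U.z (U.ch c) c) ⟨hx, fun k' => by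
    have ha := (U.mem_iff _ a c he).1 k'.1
    exact h ⟨ha, U.z_eq _ a c he ha ▸ k'.2⟩⟩
  have h0 : U.loc (U.ch c) u =ᶠ[𝓝 (U.z (U.ch c) c)] fun _ => 0 := by
    filter_upwards [hW] with x hx'
    by_contra k'
    exact hx'.2 (hu _ k')
  refine hc ?_
  rw [eq_loc (U.Db k l u).2 he, U.loc_Db k l u hx, UProj_congr h0]
  simp [Dbv, Dv]

theorem UProj_est (a : U.ι) {K : Set (V N)} (hK : IsCompact K) (hKa : K ⊆ U.B a) :
    ∃ C : ℝ, ∀ (k : ℕ) (u : U.G k), (∀ c, u.1 c ≠ 0 → c ∈ U.O a ∧ U.z a c ∈ K) →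
      ∑ l, ‖U.emb k (U.Db k l u)‖ ^ 2 ≤
        C * ∫ y in K, ∑ p, ‖Dbv (U.J a) (U.A a) k (U.loc a u) y (ee p)‖ ^ 2 := by
  obtain ⟨C, hC, hn⟩ := U.norm_le_loc a hK hKa
  have hM : ∀ l : U.Λ, ∃ M, ∀ y ∈ K, ‖(U.bas l).X a y‖ ≤ M := fun l =>
    hK.exists_bound_of_continuousOn (((U.bas l).sm a).continuousOn.mono hKa)
  choose M hM using hM
  refine ⟨C * ∑ l, M l ^ 2, fun k u hs => ?_⟩
  have hc : ContinuousOn (fun y => ∑ p, ‖Dbv (U.J a) (U.A a) k (U.loc a u) y (ee p)‖ ^ 2)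
      (U.B a) := continuousOn_finsetSum _ fun p _ =>
    (UProj_cont (U.geo a) k (loc_sm u.2 a) (ee p)).norm.pow 2
  have hi := (hc.mono hKa).integrableOn_compact (μ := volume) hK
  rw [Finset.mul_sum, Finset.sum_mul]
  refine Finset.sum_le_sum fun l _ => (hn k _ (U.UProj_supp hK hKa u hs l)).trans ?_
  have hc' : ContinuousOn (fun y => ‖U.loc a (U.Db k l u) y‖ ^ 2) (U.B a) :=
    (loc_sm (U.Db k l u).2 a).continuousOn.norm.pow 2
  rw [mul_assoc, ← integral_const_mul (M l ^ 2)]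
  refine mul_le_mul_of_nonneg_left (setIntegral_mono_on
    ((hc'.mono hKa).integrableOn_compact hK) (hi.const_mul _) hK.measurableSet fun y hy => ?_) hC
  rw [U.loc_Db k l u (hKa hy)]
  exact UProj_cs (hM l y hy)

theorem UProj_sub {k : ℕ} (s u : U.G k) (b : U.ι) {K : Set (V N)} (hK : IsCompact K)
    (hχ : ∀ y ∈ K, U.χ b y = 1) :
    ∫ y in K, ‖U.loc b s y - U.loc b u y‖ ^ 2 ≤ ‖U.emb k (s - u)‖ ^ 2 := by
  have e : ∀ y, U.loc b (s - u : U.G k) y = U.loc b s y - U.loc b u y := fun y => rfl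
  simpa only [e] using U.loc_le_norm k (s - u) b hK hχ

theorem proj (hR : RegS N) (a : U.ι) {K : Set (V N)} (hK : IsCompact K) (hKa : K ⊆ U.B a) :
    ∃ (k₀ : ℕ) (C : ℝ), ∀ k, k₀ ≤ k → ∀ u ∈ U.G k, (∀ c, u c ≠ 0 → c ∈ U.O a ∧ U.z a c ∈ K) →
      ∃ s ∈ U.G k, (∀ b, ∀ y ∈ U.B b, ∀ v, Dbv (U.J b) (U.A b) k (U.loc b s) y v = 0) ∧
        ∀ (b : U.ι) (K' : Set (V N)), IsCompact K' → (∀ y ∈ K', U.χ b y = 1) →
          ∫ y in K', ‖U.loc b s y - U.loc b u y‖ ^ 2 ≤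
            C / k * ∫ y in K, ∑ p, ‖Dbv (U.J a) (U.A a) k (U.loc a u) y (ee p)‖ ^ 2 := by
  obtain ⟨c, k₀, hc, hk₀, hgap⟩ := U.gap
  obtain ⟨C, hC⟩ := U.UProj_est a hK hKa
  refine ⟨k₀, 4 / c * C, fun k hk u hu hs => ?_⟩
  have hk0 : (0 : ℝ) < k := by exact_mod_cast hk₀.trans_le hk
  obtain ⟨s, h1, h2⟩ := iter (U.emb k) (U.emb_inj k) (U.Db k) (U.δ k) (U.adj k)
    (mul_pos hc hk0) (hgap k hk) (fun t _ W hW f h => U.reg hR k t W hW f h) ⟨u, hu⟩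
  refine ⟨s, s.2, fun b y hy v => U.UProj_hol s h1 b hy v, fun b K' hK' hχ => ?_⟩
  have h3 := mul_le_mul_of_nonneg_left (hC k ⟨u, hu⟩ hs) (by positivity : 0 ≤ 4 / (c * k))
  have e : ∀ x : ℝ, 4 / (c * k) * (C * x) = 4 / c * C / k * x := fun x => by
    field_simp
  rw [e] at h3
  exact (U.UProj_sub s ⟨u, hu⟩ b hK' hχ).trans (h2.trans h3)

end UC

end Vale.Agent.P292E
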