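import Vale.Agent.P292E.EDefs

/-! Calculus of bounds for derivatives. -/

open scoped ContDiff Topology FourierTransform
open Set Filter MeasureTheory Metric

noncomputable section

namespace Vale.Agent.P292E

variable {N : ℕ}

section
variable {F G H : Type} [NormedAddCommGroup F] [NormedSpace ℝ F] [NormedAddCommGroup G]
  [NormedSpace ℝ G] [NormedAddCommGroup H] [NormedSpace ℝ H] {M : ℕ} {s : Set (V N)} {B B' : ℝ}

theorem Bd.mono {f : V N → F} (h : Bd M f s B) {M' : ℕ} {s' : Set (V N)} (hM : M' ≤ M)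
    (hs : s' ⊆ s) (hB : B ≤ B') : Bd M' f s' B' :=
  fun i hi x hx => (h i (hi.trans hM) x (hs hx)).trans hB

theorem Bd.norm_le {f : V N → F} (h : Bd M f s B) {x : V N} (hx : x ∈ s) : ‖f x‖ ≤ B := by
  simpa using h 0 (Nat.zero_le _) x hx

theorem BdC_le (i : ℕ) : (i : WithTop ℕ∞) ≤ ∞ := by exact_mod_cast le_top

theorem BdC_at {f : V N → F} (hs : IsOpen s) (hf : ContDiffOn ℝ ∞ f s) {x : V N} (hx : x ∈ s)
    (i : ℕ) : ContDiffAt ℝ i f x := (hf.contDiffAt (hs.mem_nhds hx)).of_le (BdC_le i)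

theorem Bd.congr {f g : V N → F} (hs : IsOpen s) (h : Bd M f s B) (e : EqOn g f s) :
    Bd M g s B := fun i hi x hx => by
  rw [((e.eventuallyEq_of_mem (hs.mem_nhds hx)).iteratedFDeriv ℝ i).eq_of_nhds]
  exact h i hi x hx

theorem Bd_const (M : ℕ) (c : F) (s : Set (V N)) : Bd M (fun _ => c) s ‖c‖ := fun i _ x _ => by
  rcases eq_or_ne i 0 with rfl | h
  · simp
  · simp [iteratedFDeriv_const_of_ne h]

theorem Bd.add {f g : V N → F} (hs : IsOpen s) (hf : ContDiffOn ℝ ∞ f s) (hg : ContDiffOn ℝ ∞ g s)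
    (h : Bd M f s B) (h' : Bd M g s B') : Bd M (fun x => f x + g x) s (B + B') :=
  fun i hi x hx => by
    rw [fun_iteratedFDeriv_add_apply (BdC_at hs hf hx i) (BdC_at hs hg hx i)]
    exact (norm_add_le _ _).trans (add_le_add (h i hi x hx) (h' i hi x hx))

theorem Bd.neg {f : V N → F} (h : Bd M f s B) : Bd M (fun x => -f x) s B := fun i hi x hx => by
  have := iteratedFDeriv_neg_apply (𝕜 := ℝ) (i := i) (f := f) (x := x)
  rw [show (fun x => -f x) = -f from rfl, this, norm_neg]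
  exact h i hi x hx

theorem Bd.sum {ι : Type} [Fintype ι] {f : ι → V N → F} (hs : IsOpen s)
    (hf : ∀ i, ContDiffOn ℝ ∞ (f i) s) (h : ∀ i, Bd M (f i) s B) :
    Bd M (fun x => ∑ i, f i x) s (Fintype.card ι * B) := fun i hi x hx => by
  rw [iteratedFDeriv_fun_sum_apply fun j _ => BdC_at hs (hf j) hx i]
  refine (norm_sum_le _ _).trans ((Finset.sum_le_sum fun j _ => h j i hi x hx).trans ?_)
  simp

theorem Bd.clm {f : V N → F} (L : F →L[ℝ] G) (hs : IsOpen s) (hf : ContDiffOn ℝ ∞ f s)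
    (h : Bd M f s B) : Bd M (fun x => L (f x)) s (‖L‖ * B) := fun i hi x hx =>
  (L.norm_iteratedFDeriv_comp_left (BdC_at hs hf hx i) le_rfl).trans
    (mul_le_mul_of_nonneg_left (h i hi x hx) (norm_nonneg _))

theorem Bd.bilin {f : V N → F} {g : V N → G} (L : F →L[ℝ] G →L[ℝ] H) (hs : IsOpen s)
    (hf : ContDiffOn ℝ ∞ f s) (hg : ContDiffOn ℝ ∞ g s) (h : Bd M f s B) (h' : Bd M g s B') :
    Bd M (fun x => L (f x) (g x)) s (‖L‖ * 2 ^ M * B * B') := fun i hi x hx => by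
  have hB : 0 ≤ B := (norm_nonneg _).trans (h.norm_le hx)
  have hB' : 0 ≤ B' := (norm_nonneg _).trans (h'.norm_le hx)
  rw [← iteratedFDerivWithin_of_isOpen i hs hx]
  refine (L.norm_iteratedFDerivWithin_le_of_bilinear hf hg hs.uniqueDiffOn hx (BdC_le i)).trans ?_
  have h1 : ∑ j ∈ Finset.range (i + 1), (i.choose j : ℝ) * ‖iteratedFDerivWithin ℝ j f s x‖ *
      ‖iteratedFDerivWithin ℝ (i - j) g s x‖ ≤ 2 ^ M * B * B' := by
    calc _ ≤ ∑ j ∈ Finset.range (i + 1), (i.choose j : ℝ) * B * B' := by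
          refine Finset.sum_le_sum fun j hj => ?_
          have hj' : j ≤ i := Nat.lt_succ_iff.1 (Finset.mem_range.1 hj)
          rw [iteratedFDerivWithin_of_isOpen j hs hx, iteratedFDerivWithin_of_isOpen _ hs hx]
          exact mul_le_mul (mul_le_mul_of_nonneg_left (h j (hj'.trans hi) x hx) (by positivity))
            (h' _ ((Nat.sub_le _ _).trans hi) x hx) (norm_nonneg _) (by positivity)
      _ = 2 ^ i * B * B' := by
          rw [← Finset.sum_mul, ← Finset.sum_mul, ← Nat.cast_sum, Nat.sum_range_choose]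
          push_cast; rfl
      _ ≤ 2 ^ M * B * B' := by
          have : (2 : ℝ) ^ i ≤ 2 ^ M := pow_le_pow_right₀ one_le_two hi
          gcongr
  calc _ ≤ ‖L‖ * (2 ^ M * B * B') := mul_le_mul_of_nonneg_left h1 L.opNorm_nonneg
    _ = _ := by ring

theorem Bd.mul {f g : V N → ℂ} (hs : IsOpen s) (hf : ContDiffOn ℝ ∞ f s) (hg : ContDiffOn ℝ ∞ g s)
    (h : Bd M f s B) (h' : Bd M g s B') : Bd M (fun x => f x * g x) s (2 ^ M * B * B') :=
  fun i hi x hx => by
    have hB : 0 ≤ B := (norm_nonneg _).trans (h.norm_le hx)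
    have hB' : 0 ≤ B' := (norm_nonneg _).trans (h'.norm_le hx)
    refine (Bd.bilin (ContinuousLinearMap.mul ℝ ℂ) hs hf hg h h' i hi x hx).trans ?_
    have h1 := ContinuousLinearMap.opNorm_mul_le ℝ ℂ
    have h2 : 0 ≤ 2 ^ M * B * B' := by positivity
    nlinarith

theorem Bd.fderiv {f : V N → F} (h : Bd (M + 1) f s B) : Bd M (fderiv ℝ f) s B :=
  fun i hi x hx => by
    rw [norm_iteratedFDeriv_fderiv]
    exact h (i + 1) (Nat.succ_le_succ hi) x hx

theorem BdC_fderiv {f : V N → F} (hs : IsOpen s) (hf : ContDiffOn ℝ ∞ f s) :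
    ContDiffOn ℝ ∞ (fderiv ℝ f) s := hf.fderiv_of_isOpen hs (by simp)

theorem contDiffOn_pd {f : V N → ℂ} (hs : IsOpen s) (hf : ContDiffOn ℝ ∞ f s) (p : Fin N) :
    ContDiffOn ℝ ∞ (pd p f) s := (BdC_fderiv hs hf).clm_apply contDiffOn_const

theorem Bd.pd {f : V N → ℂ} (hs : IsOpen s) (hf : ContDiffOn ℝ ∞ f s) (h : Bd (M + 1) f s B)
    (p : Fin N) : Bd M (pd p f) s B := fun i hi x hx => by
  have hB : 0 ≤ B := (norm_nonneg _).trans (h.norm_le hx)
  refine (Bd.clm (ContinuousLinearMap.apply ℝ ℂ (ee p)) hs (BdC_fderiv hs hf) h.fderiv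
    i hi x hx).trans (mul_le_of_le_one_left hB ?_)
  refine ContinuousLinearMap.opNorm_le_bound _ zero_le_one fun L => ?_
  simpa [ee] using L.le_opNorm (ee p)

theorem Bd_lin (M : ℕ) (L : V N →L[ℝ] F) : Bd M (fun x => L x) (ball 0 3) (3 * ‖L‖) := by
  intro i _ x hx
  have hL := norm_nonneg L
  rcases i with _ | i
  · rw [norm_iteratedFDeriv_zero]
    have := mem_ball_zero_iff.1 hx
    nlinarith [L.le_opNorm x]
  · rw [← norm_iteratedFDeriv_fderiv, show fderiv ℝ (fun x => L x) = fun _ => L from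
      funext fun _ => L.fderiv]
    linarith [Bd_const i L univ i le_rfl x (mem_univ x)]

theorem exists_Bd (M : ℕ) {f : V N → F} {K : Set (V N)} (hs : IsOpen s) (hf : ContDiffOn ℝ ∞ f s)
    (hK : IsCompact K) (hKs : K ⊆ s) : ∃ B, 0 ≤ B ∧ Bd M f K B := by
  have h : ∀ i : ℕ, ∃ C, ∀ x ∈ K, ‖iteratedFDeriv ℝ i f x‖ ≤ C := fun i =>
    hK.exists_bound_of_continuousOn fun x hx =>
      ((BdC_at hs hf (hKs hx) i).continuousAt_iteratedFDeriv le_rfl).continuousWithinAt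
  choose C hC using h
  refine ⟨∑ i ∈ Finset.range (M + 1), |C i|, Finset.sum_nonneg fun _ _ => abs_nonneg _,
    fun i hi x hx => ((hC i x hx).trans (le_abs_self _)).trans ?_⟩
  exact Finset.single_le_sum (f := fun i => |C i|) (fun _ _ => abs_nonneg _)
    (Finset.mem_range.2 (Nat.lt_succ_of_le hi))

theorem BdC_zero {χ : V N → ℂ} (a : V N → ℂ) {x : V N} (hx : x ∉ tsupport χ) :
    (fun x => χ x * a x) =ᶠ[𝓝 x] fun _ => 0 := by
  filter_upwards [notMem_tsupport_iff_eventuallyEq.1 hx] with y hy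
  rw [hy]; simp

/-- multiplication by a cut-off -/
theorem cut_contDiff {χ a : V N → ℂ} (hs : IsOpen s) (hχ : Tst s χ) (ha : ContDiffOn ℝ ∞ a s) :
    Tst s fun x => χ x * a x := by
  refine ⟨contDiff_iff_contDiffAt.2 fun x => ?_, hχ.2.1.mul_right,
    (tsupport_mul_subset_left).trans hχ.2.2⟩
  by_cases hx : x ∈ tsupport χ
  · exact hχ.1.contDiffAt.mul (ha.contDiffAt (hs.mem_nhds (hχ.2.2 hx)))
  · exact contDiffAt_const.congr_of_eventuallyEq (BdC_zero a hx)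

theorem cut_Bd (M : ℕ) {χ : V N → ℂ} (hs : IsOpen s) (hχ : Tst s χ) : ∃ C : ℝ, 0 ≤ C ∧
    ∀ (a : V N → ℂ) (B : ℝ), 0 ≤ B → ContDiffOn ℝ ∞ a s → Bd M a s B →
      Bd M (fun x => χ x * a x) univ (C * B) := by
  obtain ⟨C, hC, hb⟩ := exists_Bd M isOpen_univ hχ.1.contDiffOn hχ.2.1 (subset_univ _)
  have h1 : Bd M χ s C := fun i hi x _ => by
    by_cases hx : x ∈ tsupport χ
    · exact hb i hi x hx
    · rw [((notMem_tsupport_iff_eventuallyEq.1 hx).iteratedFDeriv ℝ i).eq_of_nhds]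
      exact (Bd_const M (0 : ℂ) univ i hi x (mem_univ x)).trans (by simpa using hC)
  refine ⟨2 ^ M * C, by positivity, fun a B hB ha h i hi x _ => ?_⟩
  by_cases hx : x ∈ tsupport χ
  · exact Bd.mul hs hχ.1.contDiffOn ha h1 h i hi x (hχ.2.2 hx)
  · rw [((BdC_zero a hx).iteratedFDeriv ℝ i).eq_of_nhds]
    refine (Bd_const M (0 : ℂ) univ i hi x (mem_univ x)).trans ?_
    rw [norm_zero]; positivity

theorem Tst.pd {χ : V N → ℂ} (hχ : Tst s χ) (p : Fin N) :
    Tst s (pd p χ) ∧ tsupport (pd p χ) ⊆ tsupport χ := by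
  have h : tsupport (P292E.pd p χ) ⊆ tsupport χ := tsupport_fderiv_apply_subset ℝ (ee p)
  exact ⟨⟨contDiffOn_univ.1 (contDiffOn_pd isOpen_univ hχ.1.contDiffOn p),
    hχ.2.1.of_isClosed_subset (isClosed_tsupport _) h, h.trans hχ.2.2⟩, h⟩

theorem BdC_flat {f : V N → F} {x₀ : V N} {i : ℕ} {R : ℝ} (hs : IsOpen s)
    (hf : ContDiffOn ℝ ∞ f s) (hR : closedBall x₀ R ⊆ s)
    (h0 : ∀ n < i, iteratedFDeriv ℝ n f x₀ = 0)
    (hb : ∀ x ∈ closedBall x₀ R, ‖iteratedFDeriv ℝ i f x‖ ≤ B) (m : ℕ) :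
    ∀ n, n + m = i → ∀ x ∈ closedBall x₀ R, ‖iteratedFDeriv ℝ n f x‖ ≤ B * ‖x - x₀‖ ^ m := by
  induction m with
  | zero => rintro n rfl x hx; simpa using hb x hx
  | succ m ih =>
    intro n hn x hx
    have hB : 0 ≤ B := (norm_nonneg _).trans (hb x hx)
    have hsub : closedBall x₀ ‖x - x₀‖ ⊆ closedBall x₀ R :=
      closedBall_subset_closedBall (by rwa [mem_closedBall, dist_eq_norm] at hx)
    have h1 := (convex_closedBall x₀ ‖x - x₀‖).norm_image_sub_le_of_norm_fderiv_le (𝕜 := ℝ)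
      (f := iteratedFDeriv ℝ n f) (C := B * ‖x - x₀‖ ^ m) (x := x₀) (y := x)
      (fun z hz => (BdC_at hs hf (hR (hsub hz)) (n + 1)).differentiableAt_iteratedFDeriv
        (by exact_mod_cast Nat.lt_succ_self n))
      (fun z hz => by
        rw [norm_fderiv_iteratedFDeriv]
        refine (ih (n + 1) (by omega) z (hsub hz)).trans ?_
        rw [mem_closedBall, dist_eq_norm] at hz
        gcongr)
      (mem_closedBall_self (norm_nonneg _)) (by rw [mem_closedBall, dist_eq_norm])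
    rwa [h0 n (by omega), sub_zero, mul_assoc, ← pow_succ] at h1

theorem BdC_scale {f : V N → F} (x₀ : V N) {ρ : ℝ} (hρ : 0 ≤ ρ) (hs : IsOpen s)
    (hf : ContDiffOn ℝ ∞ f s) {y : V N} (hy : x₀ + ρ • y ∈ s) (n : ℕ) :
    ‖iteratedFDeriv ℝ n (fun y => f (x₀ + ρ • y)) y‖ ≤
      ρ ^ n * ‖iteratedFDeriv ℝ n f (x₀ + ρ • y)‖ := by
  let g : V N →L[ℝ] V N := ρ • ContinuousLinearMap.id ℝ (V N)
  let t : Set (V N) := (fun z => x₀ + z) ⁻¹' s
  have ht : IsOpen t := hs.preimage (by fun_prop)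
  have ht' : IsOpen (g ⁻¹' t) := ht.preimage g.continuous
  have hf' : ContDiffOn ℝ ∞ (fun z => f (x₀ + z)) t :=
    hf.comp (contDiff_const.add contDiff_id).contDiffOn fun z hz => hz
  have hy' : g y ∈ t := hy
  have h1 := g.iteratedFDerivWithin_comp_right hf' ht.uniqueDiffOn ht'.uniqueDiffOn hy' (BdC_le n)
  rw [iteratedFDerivWithin_of_isOpen n ht' hy', iteratedFDerivWithin_of_isOpen n ht hy',
    iteratedFDeriv_comp_add_left] at h1
  have hg : ‖g‖ ≤ ρ := ContinuousLinearMap.opNorm_le_bound _ hρ fun z => by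
    simp [g, norm_smul, abs_of_nonneg hρ]
  refine (congrArg norm h1).trans_le
    ((ContinuousMultilinearMap.norm_compContinuousLinearMap_le _ _).trans ?_)
  rw [Finset.prod_const, Finset.card_fin, mul_comm]
  exact mul_le_mul_of_nonneg_right (pow_le_pow_left₀ (norm_nonneg _) hg n) (norm_nonneg _)

/-- rescaling at a point: if the derivatives of order less than `i` vanish, we gain `ρ ^ i` -/
theorem Bd_scale (M i : ℕ) {f : V N → F} {x₀ : V N} (hs : IsOpen s) (hf : ContDiffOn ℝ ∞ f s)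
    (hx : x₀ ∈ s) (h0 : ∀ n < i, iteratedFDeriv ℝ n f x₀ = 0) :
    ∃ C ρ₀ : ℝ, 0 ≤ C ∧ 0 < ρ₀ ∧ closedBall x₀ (3 * ρ₀) ⊆ s ∧ ∀ ρ, 0 < ρ → ρ ≤ ρ₀ →
      ContDiffOn ℝ ∞ (fun y => f (x₀ + ρ • y)) (ball 0 3) ∧
        Bd M (fun y => f (x₀ + ρ • y)) (ball 0 3) (C * ρ ^ i) := by
  obtain ⟨δ, hδ, hb⟩ := nhds_basis_closedBall.mem_iff.1 (hs.mem_nhds hx)
  have hR : closedBall x₀ (3 * min (δ / 3) 1) ⊆ s :=
    (closedBall_subset_closedBall (by linarith [min_le_left (δ / 3) 1])).trans hb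
  obtain ⟨B, hB, hBd⟩ := exists_Bd (max M i) hs hf (isCompact_closedBall _ _) hR
  refine ⟨B * 3 ^ i, min (δ / 3) 1, by positivity, by positivity, hR, fun ρ hρ hρ' => ?_⟩
  have hn : ∀ y ∈ ball (0 : V N) 3, ‖x₀ + ρ • y - x₀‖ ≤ 3 * ρ := fun y hy => by
    rw [add_sub_cancel_left, norm_smul, Real.norm_of_nonneg hρ.le, mul_comm]
    exact mul_le_mul_of_nonneg_right (mem_ball_zero_iff.1 hy).le hρ.le
  have hm : ∀ y ∈ ball (0 : V N) 3, x₀ + ρ • y ∈ closedBall x₀ (3 * min (δ / 3) 1) :=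
    fun y hy => by
      rw [mem_closedBall, dist_eq_norm]
      linarith [hn y hy]
  refine ⟨hf.comp (by fun_prop) fun y hy => hR (hm y hy), fun n hnM y hy => ?_⟩
  refine (BdC_scale x₀ hρ.le hs hf (hR (hm y hy)) n).trans ?_
  rcases le_total i n with hin | hin
  · have h1 : ρ ^ n ≤ ρ ^ i := pow_le_pow_of_le_one hρ.le (hρ'.trans (min_le_right _ _)) hin
    have h2 := hBd n (hnM.trans (le_max_left _ _)) _ (hm y hy)
    have h3 : (1 : ℝ) ≤ 3 ^ i := one_le_pow₀ (by norm_num)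
    calc _ ≤ ρ ^ i * B := mul_le_mul h1 h2 (norm_nonneg _) (by positivity)
      _ = B * 1 * ρ ^ i := by ring
      _ ≤ _ := by gcongr
  · obtain ⟨m, rfl⟩ := Nat.exists_eq_add_of_le hin
    have h1 := BdC_flat hs hf hR h0 (hBd _ (le_max_right _ _)) m n rfl _ (hm y hy)
    have h2 := hn y hy
    have h3 : (1 : ℝ) ≤ 3 ^ n := one_le_pow₀ (by norm_num)
    calc _ ≤ ρ ^ n * (B * (3 * ρ) ^ m) := by
          refine mul_le_mul_of_nonneg_left (h1.trans ?_) (by positivity)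
          gcongr
      _ = B * (1 * 3 ^ m) * ρ ^ (n + m) := by rw [mul_pow]; ring
      _ ≤ B * (3 ^ n * 3 ^ m) * ρ ^ (n + m) := by gcongr
      _ = _ := by rw [← pow_add]

end

end Vale.Agent.P292E
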