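import Mathlib

/-! The abstract Bochner inequality. -/

open scoped InnerProductSpace

namespace Vale.Agent.P292E

theorem boch_re {H : Type} [NormedAddCommGroup H] [InnerProductSpace ℂ H] {x y : H} {X Y : ℝ}
    (hx : ‖x‖ ≤ X) (hy : ‖y‖ ≤ Y) : -(X * Y) ≤ (⟪x, y⟫_ℂ).re := by
  have h1 := Complex.abs_re_le_norm ⟪x, y⟫_ℂ
  have h2 := norm_inner_le_norm (𝕜 := ℂ) x y
  have h3 : ‖x‖ * ‖y‖ ≤ X * Y := mul_le_mul hx hy (norm_nonneg _) ((norm_nonneg _).trans hx)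
  have h4 := neg_abs_le (⟪x, y⟫_ℂ).re
  linarith

theorem boch_sum {Λ : Type} [Fintype Λ] {f : Λ → ℂ} {X : ℝ} (h : ∀ c, -X ≤ (f c).re) :
    -((Fintype.card Λ : ℝ) * X) ≤ (∑ c, f c).re := by
  rw [Complex.re_sum]
  refine le_trans (le_of_eq ?_) (Finset.sum_le_sum fun c _ => h c)
  simp

theorem boch (Λ : Type) [Fintype Λ] (K : ℝ) : ∃ C : ℝ, ∀ {Γ H : Type} [AddCommGroup Γ] [Module ℂ Γ]
    [NormedAddCommGroup H] [InnerProductSpace ℂ H] (ι : Γ →ₗ[ℂ] H) (Db δ : Λ → Γ →ₗ[ℂ] Γ)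
    (lam r : Λ → Λ → Γ →ₗ[ℂ] Γ) (p q q' : Λ → Λ → Λ → Γ →ₗ[ℂ] Γ) (μ : ℝ) (u : Γ),
    (∀ l v w, ⟪ι (Db l v), ι w⟫_ℂ = ⟪ι v, ι (δ l w)⟫_ℂ) →
    (∀ a b v, Db b (δ a v) - δ a (Db b v) =
      lam a b v + ∑ c, δ c (p a b c v) + ∑ c, q a b c (Db c v) + r a b v) →
    (∀ a b v, Db b (Db a v) - Db a (Db b v) = ∑ c, q' a b c (Db c v)) →
    (∀ a b v, ‖ι (r a b v)‖ ≤ K * ‖ι v‖) → (∀ a b c v, ‖ι (p a b c v)‖ ≤ K * ‖ι v‖) →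
    (∀ a b c v, ‖ι (q a b c v)‖ ≤ K * ‖ι v‖) → (∀ a b c v, ‖ι (q' a b c v)‖ ≤ K * ‖ι v‖) →
    μ * ∑ l, ‖ι (Db l u)‖ ^ 2 ≤ (∑ a, ∑ b, ⟪ι (Db b u), ι (lam a b (Db a u))⟫_ℂ).re →
    (μ - C) * ∑ l, ‖ι (Db l u)‖ ^ 2 ≤ ‖ι (∑ l, δ l (Db l u))‖ ^ 2 := by
  refine ⟨(3 * (Fintype.card Λ : ℝ) ^ 3 * |K|) ^ 2 / 4 + (Fintype.card Λ : ℝ) ^ 2 * |K|, ?_⟩
  intro Γ H _ _ _ _ ι Db δ lam r p q q' μ u adj h1 h2 hr hp hq hq' hμ
  obtain ⟨S, hS0, hS2⟩ : ∃ S : ℝ, 0 ≤ S ∧ S ^ 2 = ∑ l, ‖ι (Db l u)‖ ^ 2 :=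
    ⟨_, Real.sqrt_nonneg _, Real.sq_sqrt (Finset.sum_nonneg fun _ _ => sq_nonneg _)⟩
  obtain ⟨T, hT0, hT2⟩ : ∃ T : ℝ, 0 ≤ T ∧ T ^ 2 = ∑ a, ∑ b, ‖ι (Db a (Db b u))‖ ^ 2 :=
    ⟨_, Real.sqrt_nonneg _, Real.sq_sqrt (Finset.sum_nonneg fun _ _ =>
      Finset.sum_nonneg fun _ _ => sq_nonneg _)⟩
  have hS : ∀ a, ‖ι (Db a u)‖ ≤ S := fun a => by
    refine (pow_le_pow_iff_left₀ (norm_nonneg _) hS0 two_ne_zero).1 ?_
    rw [hS2]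
    exact Finset.single_le_sum (f := fun l => ‖ι (Db l u)‖ ^ 2) (fun _ _ => sq_nonneg _)
      (Finset.mem_univ a)
  have hT : ∀ a b, ‖ι (Db a (Db b u))‖ ≤ T := fun a b => by
    refine (pow_le_pow_iff_left₀ (norm_nonneg _) hT0 two_ne_zero).1 ?_
    rw [hT2]
    refine le_trans ?_ (Finset.single_le_sum (f := fun a => ∑ b, ‖ι (Db a (Db b u))‖ ^ 2)
      (fun _ _ => Finset.sum_nonneg fun _ _ => sq_nonneg _) (Finset.mem_univ a))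
    exact Finset.single_le_sum (f := fun b => ‖ι (Db a (Db b u))‖ ^ 2) (fun _ _ => sq_nonneg _)
      (Finset.mem_univ b)
  have hK : ∀ {x Y : ℝ} {y : H}, x ≤ K * ‖y‖ → ‖y‖ ≤ Y → x ≤ |K| * Y := fun h h' =>
    h.trans (mul_le_mul (le_abs_self K) h' (norm_nonneg _) (abs_nonneg K))
  have key : ∀ a b, ‖ι (Db a (Db b u))‖ ^ 2 + (⟪ι (Db b u), ι (lam a b (Db a u))⟫_ℂ).re -
      (3 * (Fintype.card Λ : ℝ) * |K| * T * S + |K| * S ^ 2) ≤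
      (⟪ι (δ b (Db b u)), ι (δ a (Db a u))⟫_ℂ).re := by
    intro a b
    have e1 : ⟪ι (δ b (Db b u)), ι (δ a (Db a u))⟫_ℂ =
        ⟪ι (Db b u), ι (Db b (δ a (Db a u)))⟫_ℂ := by
      rw [← inner_conj_symm, ← adj, inner_conj_symm]
    have e2 := eq_add_of_sub_eq' (h1 a b (Db a u))
    have e3 := eq_add_of_sub_eq' (h2 a b u)
    have e4 : ⟪ι (Db b u), ι (δ a (Db b (Db a u)))⟫_ℂ =
        ⟪ι (Db a (Db b u)), ι (Db a (Db b u))⟫_ℂ +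
          ∑ c, ⟪ι (Db a (Db b u)), ι (q' a b c (Db c u))⟫_ℂ := by
      rw [← adj, e3, map_add, map_sum, inner_add_right, inner_sum]
    have e5 : (⟪ι (Db a (Db b u)), ι (Db a (Db b u))⟫_ℂ).re = ‖ι (Db a (Db b u))‖ ^ 2 :=
      inner_self_eq_norm_sq (𝕜 := ℂ) _
    have b1 := boch_sum fun c => boch_re (hT a b) (hK (hq' a b c (Db c u)) (hS c))
    have b2 := boch_sum fun c =>
      adj c (Db b u) _ ▸ boch_re (hT c b) (hK (hp a b c (Db a u)) (hS a))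
    have b3 := boch_sum fun c => boch_re (hS b) (hK (hq a b c (Db c (Db a u))) (hT c a))
    have b4 := boch_re (hS b) (hK (hr a b (Db a u)) (hS a))
    rw [e1, e2]
    simp only [map_add, map_sum, inner_add_right, inner_sum, e4, Complex.add_re, e5]
    nlinarith
  have h3 : ‖ι (∑ l, δ l (Db l u))‖ ^ 2 =
      ∑ a, ∑ b, (⟪ι (δ b (Db b u)), ι (δ a (Db a u))⟫_ℂ).re := by
    rw [← inner_self_eq_norm_sq (𝕜 := ℂ), map_sum, inner_sum]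
    simp only [sum_inner, map_sum]
    rfl
  have h4 := Finset.sum_le_sum fun a (_ : a ∈ Finset.univ) =>
    Finset.sum_le_sum fun b (_ : b ∈ Finset.univ) => key a b
  simp only [Finset.sum_sub_distrib, Finset.sum_add_distrib, Finset.sum_const, Finset.card_univ,
    nsmul_eq_mul] at h4
  simp only [Complex.re_sum] at hμ
  rw [h3, ← hS2]
  rw [← hS2] at hμ
  rw [← hT2] at h4
  nlinarith [sq_nonneg (T - 3 * (Fintype.card Λ : ℝ) ^ 3 * |K| * S / 2)]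

end Vale.Agent.P292E
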