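import Mathlib

/-! Definitions for the local elliptic estimates. -/

open scoped ContDiff Topology
open Set Filter MeasureTheory Metric

noncomputable section

namespace Vale.Agent.P292E

/-- Euclidean space -/
abbrev V (N : ℕ) : Type := EuclideanSpace ℝ (Fin N)

variable {N : ℕ}

/-- the coordinate vectors -/
def ee (p : Fin N) : V N := EuclideanSpace.single p 1

/-- the coordinate derivatives -/
def pd (p : Fin N) (f : V N → ℂ) (x : V N) : ℂ := fderiv ℝ f x (ee p)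

/-- all derivatives of order at most `M` are bounded by `B` on `s` -/
def Bd {F : Type} [NormedAddCommGroup F] [NormedSpace ℝ F] (M : ℕ) (f : V N → F) (s : Set (V N))
    (B : ℝ) : Prop :=
  ∀ i ≤ M, ∀ x ∈ s, ‖iteratedFDeriv ℝ i f x‖ ≤ B

/-- second order operators -/
def Qop (a : Fin N → Fin N → V N → ℂ) (b : Fin N → V N → ℂ) (c : V N → ℂ) (φ : V N → ℂ)
    (x : V N) : ℂ :=
  ∑ p, ∑ q, a p q x * pd p (pd q φ) x + ∑ p, b p x * pd p φ x + c x * φ x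

/-- test functions supported in `U` -/
def Tst (U : Set (V N)) (φ : V N → ℂ) : Prop :=
  ContDiff ℝ ∞ φ ∧ HasCompactSupport φ ∧ tsupport φ ⊆ U

/-- the weak equation -/
def Weak (U : Set (V N)) (a : Fin N → Fin N → V N → ℂ) (b : Fin N → V N → ℂ) (c : V N → ℂ)
    (u f : V N → ℂ) (g : Fin N → V N → ℂ) : Prop :=
  ∀ φ, Tst U φ → ∫ x, u x * Qop a b c φ x = ∫ x, (f x * φ x + ∑ p, g p x * pd p φ x)

/-- the symbol -/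
def symb (a : Fin N → Fin N → ℂ) (ξ : V N) : ℝ := (∑ p, ∑ q, a p q * ξ p * ξ q).re

/-- the interior estimate -/
def EllS (N : ℕ) : Prop :=
  ∀ j : ℕ, ∃ M : ℕ, ∀ κ : ℝ, 0 < κ → ∃ ε : ℝ, 0 < ε ∧ ∀ K : ℝ, ∃ C : ℝ,
    ∀ (a₀ : Fin N → Fin N → ℂ) (a : Fin N → Fin N → V N → ℂ) (b : Fin N → V N → ℂ)
      (c u f : V N → ℂ) (g : Fin N → V N → ℂ) (A B : ℝ),
      (∀ ξ, κ * ‖ξ‖ ^ 2 ≤ symb a₀ ξ) → (∀ p q, ‖a₀ p q‖ ≤ K) →
      (∀ p q, ContDiffOn ℝ ∞ (a p q) (ball 0 3)) → (∀ p, ContDiffOn ℝ ∞ (b p) (ball 0 3)) →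
      ContDiffOn ℝ ∞ c (ball 0 3) → ContDiffOn ℝ ∞ f (ball 0 3) →
      (∀ p, ContDiffOn ℝ ∞ (g p) (ball 0 3)) →
      (∀ p q, Bd M (fun x => a p q x - a₀ p q) (ball 0 3) ε) → (∀ p, Bd M (b p) (ball 0 3) K) →
      Bd M c (ball 0 3) K → Bd M f (ball 0 3) B → (∀ p, Bd M (g p) (ball 0 3) B) →
      IntegrableOn u (ball 0 3) → ∫ x in ball 0 3, ‖u x‖ ≤ A → Weak (ball 0 3) a b c u f g →
      ∃ w : V N → ℂ, ContDiff ℝ j w ∧ (∀ᵐ x, x ∈ ball (0 : V N) 1 → u x = w x) ∧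
        Bd j w univ (C * (A + B))

/-- interior regularity -/
def RegS (N : ℕ) : Prop :=
  ∀ (U : Set (V N)) (a : Fin N → Fin N → V N → ℂ) (b : Fin N → V N → ℂ) (c u f : V N → ℂ),
    IsOpen U → (∀ p q, ContDiffOn ℝ ∞ (a p q) U) → (∀ p, ContDiffOn ℝ ∞ (b p) U) →
    ContDiffOn ℝ ∞ c U → ContDiffOn ℝ ∞ f U →
    (∀ x ∈ U, ∃ κ : ℝ, 0 < κ ∧ ∀ ξ, κ * ‖ξ‖ ^ 2 ≤ symb (fun p q => a p q x) ξ) →
    LocallyIntegrableOn u U → Weak U a b c u f 0 →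
    ∃ w : V N → ℂ, ContDiffOn ℝ ∞ w U ∧ ∀ᵐ x, x ∈ U → u x = w x

/-- the estimate for the Cauchy-Riemann system -/
def SysS (N : ℕ) : Prop :=
  ∃ M : ℕ, ∀ K : ℝ, ∃ ε C : ℝ, 0 < ε ∧ ∀ (J₀ : V N →L[ℝ] V N) (J : V N → V N →L[ℝ] V N)
    (e g : Fin N → V N → ℂ) (v : V N → ℂ) (A B : ℝ), ‖J₀‖ ≤ K →
    ContDiffOn ℝ ∞ J (ball 0 3) → (∀ p, ContDiffOn ℝ ∞ (e p) (ball 0 3)) →
    (∀ p, ContDiffOn ℝ ∞ (g p) (ball 0 3)) → ContDiffOn ℝ ∞ v (ball 0 3) →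
    Bd M (fun x => J x - J₀) (ball 0 3) ε → (∀ p, Bd M (e p) (ball 0 3) K) →
    (∀ p, Bd M (g p) (ball 0 3) B) →
    (∀ p, ∀ x ∈ ball (0 : V N) 3,
      fderiv ℝ v x (ee p) + Complex.I * fderiv ℝ v x (J x (ee p)) + e p x * v x = g p x) →
    IntegrableOn v (ball 0 3) → ∫ x in ball 0 3, ‖v x‖ ≤ A →
    ‖v 0‖ ≤ C * (A + B) ∧ ‖fderiv ℝ v 0‖ ≤ C * (A + B)

end Vale.Agent.P292E
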