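import Vale.Agent.P292E.BdC

/-! The weak equation on the Fourier side. -/

open scoped ContDiff Topology FourierTransform
open Set Filter MeasureTheory Metric

noncomputable section

namespace Vale.Agent.P292E

variable {N : ℕ}

/-- first order coefficients of the commutator with a cut-off -/
def cb (a : Fin N → Fin N → V N → ℂ) (b : Fin N → V N → ℂ) (χ : V N → ℂ) (p : Fin N) (x : V N) : ℂ :=
  ∑ q, pd q χ x * (a p q x + a q p x) + χ x * b p x

/-- products of a test function and a locally integrable function are integrable -/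
theorem Tst.integrable_mul {s : Set (V N)} {χ u : V N → ℂ} (hχ : Tst s χ) (hu : IntegrableOn u s) :
    Integrable fun x => χ x * u x := by
  refine (integrableOn_iff_integrable_of_support_subset
    ((Function.support_mul_subset_left χ u).trans (subset_tsupport χ))).1 ?_
  exact IntegrableOn.continuousOn_mul hχ.1.continuous.continuousOn (hu.mono_set hχ.2.2) hχ.2.1

theorem FEq_int {s : Set (V N)} {χ : V N → ℂ} (hχ : Tst s χ) : Integrable χ :=
  hχ.1.continuous.integrable_of_hasCompactSupport hχ.2.1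

theorem FEq_add {s : Set (V N)} {φ ψ : V N → ℂ} (h : Tst s φ) (h' : Tst s ψ) :
    Tst s fun x => φ x + ψ x :=
  ⟨h.1.add h'.1, h.2.1.add h'.2.1, (tsupport_add φ ψ).trans (union_subset h.2.2 h'.2.2)⟩

theorem FEq_sum {s : Set (V N)} {ι : Type} (t : Finset ι) {φ : ι → V N → ℂ}
    (h : ∀ i, Tst s (φ i)) : Tst s fun x => ∑ i ∈ t, φ i x := by
  classical
  induction t using Finset.induction_on with
  | empty =>
    simp only [Finset.sum_empty]
    exact ⟨contDiff_const, HasCompactSupport.zero, by simp⟩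
  | insert i t hi ih =>
    simp only [Finset.sum_insert hi]
    exact FEq_add (h i) ih

theorem FEq_cut {s : Set (V N)} {χ a : V N → ℂ} (hs : IsOpen s) (hχ : Tst s χ)
    (ha : ContDiffOn ℝ ∞ a s) : Tst s fun x => a x * χ x := by
  simpa only [mul_comm] using cut_contDiff hs hχ ha

/-- the plane wave -/
def FEq_e (ξ x : V N) : ℂ := Complex.exp (((-2 * Real.pi * inner ℝ x ξ : ℝ) : ℂ) * Complex.I)

theorem FEq_lin (ξ : V N) : ∃ L : V N →L[ℝ] ℂ, (FEq_e ξ = fun x => Complex.exp (L x)) ∧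
    ∀ p, L (ee p) = -(2 * Real.pi * Complex.I) * ξ p := by
  refine ⟨((innerSL ℝ ξ).smulRight (-(2 * Real.pi * Complex.I))), funext fun x => ?_, fun p => ?_⟩
  · rw [FEq_e, real_inner_comm]
    congr 1
    simp
    ring
  · simp [ee, EuclideanSpace.inner_single_right]
    ring

theorem FEq_smooth (ξ : V N) : ContDiff ℝ ∞ (FEq_e ξ) := by
  obtain ⟨L, h, -⟩ := FEq_lin ξ
  rw [h]
  exact L.contDiff.cexp

theorem FEq_pd (ξ : V N) {φ : V N → ℂ} (hφ : ContDiff ℝ ∞ φ) (p : Fin N) :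
    pd p (fun x => φ x * FEq_e ξ x) =
      fun x => (pd p φ x + -(2 * Real.pi * Complex.I) * ξ p * φ x) * FEq_e ξ x := by
  obtain ⟨L, h, hL⟩ := FEq_lin ξ
  funext x
  have h1 := ((hφ.differentiable (by simp)) x).hasFDerivAt.mul (L.hasFDerivAt (x := x)).cexp
  rw [h, pd, pd, show (fun x => φ x * Complex.exp (L x)) = φ * fun x => Complex.exp (L x) from rfl,
    h1.fderiv, ← hL]
  simp
  ring

theorem FEq_pd_add {φ ψ : V N → ℂ} (hφ : ContDiff ℝ ∞ φ) (hψ : ContDiff ℝ ∞ ψ) (k : ℂ) (p : Fin N)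
    (x : V N) : pd p (fun x => φ x + k * ψ x) x = pd p φ x + k * pd p ψ x := by
  have h1 := ((hφ.differentiable (by simp)) x).hasFDerivAt.add
    (((hψ.differentiable (by simp)) x).hasFDerivAt.const_mul k)
  rw [pd, show (fun x => φ x + k * ψ x) = φ + fun x => k * ψ x from rfl, h1.fderiv]
  simp [pd]

theorem FEq_Q (a : Fin N → Fin N → V N → ℂ) (b : Fin N → V N → ℂ) (c : V N → ℂ) (ξ : V N)
    {χ : V N → ℂ} (hχ : ContDiff ℝ ∞ χ) (x : V N) :
    Qop a b c (fun x => χ x * FEq_e ξ x) x = FEq_e ξ x * (Qop a b c χ x +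
      -(2 * Real.pi * Complex.I) * ∑ p, ξ p * cb a b χ p x +
      (2 * Real.pi * Complex.I) ^ 2 * ∑ p, ∑ q, ξ p * ξ q * (χ x * a p q x)) := by
  have hp : ∀ q, ContDiff ℝ ∞ (pd q χ) := fun q =>
    contDiffOn_univ.1 (contDiffOn_pd isOpen_univ hχ.contDiffOn q)
  have h2 : ∀ p q, pd p (pd q fun x => χ x * FEq_e ξ x) x = (pd p (pd q χ) x +
      -(2 * Real.pi * Complex.I) * ξ q * pd p χ x + -(2 * Real.pi * Complex.I) * ξ p *
      (pd q χ x + -(2 * Real.pi * Complex.I) * ξ q * χ x)) * FEq_e ξ x := fun p q => by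
    rw [FEq_pd ξ hχ, FEq_pd ξ ((hp q).add (contDiff_const.mul hχ))]
    simp only
    rw [FEq_pd_add (hp q) hχ]
  have h3 : ∑ p, (ξ p : ℂ) * ∑ q, pd q χ x * a q p x = ∑ p, ∑ q, ξ q * (pd p χ x * a p q x) := by
    simp only [Finset.mul_sum]
    exact Finset.sum_comm
  simp only [Qop, h2]
  simp only [FEq_pd ξ hχ, cb]
  generalize 2 * (Real.pi : ℂ) * Complex.I = k
  generalize FEq_e ξ x = e
  have h4 : ∀ p, ∑ q, a p q x * ((pd p (pd q χ) x + -k * ξ q * pd p χ x +
      -k * ξ p * (pd q χ x + -k * ξ q * χ x)) * e) = e * ∑ q, a p q x * pd p (pd q χ) x -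
      e * k * ∑ q, ξ q * (pd p χ x * a p q x) - e * k * ∑ q, ξ p * (pd q χ x * a p q x) +
      e * k ^ 2 * ∑ q, ξ p * ξ q * (χ x * a p q x) := fun p => by
    simp only [Finset.mul_sum, ← Finset.sum_sub_distrib, ← Finset.sum_add_distrib]
    exact Finset.sum_congr rfl fun q _ => by ring
  have h5 : ∀ p, (ξ p : ℂ) * (∑ q, pd q χ x * (a p q x + a q p x) + χ x * b p x) =
      ∑ q, ξ p * (pd q χ x * a p q x) + ∑ q, ξ p * (pd q χ x * a q p x) +
        ξ p * (χ x * b p x) := fun p => by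
    rw [mul_add, Finset.mul_sum, ← Finset.sum_add_distrib]
    congr 1
    exact Finset.sum_congr rfl fun q _ => by ring
  have h6 : ∀ p, b p x * ((pd p χ x + -k * ξ p * χ x) * e) =
      e * (b p x * pd p χ x) - e * k * (ξ p * (χ x * b p x)) := fun p => by ring
  simp only [h4, h5, h6, Finset.sum_add_distrib, Finset.sum_sub_distrib, ← Finset.mul_sum]
  rw [h3]
  ring

theorem FEq_four (ξ : V N) (h : V N → ℂ) : 𝓕 h ξ = ∫ x, FEq_e ξ x * h x := by
  rw [Real.fourier_eq']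
  rfl

theorem FEq_ie (ξ : V N) {h : V N → ℂ} (hh : Integrable h) :
    Integrable fun x => FEq_e ξ x * h x :=
  hh.bdd_mul (c := 1) (FEq_smooth ξ).continuous.aestronglyMeasurable
    (Eventually.of_forall fun x => by rw [FEq_e, Complex.norm_exp_ofReal_mul_I])

theorem FEq_add3 {f g h : V N → ℂ} (hf : Integrable f) (hg : Integrable g) (hh : Integrable h) :
    ∫ x, (f x + g x + h x) = (∫ x, f x) + (∫ x, g x) + ∫ x, h x := by
  rw [← integral_add hf hg]
  exact integral_add (hf.add hg) hh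

theorem four_eq {a : Fin N → Fin N → V N → ℂ} {b : Fin N → V N → ℂ} {c u f : V N → ℂ}
    {g : Fin N → V N → ℂ} {χ : V N → ℂ} (hχ : Tst (ball 0 3) χ)
    (ha : ∀ p q, ContDiffOn ℝ ∞ (a p q) (ball 0 3)) (hb : ∀ p, ContDiffOn ℝ ∞ (b p) (ball 0 3))
    (hc : ContDiffOn ℝ ∞ c (ball 0 3)) (hf : ContDiffOn ℝ ∞ f (ball 0 3))
    (hg : ∀ p, ContDiffOn ℝ ∞ (g p) (ball 0 3)) (hu : IntegrableOn u (ball 0 3))
    (hw : Weak (ball 0 3) a b c u f g) (ξ : V N) :
    4 * Real.pi ^ 2 * ∑ p, ∑ q, ξ p * ξ q * 𝓕 (fun x => χ x * a p q x * u x) ξ =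
      -(2 * Real.pi * Complex.I) * ∑ p, ξ p * 𝓕 (fun x => cb a b χ p x * u x) ξ +
        𝓕 (fun x => Qop a b c χ x * u x) ξ - 𝓕 (fun x => χ x * f x) ξ -
        ∑ p, 𝓕 (fun x => pd p χ x * g p x) ξ +
        2 * Real.pi * Complex.I * ∑ p, ξ p * 𝓕 (fun x => χ x * g p x) ξ := by
  have hs : IsOpen (ball (0 : V N) 3) := isOpen_ball
  have h := hw _ (cut_contDiff hs hχ (FEq_smooth ξ).contDiffOn)
  have t1 : ∀ p, Tst (ball 0 3) (cb a b χ p) := fun p =>
    FEq_add (FEq_sum _ fun q => cut_contDiff hs (hχ.pd q).1 ((ha p q).add (ha q p)))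
      (cut_contDiff hs hχ (hb p))
  have t2 : Tst (ball 0 3) (Qop a b c χ) :=
    FEq_add (FEq_add (FEq_sum _ fun p => FEq_sum _ fun q =>
      FEq_cut hs ((hχ.pd q).1.pd p).1 (ha p q)) (FEq_sum _ fun p => FEq_cut hs (hχ.pd p).1 (hb p)))
      (FEq_cut hs hχ hc)
  have i1 := fun p => (FEq_ie ξ ((t1 p).integrable_mul hu)).const_mul (ξ p : ℂ)
  have i2 := FEq_ie ξ (t2.integrable_mul hu)
  have i3 := fun p q => (FEq_ie ξ ((cut_contDiff hs hχ (ha p q)).integrable_mul hu)).const_mul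
    ((ξ p : ℂ) * ξ q)
  have i4 := FEq_ie ξ (FEq_int (cut_contDiff hs hχ hf))
  have i5 := fun p => FEq_ie ξ (FEq_int (cut_contDiff hs (hχ.pd p).1 (hg p)))
  have i6 := fun p => (FEq_ie ξ (FEq_int (cut_contDiff hs hχ (hg p)))).const_mul (ξ p : ℂ)
  have j1 := (integrable_finsetSum Finset.univ fun p _ => i1 p).const_mul
    (-(2 * Real.pi * Complex.I))
  have j3 := fun p => integrable_finsetSum Finset.univ fun q _ => i3 p q
  have j3' := (integrable_finsetSum Finset.univ fun p _ => j3 p).const_mul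
    ((2 * Real.pi * Complex.I) ^ 2)
  have j5 := integrable_finsetSum Finset.univ fun p _ => i5 p
  have j6 := (integrable_finsetSum Finset.univ fun p _ => i6 p).const_mul
    (-(2 * Real.pi * Complex.I))
  have e1 : ∀ x, u x * Qop a b c (fun x => χ x * FEq_e ξ x) x =
      FEq_e ξ x * (Qop a b c χ x * u x) +
      -(2 * Real.pi * Complex.I) * ∑ p, ξ p * (FEq_e ξ x * (cb a b χ p x * u x)) +
      (2 * Real.pi * Complex.I) ^ 2 *
        ∑ p, ∑ q, ξ p * ξ q * (FEq_e ξ x * (χ x * a p q x * u x)) := fun x => by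
    have a1 : ∑ p, ξ p * (FEq_e ξ x * (cb a b χ p x * u x)) =
        FEq_e ξ x * u x * ∑ p, ξ p * cb a b χ p x := by
      rw [Finset.mul_sum]
      exact Finset.sum_congr rfl fun p _ => by ring
    have a2 : ∑ p, ∑ q, ξ p * ξ q * (FEq_e ξ x * (χ x * a p q x * u x)) =
        FEq_e ξ x * u x * ∑ p, ∑ q, ξ p * ξ q * (χ x * a p q x) := by
      simp only [Finset.mul_sum]
      exact Finset.sum_congr rfl fun p _ => Finset.sum_congr rfl fun q _ => by ring
    rw [FEq_Q a b c ξ hχ.1, a1, a2]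
    ring
  have e2 : ∀ x, f x * (χ x * FEq_e ξ x) + ∑ p, g p x * pd p (fun x => χ x * FEq_e ξ x) x =
      FEq_e ξ x * (χ x * f x) + ∑ p, FEq_e ξ x * (pd p χ x * g p x) +
      -(2 * Real.pi * Complex.I) * ∑ p, ξ p * (FEq_e ξ x * (χ x * g p x)) := fun x => by
    simp only [FEq_pd ξ hχ.1]
    rw [add_assoc, Finset.mul_sum, ← Finset.sum_add_distrib]
    congr 1
    · ring
    · exact Finset.sum_congr rfl fun p _ => by ring
  simp only [e1, e2] at h
  rw [FEq_add3 i2 j1 j3', FEq_add3 i4 j5 j6, integral_const_mul, integral_const_mul,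
    integral_const_mul,
    integral_finsetSum _ fun p _ => i1 p, integral_finsetSum _ fun p _ => j3 p,
    integral_finsetSum _ fun p _ => i5 p, integral_finsetSum _ fun p _ => i6 p] at h
  simp only [integral_finsetSum _ fun q _ => i3 _ q, integral_const_mul] at h
  simp only [FEq_four]
  rw [show (2 * (Real.pi : ℂ) * Complex.I) ^ 2 = -(4 * Real.pi ^ 2) by
    rw [mul_pow, Complex.I_sq]; ring] at h
  linear_combination -h

end Vale.Agent.P292E
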