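import Vale.Agent.P292E.BdC

/-! Weighted bounds for Fourier transforms. -/

open scoped ContDiff Topology FourierTransform
open Set Filter MeasureTheory Metric

noncomputable section

namespace Vale.Agent.P292E

variable {N : ℕ}

theorem FMul_flip {f g : V N → ℂ} (hf : Integrable f) (hg : Integrable g) :
    ∫ ξ, 𝓕 f ξ * g ξ = ∫ x, f x * 𝓕 g x := by
  have h := VectorFourier.integral_fourierIntegral_smul_eq_flip (L := innerₗ (V N))
    Real.continuous_fourierChar continuous_inner hf hg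
  rw [flip_innerₗ] at h
  exact h

theorem FMul_cont {f : V N → ℂ} (hf : Integrable f) : Continuous (𝓕 f) :=
  VectorFourier.fourierIntegral_continuous Real.continuous_fourierChar continuous_inner hf

theorem FMul_tst {f : V N → ℂ} (h1 : ContDiff ℝ ∞ f) (h2 : HasCompactSupport f) :
    Integrable (𝓕 f) :=
  (𝓕 (h2.toSchwartzMap h1)).integrable

theorem FMul_wt (N : ℕ) : Integrable fun ξ : V N => ((1 + ‖ξ‖) ^ (N + 1))⁻¹ := by
  have h := integrable_one_add_norm (E := V N) (μ := volume) (r := ((N + 1 : ℕ) : ℝ))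
    (by simp)
  refine h.congr (Eventually.of_forall fun ξ => ?_)
  simp only
  rw [Real.rpow_neg (by positivity), Real.rpow_natCast]

theorem FMul_int {h : V N → ℂ} (hc : Continuous h) {s : ℕ} {D : ℝ}
    (hD : ∀ ξ, ‖h ξ‖ * (1 + ‖ξ‖) ^ (s + (N + 1)) ≤ D) :
    Integrable (fun ξ => ‖h ξ‖ * (1 + ‖ξ‖) ^ s) ∧
      ∫ ξ, ‖h ξ‖ * (1 + ‖ξ‖) ^ s ≤ (∫ ξ : V N, ((1 + ‖ξ‖) ^ (N + 1))⁻¹) * D := by
  have h1 : ∀ ξ, ‖h ξ‖ * (1 + ‖ξ‖) ^ s ≤ ((1 + ‖ξ‖) ^ (N + 1))⁻¹ * D := fun ξ => by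
    rw [inv_mul_eq_div, le_div_iff₀ (by positivity), mul_assoc, ← pow_add]
    exact hD ξ
  have h2 : Integrable (fun ξ => ‖h ξ‖ * (1 + ‖ξ‖) ^ s) :=
    ((FMul_wt N).mul_const D).mono' (Continuous.aestronglyMeasurable (by fun_prop))
      (Eventually.of_forall fun ξ => by
        rw [Real.norm_of_nonneg (by positivity)]
        exact h1 ξ)
  refine ⟨h2, ?_⟩
  rw [← integral_mul_const]
  exact integral_mono h2 ((FMul_wt N).mul_const D) h1

theorem four_dec (N s : ℕ) : ∃ (M : ℕ) (C : ℝ), 0 ≤ C ∧ ∀ (ψ : V N → ℂ) (B : ℝ),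
    Tst (ball 0 3) ψ → Bd M ψ univ B → ∀ ξ, ‖𝓕 ψ ξ‖ * (1 + ‖ξ‖) ^ s ≤ C * B := by
  refine ⟨s, 2 ^ (s - 1) * (2 * (2 ^ s * (s + 1) * volume.real (ball (0 : V N) 3))),
    by positivity, fun ψ B hψ hB ξ => ?_⟩
  have hB0 : 0 ≤ B := (norm_nonneg _).trans (hB.norm_le (mem_univ 0))
  have hv : 0 ≤ volume.real (ball (0 : V N) 3) := measureReal_nonneg
  have h1 : ∀ i ≤ s, ∫ v, ‖iteratedFDeriv ℝ i ψ v‖ ≤ B * volume.real (ball (0 : V N) 3) := by
    intro i hi
    rw [← setIntegral_eq_integral_of_forall_compl_eq_zero (s := ball (0 : V N) 3) fun x hx => by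
      rw [image_eq_zero_of_notMem_tsupport fun h =>
        hx (hψ.2.2 (tsupport_iteratedFDeriv_subset i h)), norm_zero]]
    exact (le_abs_self _).trans (norm_setIntegral_le_of_norm_le_const
      (f := fun v => ‖iteratedFDeriv ℝ i ψ v‖) measure_ball_lt_top fun x _ => by
        rw [norm_norm]; exact hB i hi x (mem_univ x))
  have h2 : ∀ n ≤ s, ‖ξ‖ ^ n * ‖𝓕 ψ ξ‖ ≤
      2 ^ s * (s + 1) * volume.real (ball (0 : V N) 3) * B := by
    intro n hn
    have h3 := Real.pow_mul_norm_iteratedFDeriv_fourier_le (K := 0) (N := ⊤) hψ.1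
      (fun k n _ _ => Continuous.integrable_of_hasCompactSupport
        ((continuous_norm.pow k).mul (hψ.1.continuous_iteratedFDeriv (BdC_le n)).norm)
        (hψ.2.1.iteratedFDeriv n).norm.mul_left) (k := 0) (n := n) le_rfl le_top ξ
    simp only [pow_zero, one_mul, zero_add, Finset.range_one, Finset.singleton_product,
      Finset.sum_map, Function.Embedding.coeFn_mk, norm_iteratedFDeriv_zero, Nat.cast_zero,
      mul_zero] at h3
    refine h3.trans ?_
    have h4 : ∑ i ∈ Finset.range (n + 1), ∫ v, ‖iteratedFDeriv ℝ i ψ v‖ ≤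
        (s + 1) * (B * volume.real (ball (0 : V N) 3)) := by
      refine (Finset.sum_le_card_nsmul _ _ _ fun i hi =>
        h1 i ((Nat.lt_succ_iff.1 (Finset.mem_range.1 hi)).trans hn)).trans ?_
      rw [Finset.card_range, nsmul_eq_mul]
      exact mul_le_mul_of_nonneg_right (by exact_mod_cast Nat.succ_le_succ hn) (by positivity)
    refine (mul_le_mul (pow_le_pow_right₀ one_le_two hn) h4 ?_ (by positivity)).trans_eq (by ring)
    exact Finset.sum_nonneg fun i _ => integral_nonneg fun _ => norm_nonneg _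
  have h5 := h2 0 (Nat.zero_le _)
  have h6 := h2 s le_rfl
  have h7 := mul_le_mul_of_nonneg_left (add_pow_le zero_le_one (norm_nonneg ξ) s)
    (norm_nonneg (𝓕 ψ ξ))
  rw [one_pow] at h7
  rw [pow_zero, one_mul] at h5
  have h8 : (0 : ℝ) ≤ 2 ^ (s - 1) := by positivity
  nlinarith [mul_le_mul_of_nonneg_left (add_le_add h5 h6) h8]

theorem four_mul (N s : ℕ) : ∃ (M : ℕ) (C : ℝ), 0 ≤ C ∧ ∀ (ψ g : V N → ℂ) (w : V N → ℝ) (B D : ℝ),
    Tst (ball 0 3) ψ → Bd M ψ univ B → Integrable g → (∀ ξ, 0 ≤ w ξ) →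
    (∀ ξ η, w ξ ≤ (1 + ‖η‖) ^ s * w (ξ - η)) → (∀ ξ, ‖𝓕 g ξ‖ * w ξ ≤ D) →
    ∀ ξ, ‖𝓕 (fun x => ψ x * g x) ξ‖ * w ξ ≤ C * B * D := by
  obtain ⟨M, C, hC, h⟩ := four_dec N (s + (N + 1))
  have hI : 0 ≤ ∫ ξ : V N, ((1 + ‖ξ‖) ^ (N + 1))⁻¹ := integral_nonneg fun _ => by positivity
  refine ⟨M, (∫ ξ : V N, ((1 + ‖ξ‖) ^ (N + 1))⁻¹) * C, mul_nonneg hI hC,
    fun ψ g w B D hψ hB hg hw hws hD ξ => ?_⟩
  have hD0 : 0 ≤ D := (mul_nonneg (norm_nonneg _) (hw ξ)).trans (hD ξ)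
  have hi : Integrable ψ := hψ.1.continuous.integrable_of_hasCompactSupport hψ.2.1
  have hF := FMul_tst hψ.1 hψ.2.1
  have h1 : 𝓕⁻ ψ = fun η => 𝓕 ψ (-η) := funext (Real.fourierInv_eq_fourier_neg ψ)
  have h2 := hψ.1.continuous.fourier_fourierInv_eq hi hF
  rw [h1] at h2
  have h3 := FMul_flip hF.comp_neg ((Real.fourierIntegral_convergent_iff ξ).2 hg)
  rw [h2] at h3
  have h4 : 𝓕 (fun x => ψ x * g x) ξ = ∫ η, 𝓕 ψ (-η) * 𝓕 g (ξ - -η) := by
    rw [Real.fourier_eq]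
    refine Eq.trans (integral_congr_ae (Eventually.of_forall fun x => ?_)) (h3.trans
      (integral_congr_ae (Eventually.of_forall fun η => ?_)))
    · simp only [Circle.smul_def, smul_eq_mul]
      ring
    · simp only [Real.fourier_eq, smul_smul, ← AddChar.map_add_eq_mul, sub_neg_eq_add,
        inner_add_right, neg_add, add_comm]
  obtain ⟨h5, h6⟩ := FMul_int (h := fun η => 𝓕 ψ (-η)) ((FMul_cont hi).comp continuous_neg)
    (s := s) (D := C * B) fun η => by simpa using h ψ B hψ hB (-η)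
  have h7 : ‖∫ η, 𝓕 ψ (-η) * 𝓕 g (ξ - -η) * (w ξ : ℂ)‖ ≤
      ∫ η, ‖𝓕 ψ (-η)‖ * (1 + ‖η‖) ^ s * D := by
    refine norm_integral_le_of_norm_le (h5.mul_const D) (Eventually.of_forall fun η => ?_)
    rw [norm_mul, norm_mul, Complex.norm_real, Real.norm_of_nonneg (hw ξ), mul_assoc, mul_assoc]
    refine mul_le_mul_of_nonneg_left ?_ (norm_nonneg _)
    have h8 := mul_le_mul_of_nonneg_left (hws ξ (-η)) (norm_nonneg (𝓕 g (ξ - -η)))
    rw [norm_neg] at h8
    have h9 := mul_le_mul_of_nonneg_left (hD (ξ - -η)) (by positivity : 0 ≤ (1 + ‖η‖) ^ s)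
    linarith
  rw [integral_mul_const, integral_mul_const, ← h4, norm_mul, Complex.norm_real,
    Real.norm_of_nonneg (hw ξ)] at h7
  exact h7.trans ((mul_le_mul_of_nonneg_right h6 hD0).trans_eq (by ring))

theorem four_inv (N j : ℕ) : ∃ (s : ℕ) (C : ℝ), 0 ≤ C ∧ ∀ (g : V N → ℂ) (D : ℝ), Integrable g →
    (∀ ξ, ‖𝓕 g ξ‖ * (1 + ‖ξ‖) ^ s ≤ D) →
    ∃ w : V N → ℂ, ContDiff ℝ j w ∧ g =ᵐ[volume] w ∧ Bd j w univ (C * D) := by
  have hI : 0 ≤ ∫ ξ : V N, ((1 + ‖ξ‖) ^ (N + 1))⁻¹ := integral_nonneg fun _ => by positivity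
  refine ⟨j + (N + 1), (2 * Real.pi) ^ j * ∫ ξ : V N, ((1 + ‖ξ‖) ^ (N + 1))⁻¹, by positivity,
    fun g D hg hD => ?_⟩
  have hc : Continuous fun η => 𝓕 g (-η) := (FMul_cont hg).comp continuous_neg
  obtain ⟨h1, h2⟩ := FMul_int hc (s := j) (D := D) fun η => by simpa using hD (-η)
  have h3 : ∀ n ≤ j, ∀ η : V N, ‖η‖ ^ n * ‖𝓕 g (-η)‖ ≤ ‖𝓕 g (-η)‖ * (1 + ‖η‖) ^ j := by
    intro n hn η
    rw [mul_comm]
    refine mul_le_mul_of_nonneg_left ?_ (norm_nonneg _)
    exact (pow_le_pow_left₀ (norm_nonneg η) (by linarith) n).trans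
      (pow_le_pow_right₀ (by linarith [norm_nonneg η]) hn)
  have h4 : ∀ n : ℕ, (n : ℕ∞) ≤ j → Integrable fun η : V N => ‖η‖ ^ n * ‖𝓕 g (-η)‖ := fun n hn =>
    h1.mono' (Continuous.aestronglyMeasurable (by fun_prop)) (Eventually.of_forall fun η => by
      rw [Real.norm_of_nonneg (by positivity)]
      exact h3 n (by exact_mod_cast hn) η)
  have hw : ContDiff ℝ j (𝓕 fun η => 𝓕 g (-η)) := Real.contDiff_fourier (N := j) h4
  have hi : Integrable fun η => 𝓕 g (-η) :=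
    (h4 0 (by simp)).mono' hc.aestronglyMeasurable (Eventually.of_forall fun η => by simp)
  refine ⟨_, hw, ?_, fun n hn x _ => ?_⟩
  · refine ae_eq_of_integral_contDiff_smul_eq hg.locallyIntegrable
      hw.continuous.locallyIntegrable fun φ hφ hφ' => ?_
    have k1 : ContDiff ℝ ∞ fun x => (φ x : ℂ) := Complex.ofRealCLM.contDiff.comp hφ
    have k2 : HasCompactSupport fun x => (φ x : ℂ) := hφ'.comp_left Complex.ofReal_zero
    have k3 : Integrable fun x => (φ x : ℂ) := k1.continuous.integrable_of_hasCompactSupport k2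
    have k4 := FMul_tst k1 k2
    have k5 := k1.continuous.fourier_fourierInv_eq k3 k4
    rw [funext (Real.fourierInv_eq_fourier_neg fun x => (φ x : ℂ))] at k5
    have k6 := FMul_flip hg k4.comp_neg
    rw [k5] at k6
    have k7 := FMul_flip hi k3
    have k8 := integral_neg_eq_self (fun η => 𝓕 g η * 𝓕 (fun x => (φ x : ℂ)) (-η)) volume
    simp only [neg_neg] at k8
    simp only [Complex.real_smul, mul_comm (φ _ : ℂ)]
    rw [k7, k8, k6]
  · rw [Real.iteratedFDeriv_fourier (N := j) h4 hc.aestronglyMeasurable (by exact_mod_cast hn)]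
    refine (VectorFourier.norm_fourierIntegral_le_integral_norm _ _ _ _ _).trans ?_
    have hπ : 1 ≤ 2 * Real.pi := by linarith [Real.pi_gt_three]
    rw [mul_assoc]
    refine le_trans ?_ (mul_le_mul_of_nonneg_left h2 (by positivity))
    rw [← integral_const_mul]
    refine integral_mono_of_nonneg (Eventually.of_forall fun _ => norm_nonneg _)
      (h1.const_mul _) (Eventually.of_forall fun η => ?_)
    refine (VectorFourier.norm_fourierPowSMulRight_le _ _ _ _).trans ?_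
    rw [mul_assoc]
    refine mul_le_mul ?_ (h3 n hn η) (by positivity) (by positivity)
    refine (pow_le_pow_left₀ (by positivity) ?_ n).trans (pow_le_pow_right₀ hπ hn)
    exact mul_le_of_le_one_right (by positivity) (norm_innerSL_le _)

end Vale.Agent.P292E
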