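import Vale.Agent.P292E.FMul
import Vale.Agent.P292E.FEq

/-! One step of the bootstrap. -/

open scoped ContDiff Topology FourierTransform
open Set Filter MeasureTheory Metric

noncomputable section

namespace Vale.Agent.P292E

variable {N : ℕ}

theorem fstep_lin {f g : V N → ℂ} (hf : Integrable f) (hg : Integrable g) (c : ℂ) (ξ : V N) :
    𝓕 (fun x => c * f x + g x) ξ = c * 𝓕 f ξ + 𝓕 g ξ := by
  simp only [Real.fourier_eq, smul_add]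
  rw [integral_add ((Real.fourierIntegral_convergent_iff ξ).2 (hf.const_mul c))
    ((Real.fourierIntegral_convergent_iff ξ).2 hg), ← integral_const_mul]
  simp only [Circle.smul_def, smul_eq_mul, mul_left_comm]

theorem fstep_bdd (f : V N → ℂ) (ξ : V N) : ‖𝓕 f ξ‖ ≤ ∫ x, ‖f x‖ :=
  VectorFourier.norm_fourierIntegral_le_integral_norm _ _ _ _ _

theorem fstep_sum {z : Fin N → ℂ} {w β : ℝ} (hw : 0 ≤ w) (h : ∀ p, ‖z p‖ * w ≤ β) :
    ‖∑ p, z p‖ * w ≤ N * β := by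
  refine (mul_le_mul_of_nonneg_right (norm_sum_le _ _) hw).trans ?_
  rw [Finset.sum_mul]
  simpa using Finset.sum_le_card_nsmul Finset.univ _ β fun p _ => h p

theorem fstep_co (ξ : V N) (p : Fin N) {z : ℂ} {w β : ℝ} (hw : 0 ≤ w) (h : ‖z‖ * w ≤ β) :
    ‖ξ p * z‖ * w ≤ ‖ξ‖ * β := by
  rw [norm_mul, mul_assoc, Complex.norm_real]
  exact mul_le_mul (PiLp.norm_apply_le ξ p) h (by positivity) (norm_nonneg _)

theorem fstep_alg {ξ : V N} {a₀ e : Fin N → Fin N → ℂ} {y z₂ z₃ : ℂ} {z₁ z₄ z₅ : Fin N → ℂ}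
    {κ w W E δ : ℝ} (hκ : κ * ‖ξ‖ ^ 2 ≤ symb a₀ ξ) (h1 : 1 ≤ ‖ξ‖) (hw0 : 0 ≤ w)
    (hw : w ≤ 2 * ‖ξ‖ * W) (he : ∀ p q, ‖e p q‖ * w ≤ δ) (hE : 0 ≤ E)
    (h₁ : ∀ p, ‖z₁ p‖ * W ≤ E) (h₂ : ‖z₂‖ * W ≤ E) (h₃ : ‖z₃‖ * W ≤ E) (h₄ : ∀ p, ‖z₄ p‖ * W ≤ E)
    (h₅ : ∀ p, ‖z₅ p‖ * W ≤ E)
    (h : 4 * Real.pi ^ 2 * ∑ p, ∑ q, ξ p * ξ q * (a₀ p q * y + e p q) =
      -(2 * Real.pi * Complex.I) * ∑ p, ξ p * z₁ p + z₂ - z₃ - ∑ p, z₄ p +
        2 * Real.pi * Complex.I * ∑ p, ξ p * z₅ p) :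
    κ * (‖y‖ * w) ≤ N * N * δ + (34 * N + 4) * E := by
  obtain ⟨t, ht⟩ : ∃ t, t = ‖ξ‖ := ⟨_, rfl⟩
  have k : ∀ z : ℂ, ‖z‖ * W ≤ E → ‖z‖ * w ≤ 2 * t * E := fun z hz => by
    rw [ht]
    nlinarith [mul_le_mul_of_nonneg_left hw (norm_nonneg z)]
  have k1 := fstep_sum hw0 fun p => fstep_co ξ p hw0 (k _ (h₁ p))
  have k2 := k _ h₂
  have k3 := k _ h₃
  have k4 := fstep_sum hw0 fun p => k _ (h₄ p)
  have k5 := fstep_sum hw0 fun p => fstep_co ξ p hw0 (k _ (h₅ p))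
  have k6 := fstep_sum hw0 fun p => fstep_sum hw0 fun q =>
    fstep_co ξ p hw0 (fstep_co ξ q hw0 (he p q))
  have k7 : κ * ‖ξ‖ ^ 2 ≤ ‖∑ p, ∑ q, a₀ p q * ξ p * ξ q‖ := hκ.trans (Complex.re_le_norm _)
  have k8 : ∑ p, ∑ q, ξ p * ξ q * (a₀ p q * y + e p q) =
      (∑ p, ∑ q, a₀ p q * ξ p * ξ q) * y + ∑ p, ∑ q, ξ p * (ξ q * e p q) := by
    simp only [Finset.sum_mul, ← Finset.sum_add_distrib]
    exact Finset.sum_congr rfl fun p _ => Finset.sum_congr rfl fun q _ => by ring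
  rw [k8] at h
  rw [← ht] at k1 k5 k6 k7 h1
  clear k8 hκ hw ht k
  generalize ∑ p, ∑ q, a₀ p q * ξ p * ξ q = A at *
  generalize ∑ p, ∑ q, ξ p * (ξ q * e p q) = B at *
  generalize ∑ p, ξ p * z₁ p = Z₁ at *
  generalize ∑ p, ξ p * z₅ p = Z₅ at *
  generalize ∑ p, z₄ p = Z₄ at *
  have n2 : ‖(2 * Real.pi * Complex.I : ℂ)‖ ≤ 8 := by
    simp only [norm_mul, Complex.norm_I, Complex.norm_real, Real.norm_eq_abs, Complex.norm_ofNat,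
      abs_of_pos Real.pi_pos]
    linarith [Real.pi_le_four]
  have n4 : 1 ≤ ‖(4 * Real.pi ^ 2 : ℂ)‖ := by
    simp only [norm_mul, norm_pow, Complex.norm_real, Real.norm_eq_abs, Complex.norm_ofNat,
      abs_of_pos Real.pi_pos]
    nlinarith [Real.two_le_pi]
  have k9 : ‖A * y + B‖ ≤ 8 * ‖Z₁‖ + ‖z₂‖ + ‖z₃‖ + ‖Z₄‖ + 8 * ‖Z₅‖ := by
    refine (le_mul_of_one_le_left (norm_nonneg _) n4).trans ?_
    rw [← norm_mul, h]
    refine (norm_add_le _ _).trans (add_le_add ((norm_sub_le _ _).trans (add_le_add_left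
      ((norm_sub_le _ _).trans (add_le_add_left ((norm_add_le _ _).trans
        (add_le_add_left ?_ _)) _)) _)) ?_)
    · rw [norm_mul, norm_neg]
      exact mul_le_mul_of_nonneg_right n2 (norm_nonneg _)
    · rw [norm_mul]
      exact mul_le_mul_of_nonneg_right n2 (norm_nonneg _)
  have k10 : κ * t ^ 2 * ‖y‖ ≤ ‖A * y + B‖ + ‖B‖ := by
    refine (mul_le_mul_of_nonneg_right k7 (norm_nonneg _)).trans ?_
    rw [← norm_mul]
    simpa using norm_sub_le (A * y + B) B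
  have k11 := mul_le_mul_of_nonneg_right (k10.trans (add_le_add_left k9 _)) hw0
  have k12 : t * E ≤ t * t * E :=
    mul_le_mul_of_nonneg_right (le_mul_of_one_le_left (by linarith) h1) hE
  have k13 : N * (t * E) ≤ N * (t * t * E) := mul_le_mul_of_nonneg_left k12 (Nat.cast_nonneg _)
  refine le_of_mul_le_mul_left ?_ (by positivity : 0 < t * t)
  linarith

theorem fstep_sup {Y W : V N → ℝ} {Y₀ E : ℝ} (h0 : ∀ ξ, 0 ≤ Y ξ) (h1 : ∀ ξ, Y ξ ≤ Y₀)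
    (h : ∀ R, 0 ≤ R → ∀ S, (∀ ξ, Y ξ * min (W ξ) R ≤ S) → ∀ ξ, Y ξ * min (W ξ) R ≤ S / 2 + E)
    (hW : ∀ ξ, 0 ≤ W ξ) (ξ : V N) : Y ξ * W ξ ≤ 2 * E := by
  have hb : BddAbove (range fun η => Y η * min (W η) (W ξ)) := by
    refine ⟨Y₀ * W ξ, ?_⟩
    rintro _ ⟨η, rfl⟩
    exact mul_le_mul (h1 η) (min_le_right _ _) (le_min (hW _) (hW _)) ((h0 η).trans (h1 η))
  have h2 := ciSup_le (h _ (hW ξ) _ fun η => le_ciSup hb η)
  have h3 := le_ciSup hb ξ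
  rw [min_self] at h3
  linarith

theorem fstep_wt (ξ η : V N) (s : ℕ) : (1 + ‖ξ‖) ^ s ≤ (1 + ‖η‖) ^ s * (1 + ‖ξ - η‖) ^ s := by
  rw [← mul_pow]
  refine pow_le_pow_left₀ (by positivity) ?_ s
  have := norm_add_le η (ξ - η)
  rw [add_sub_cancel] at this
  nlinarith [mul_nonneg (norm_nonneg η) (norm_nonneg (ξ - η))]

theorem fstep_one (η : V N) (s : ℕ) : 1 ≤ (1 + ‖η‖) ^ s :=
  one_le_pow₀ (le_add_of_nonneg_right (norm_nonneg _))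

/-- smooth bounded multipliers which vanish outside `T` -/
def fstepP (M : ℕ) (T : Set (V N)) (ψ : V N → ℂ) (B : ℝ) : Prop :=
  ContDiff ℝ ∞ ψ ∧ Bd M ψ univ B ∧ ∀ x ∉ T, ψ x = 0

theorem fstepP.tst {M : ℕ} {χ ψ : V N → ℂ} {B : ℝ} (h : fstepP M (tsupport χ) ψ B)
    (hχ : Tst (ball 0 3) χ) : Tst (ball 0 3) ψ := by
  have h1 : tsupport ψ ⊆ tsupport χ :=
    closure_minimal (fun x hx => by_contra fun hx' => hx (h.2.2 x hx')) (isClosed_tsupport χ)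
  exact ⟨h.1, hχ.2.1.of_isClosed_subset (isClosed_tsupport ψ) h1, h1.trans hχ.2.2⟩

theorem fstepP.mono {M : ℕ} {T : Set (V N)} {ψ : V N → ℂ} {B B' : ℝ} (h : fstepP M T ψ B)
    (hB : B ≤ B') : fstepP M T ψ B' :=
  ⟨h.1, h.2.1.mono le_rfl subset_rfl hB, h.2.2⟩

theorem fstepP.add {M : ℕ} {T : Set (V N)} {ψ ψ' : V N → ℂ} {B B' : ℝ} (h : fstepP M T ψ B)
    (h' : fstepP M T ψ' B') : fstepP M T (fun x => ψ x + ψ' x) (B + B') :=
  ⟨h.1.add h'.1, Bd.add isOpen_univ h.1.contDiffOn h'.1.contDiffOn h.2.1 h'.2.1,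
    fun x hx => by simp only [h.2.2 x hx, h'.2.2 x hx, add_zero]⟩

theorem fstepP.sum {M : ℕ} {T : Set (V N)} {ψ : Fin N → V N → ℂ} {B : ℝ}
    (h : ∀ p, fstepP M T (ψ p) B) : fstepP M T (fun x => ∑ p, ψ p x) (N * B) :=
  ⟨ContDiff.sum fun p _ => (h p).1,
    by simpa using Bd.sum isOpen_univ (fun p => (h p).1.contDiffOn) fun p => (h p).2.1,
    fun x hx => Finset.sum_eq_zero fun p _ => (h p).2.2 x hx⟩

/-- multiplication by `ψ` is bounded by `L` -/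
def fstepC (M : ℕ) (T : Set (V N)) (ψ : V N → ℂ) (L : ℝ) : Prop :=
  ∀ (a : V N → ℂ) (B : ℝ), 0 ≤ B → ContDiffOn ℝ ∞ a (ball 0 3) → Bd M a (ball 0 3) B →
    fstepP M T (fun x => ψ x * a x) (L * B)

theorem fstep_cut (M : ℕ) {T : Set (V N)} {ψ : V N → ℂ} (h : Tst (ball 0 3) ψ)
    (hT : tsupport ψ ⊆ T) : ∀ᶠ L in atTop, fstepC M T ψ L := by
  obtain ⟨C, -, hC⟩ := cut_Bd M isOpen_ball h
  filter_upwards [eventually_ge_atTop C] with L hL a B hB ha hb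
  refine ⟨(cut_contDiff isOpen_ball h ha).1,
    (hC a B hB ha hb).mono le_rfl subset_rfl (mul_le_mul_of_nonneg_right hL hB), fun x hx => ?_⟩
  simp only [image_eq_zero_of_notMem_tsupport fun h' => hx (hT h'), zero_mul]

theorem fstep_coef {M : ℕ} {T : Set (V N)} {χ : V N → ℂ} {L K : ℝ} (hK : 0 ≤ K)
    (l0 : fstepC M T χ L) (l1 : ∀ p, fstepC M T (pd p χ) L)
    (l2 : ∀ p q, fstepC M T (pd p (pd q χ)) L) {a : Fin N → Fin N → V N → ℂ}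
    {b : Fin N → V N → ℂ} {c : V N → ℂ} (ha : ∀ p q, ContDiffOn ℝ ∞ (a p q) (ball 0 3))
    (hb : ∀ p, ContDiffOn ℝ ∞ (b p) (ball 0 3)) (hc : ContDiffOn ℝ ∞ c (ball 0 3))
    (ha' : ∀ p q, Bd M (a p q) (ball 0 3) K) (hb' : ∀ p, Bd M (b p) (ball 0 3) K)
    (hc' : Bd M c (ball 0 3) K) :
    (∀ p, fstepP M T (cb a b χ p) (N * (L * (K + K)) + L * K)) ∧
      fstepP M T (Qop a b c χ) (N * (N * (L * K)) + N * (L * K) + L * K) := by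
  refine ⟨fun p => (fstepP.sum fun q => l1 q _ _ (by positivity) ((ha p q).add (ha q p))
    (Bd.add isOpen_ball (ha p q) (ha q p) (ha' p q) (ha' q p))).add
      (l0 _ _ hK (hb p) (hb' p)), ?_⟩
  have e : Qop a b c χ = fun x => ∑ p, ∑ q, pd p (pd q χ) x * a p q x + ∑ p, pd p χ x * b p x +
      χ x * c x := by
    funext x
    simp only [Qop, mul_comm]
  rw [e]
  exact ((fstepP.sum fun p => fstepP.sum fun q => l2 p q _ _ hK (ha p q) (ha' p q)).add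
    (fstepP.sum fun p => l1 p _ _ hK (hb p) (hb' p))).add (l0 _ _ hK hc hc')

theorem ell_step (N s : ℕ) {χ χ' : V N → ℂ} (hχ : Tst (ball 0 3) χ) (hχ' : Tst (ball 0 3) χ')
    (h1 : ∀ x ∈ tsupport χ, χ' x = 1) :
    ∃ M : ℕ, ∀ κ : ℝ, 0 < κ → ∃ ε : ℝ, 0 < ε ∧ ∀ K : ℝ, ∃ C : ℝ, 0 ≤ C ∧
    ∀ (a₀ : Fin N → Fin N → ℂ) (a : Fin N → Fin N → V N → ℂ) (b : Fin N → V N → ℂ)
      (c u f : V N → ℂ) (g : Fin N → V N → ℂ) (D B : ℝ),
      (∀ ξ, κ * ‖ξ‖ ^ 2 ≤ symb a₀ ξ) → (∀ p q, ‖a₀ p q‖ ≤ K) →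
      (∀ p q, ContDiffOn ℝ ∞ (a p q) (ball 0 3)) → (∀ p, ContDiffOn ℝ ∞ (b p) (ball 0 3)) →
      ContDiffOn ℝ ∞ c (ball 0 3) → ContDiffOn ℝ ∞ f (ball 0 3) →
      (∀ p, ContDiffOn ℝ ∞ (g p) (ball 0 3)) →
      (∀ p q, Bd M (fun x => a p q x - a₀ p q) (ball 0 3) ε) → (∀ p, Bd M (b p) (ball 0 3) K) →
      Bd M c (ball 0 3) K → Bd M f (ball 0 3) B → (∀ p, Bd M (g p) (ball 0 3) B) →
      IntegrableOn u (ball 0 3) → Weak (ball 0 3) a b c u f g →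
      (∀ ξ, ‖𝓕 (fun x => χ' x * u x) ξ‖ * (1 + ‖ξ‖) ^ s ≤ D) →
      ∀ ξ, ‖𝓕 (fun x => χ x * u x) ξ‖ * (1 + ‖ξ‖) ^ (s + 1) ≤ C * (D + B) := by
  obtain ⟨M₁, C₁, hC₁, hmul⟩ := four_mul N (s + 1)
  obtain ⟨M₂, C₂, hC₂, hdec⟩ := four_dec N s
  refine ⟨max M₁ M₂, fun κ hκ => ?_⟩
  obtain ⟨L, ⟨⟨L0, l0⟩, l'⟩, l1, l2⟩ := ((((eventually_ge_atTop 0).and
    (fstep_cut (max M₁ M₂) hχ subset_rfl)).and (fstep_cut (max M₁ M₂) hχ' subset_rfl)).and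
    ((eventually_all.2 fun p => fstep_cut (max M₁ M₂) (hχ.pd p).1 (hχ.pd p).2).and
    (eventually_all.2 fun p => eventually_all.2 fun q => fstep_cut (max M₁ M₂)
      ((hχ.pd q).1.pd p).1 (((hχ.pd q).1.pd p).2.trans (hχ.pd q).2)))).exists
  obtain ⟨ε, ε0, ε1, ε2⟩ : ∃ ε : ℝ, 0 < ε ∧ ε ≤ 1 ∧ N * N * (C₁ * (L * ε)) ≤ κ / 2 := by
    refine ⟨min 1 (κ / 2 / (N * N * (C₁ * L) + 1)), by positivity, min_le_left _ _, ?_⟩
    have h2 := min_le_right 1 (κ / 2 / (N * N * (C₁ * L) + 1))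
    rw [le_div_iff₀ (by positivity)] at h2
    have h3 : 0 < min 1 (κ / 2 / (N * N * (C₁ * L) + 1)) := by positivity
    nlinarith
  refine ⟨ε, ε0, fun K => ?_⟩
  obtain ⟨K', K1, K2⟩ : ∃ K' : ℝ, 1 ≤ K' ∧ K + 1 ≤ K' := ⟨_, le_max_left _ _, le_max_right _ _⟩
  obtain ⟨Q, Q0, Q1, Q2, Q3⟩ : ∃ Q : ℝ, 0 ≤ Q ∧ N * (L * (K' + K')) + L * K' ≤ Q ∧
      N * (N * (L * K')) + N * (L * K') + L * K' ≤ Q ∧ L * 1 ≤ Q :=
    ((eventually_ge_atTop _).and ((eventually_ge_atTop _).and ((eventually_ge_atTop _).and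
      (eventually_ge_atTop _)))).exists
  refine ⟨2 * ((2 + (34 * N + 4) / κ) * (C₁ * Q + C₂ * L)), by positivity,
    fun a₀ a b c u f g D B hs ha₀ ha hb hc hf hg ha' hb' hc' hf' hg' hu hw hD => ?_⟩
  have B0 : 0 ≤ B := (norm_nonneg _).trans (hf'.norm_le (mem_ball_self (by norm_num)))
  have D0 : 0 ≤ D := le_trans (by positivity) (hD 0)
  obtain ⟨c1, c2⟩ := fstep_coef (K := K') (by linarith) l0 l1 l2 ha hb hc (fun p q => by
    refine ((Bd.add isOpen_ball ((ha p q).sub contDiffOn_const) contDiffOn_const (ha' p q)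
      (Bd_const _ (a₀ p q) _)).congr isOpen_ball fun x _ => (sub_add_cancel _ _).symm).mono le_rfl
      subset_rfl ?_
    linarith [ha₀ p q]) (fun p => (hb' p).mono le_rfl subset_rfl (by linarith))
    (hc'.mono le_rfl subset_rfl (by linarith))
  obtain ⟨E, hE⟩ : ∃ E, E = (C₁ * Q + C₂ * L) * (D + B) := ⟨_, rfl⟩
  have E0 : 0 ≤ E := by rw [hE]; positivity
  have e1 : ∀ ψ, fstepP (max M₁ M₂) (tsupport χ) ψ Q → ∀ ξ,
      ‖𝓕 (fun x => ψ x * u x) ξ‖ * (1 + ‖ξ‖) ^ s ≤ E := by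
    intro ψ hψ ξ
    have e : (fun x => ψ x * u x) = fun x => ψ x * (χ' x * u x) := by
      funext x
      by_cases hx : x ∈ tsupport χ
      · rw [h1 x hx, one_mul]
      · rw [hψ.2.2 x hx, zero_mul, zero_mul]
    rw [e]
    refine (hmul ψ _ (fun ξ => (1 + ‖ξ‖) ^ s) Q D (hψ.tst hχ)
      (hψ.2.1.mono (le_max_left _ _) subset_rfl le_rfl) (hχ'.integrable_mul hu)
      (fun _ => by positivity) (fun ξ η => (fstep_wt ξ η s).trans (mul_le_mul_of_nonneg_right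
        (pow_le_pow_right₀ (le_add_of_nonneg_right (norm_nonneg _)) (Nat.le_succ s))
        (by positivity))) hD ξ).trans ?_
    rw [hE]
    have : 0 ≤ C₁ * Q * B + C₂ * L * (D + B) := by positivity
    linarith
  have e2 : ∀ ψ, fstepP (max M₁ M₂) (tsupport χ) ψ (L * B) → ∀ ξ,
      ‖𝓕 ψ ξ‖ * (1 + ‖ξ‖) ^ s ≤ E := by
    intro ψ hψ ξ
    refine (hdec ψ _ (hψ.tst hχ) (hψ.2.1.mono (le_max_right _ _) subset_rfl le_rfl) ξ).trans ?_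
    rw [hE]
    have : 0 ≤ C₁ * Q * (D + B) + C₂ * L * D := by positivity
    linarith
  have e3 := e1 _ ((l0 (fun _ => 1) 1 zero_le_one contDiffOn_const
    (by simpa using Bd_const (max M₁ M₂) (1 : ℂ) (ball (0 : V N) 3))).mono Q3)
  simp only [mul_one] at e3
  intro ξ
  rw [mul_assoc, mul_assoc, ← hE]
  refine fstep_sup (Y := fun ξ => ‖𝓕 (fun x => χ x * u x) ξ‖) (W := fun ξ => (1 + ‖ξ‖) ^ (s + 1))
    (fun _ => norm_nonneg _) (fstep_bdd _) (fun R hR S hS ξ => ?_) (fun _ => by positivity) ξ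
  have w0 : ∀ ξ : V N, 0 ≤ min ((1 + ‖ξ‖) ^ (s + 1)) R := fun ξ => le_min (by positivity) hR
  have S0 : 0 ≤ S := (mul_nonneg (norm_nonneg _) (w0 0)).trans (hS 0)
  have w1 : min ((1 + ‖ξ‖) ^ (s + 1)) R ≤ (1 + ‖ξ‖) * (1 + ‖ξ‖) ^ s :=
    (min_le_left _ _).trans (pow_succ' _ _).le
  have k0 : 0 ≤ (34 * N + 4) / κ * E := by positivity
  rcases le_total ‖ξ‖ 1 with hξ | hξ
  · have k1 : min ((1 + ‖ξ‖) ^ (s + 1)) R ≤ 2 * (1 + ‖ξ‖) ^ s :=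
      w1.trans (mul_le_mul_of_nonneg_right (by linarith) (by positivity))
    have k2 := mul_le_mul_of_nonneg_left k1 (norm_nonneg (𝓕 (fun x => χ x * u x) ξ))
    have k3 := e3 ξ
    linarith
  have hP : ∀ p q, fstepP (max M₁ M₂) (tsupport χ') (fun x => χ' x * (a p q x - a₀ p q)) (L * ε) :=
    fun p q => l' _ _ ε0.le ((ha p q).sub contDiffOn_const) (ha' p q)
  have hi := hχ.integrable_mul hu
  have k1 := four_eq hχ ha hb hc hf hg hu hw ξ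
  have k2 : ∀ p q, 𝓕 (fun x => χ x * a p q x * u x) ξ = a₀ p q * 𝓕 (fun x => χ x * u x) ξ +
      𝓕 (fun x => χ' x * (a p q x - a₀ p q) * (χ x * u x)) ξ := by
    intro p q
    rw [← fstep_lin hi (((hP p q).tst hχ').integrable_mul hi.integrableOn)]
    refine congrArg (fun f : V N → ℂ => 𝓕 f ξ) (funext fun x => ?_)
    by_cases hx : x ∈ tsupport χ
    · rw [h1 x hx]
      ring
    · rw [image_eq_zero_of_notMem_tsupport hx]
      ring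
  simp only [k2] at k1
  have k3 := fstep_alg (hs ξ) hξ (w0 ξ)
    (w1.trans (mul_le_mul_of_nonneg_right (by linarith) (by positivity)))
    (fun p q => hmul _ _ (fun ξ => min ((1 + ‖ξ‖) ^ (s + 1)) R) (L * ε) S ((hP p q).tst hχ')
      ((hP p q).2.1.mono (le_max_left _ _) subset_rfl le_rfl) hi w0 (fun ξ η => by
        rw [mul_min_of_nonneg _ _ (by positivity)]
        exact min_le_min (fstep_wt ξ η _) (le_mul_of_one_le_left hR (fstep_one η _))) hS ξ)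
    E0 (fun p => e1 _ ((c1 p).mono Q1) ξ) (e1 _ (c2.mono Q2) ξ) (e2 _ (l0 _ _ B0 hf hf') ξ)
    (fun p => e2 _ (l1 p _ _ B0 (hg p) (hg' p)) ξ) (fun p => e2 _ (l0 _ _ B0 (hg p) (hg' p)) ξ) k1
  have k4 := mul_le_mul_of_nonneg_right ε2 S0
  refine le_of_mul_le_mul_left ?_ hκ
  have k5 : κ * (S / 2 + (2 + (34 * N + 4) / κ) * E) =
      κ / 2 * S + 2 * (κ * E) + (34 * N + 4) * E := by
    field_simp
    ring
  have k6 : 0 ≤ κ * E := by positivity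
  linarith

end Vale.Agent.P292E
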