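import Vale.Agent.P292E.UDer

/-! Commutators in a chart. -/

set_option maxSynthPendingDepth 3

open scoped ContDiff Topology ComplexConjugate InnerProductSpace
open Set Filter MeasureTheory Metric

noncomputable section

namespace Vale.Agent.P292E

variable {N : ℕ}

variable {J : V N → V N →L[ℝ] V N} {A : V N → V N →L[ℝ] ℝ} {B : Set (V N)}

theorem LCom_diff {E : Type} [NormedAddCommGroup E] [NormedSpace ℝ E] {f : V N → E}
    (hB : IsOpen B) (hf : ContDiffOn ℝ ∞ f B) {y : V N} (hy : y ∈ B) : DifferentiableAt ℝ f y :=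
  (hf.contDiffAt (hB.mem_nhds hy)).differentiableAt (by simp)

theorem LCom_fderiv (hB : IsOpen B) (hA : ContDiffOn ℝ ∞ A B) {Y : V N → V N}
    (hY : ContDiffOn ℝ ∞ Y B) (k : ℕ) {F : V N → ℂ} (hF : ContDiffOn ℝ ∞ F B) {y : V N}
    (hy : y ∈ B) (v : V N) :
    fderiv ℝ (fun y => Dv A k F y (Y y)) y v =
      fderiv ℝ (fderiv ℝ F) y v (Y y) + fderiv ℝ F y (fderiv ℝ Y y v) +
        Complex.I * k * (((fderiv ℝ A y v (Y y) : ℝ) + (A y (fderiv ℝ Y y v) : ℝ)) * F y +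
          (A y (Y y) : ℝ) * fderiv ℝ F y v) := by
  have h1 := (LCom_diff hB (BdC_fderiv hB hF) hy).hasFDerivAt
  have h2 := (LCom_diff hB hY hy).hasFDerivAt
  have h3 := (LCom_diff hB hA hy).hasFDerivAt
  have h4 := (LCom_diff hB hF hy).hasFDerivAt
  have h5 := Complex.ofRealCLM.hasFDerivAt.comp y (h3.clm_apply h2)
  have h6 : HasFDerivAt (fun y => Dv A k F y (Y y)) _ y :=
    (h1.clm_apply h2).add ((h5.const_mul (Complex.I * k)).mul h4)
  rw [h6.fderiv]
  simp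
  ring

theorem LCom_lin {G₁ G₂ : V N → ℂ} {y : V N} (h₁ : DifferentiableAt ℝ G₁ y)
    (h₂ : DifferentiableAt ℝ G₂ y) (c : ℂ) (k : ℕ) (v : V N) :
    Dv A k (fun y => G₁ y + c * G₂ y) y v = Dv A k G₁ y v + c * Dv A k G₂ y v := by
  have h : HasFDerivAt (fun y => G₁ y + c * G₂ y) _ y :=
    h₁.hasFDerivAt.add (h₂.hasFDerivAt.const_mul c)
  simp only [Dv, h.fderiv]
  simp
  ring

theorem LCom_lie {X Y : V N → V N} (hB : IsOpen B) (hX : ContDiffOn ℝ ∞ X B)
    (hY : ContDiffOn ℝ ∞ Y B) : ContDiffOn ℝ ∞ (VectorField.lieBracket ℝ X Y) B :=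
  ((BdC_fderiv hB hY).clm_apply hX).sub ((BdC_fderiv hB hX).clm_apply hY)

theorem LCom_J (h : Geo J A B) {X : V N → V N} (hX : ContDiffOn ℝ ∞ X B) {y : V N} (hy : y ∈ B)
    (v : V N) : fderiv ℝ (fun y => J y (X y)) y v =
      fderiv ℝ J y v (X y) + J y (fderiv ℝ X y v) := by
  rw [((LCom_diff h.opn h.J_sm hy).hasFDerivAt.clm_apply
    (LCom_diff h.opn hX hy).hasFDerivAt).fderiv]
  simp [add_comm]

theorem LCom_nij (h : Geo J A B) {X Y : V N → V N} (hX : ContDiffOn ℝ ∞ X B)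
    (hY : ContDiffOn ℝ ∞ Y B) {y : V N} (hy : y ∈ B) :
    J y (VectorField.lieBracket ℝ X Y y -
      VectorField.lieBracket ℝ (fun y => J y (X y)) (fun y => J y (Y y)) y) =
      VectorField.lieBracket ℝ X (fun y => J y (Y y)) y +
        VectorField.lieBracket ℝ (fun y => J y (X y)) Y y := by
  have h1 := congrArg (J y) (h.nij y hy (X y) (Y y))
  simp only [VectorField.lieBracket, LCom_J h hX hy, LCom_J h hY hy, map_sub, map_add, map_zero,
    h.J_sq y hy] at h1 ⊢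
  linear_combination (norm := module) -h1

theorem LCom_cur (h : Geo J A B) {y : V N} (hy : y ∈ B) (v w : V N) :
    cur A y (J y v) w = -cur A y v (J y w) := by
  rw [← h.F11 y hy v (J y w), h.J_sq y hy]
  simp [cur]
  ring

theorem Dv_comm (h : Geo J A B) {X Y : V N → V N} (hX : ContDiffOn ℝ ∞ X B)
    (hY : ContDiffOn ℝ ∞ Y B) (k : ℕ) {F : V N → ℂ} (hF : ContDiffOn ℝ ∞ F B) {y : V N}
    (hy : y ∈ B) :
    Dv A k (fun y => Dv A k F y (Y y)) y (X y) - Dv A k (fun y => Dv A k F y (X y)) y (Y y) =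
      Dv A k F y (VectorField.lieBracket ℝ X Y y) +
        Complex.I * k * cur A y (X y) (Y y) * F y := by
  have hs : IsSymmSndFDerivAt ℝ F y := by
    apply (hF.contDiffAt (h.opn.mem_nhds hy)).isSymmSndFDerivAt
    simp only [minSmoothness_of_isRCLikeNormedField]
    exact BdC_le 2
  have h1 := LCom_fderiv h.opn h.A_sm hX k hF hy (Y y)
  have h2 := LCom_fderiv h.opn h.A_sm hY k hF hy (X y)
  rw [Dv, Dv.eq_1 A k (fun y => Dv A k F y (X y)), h1, h2, hs (X y) (Y y)]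
  simp only [Dv, cur, VectorField.lieBracket, map_sub]
  push_cast
  ring

/-- two antiholomorphic derivatives -/
theorem com_bb (h : Geo J A B) {X Y : V N → V N} (hX : ContDiffOn ℝ ∞ X B)
    (hY : ContDiffOn ℝ ∞ Y B) : ∃ R : V N → V N, ContDiffOn ℝ ∞ R B ∧
    ∀ (k : ℕ) (F : V N → ℂ), ContDiffOn ℝ ∞ F B → ∀ y ∈ B,
      Dbv J A k (fun y => Dbv J A k F y (Y y)) y (X y) -
        Dbv J A k (fun y => Dbv J A k F y (X y)) y (Y y) = Dbv J A k F y (R y) := by
  have hJX : ContDiffOn ℝ ∞ (fun y => J y (X y)) B := h.J_sm.clm_apply hX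
  have hJY : ContDiffOn ℝ ∞ (fun y => J y (Y y)) B := h.J_sm.clm_apply hY
  refine ⟨fun y => VectorField.lieBracket ℝ X Y y -
    VectorField.lieBracket ℝ (fun y => J y (X y)) (fun y => J y (Y y)) y,
    (LCom_lie h.opn hX hY).sub (LCom_lie h.opn hJX hJY), fun k F hF y hy => ?_⟩
  have d : ∀ {Z : V N → V N}, ContDiffOn ℝ ∞ Z B →
      DifferentiableAt ℝ (fun y => Dv A k F y (Z y)) y := fun hZ =>
    LCom_diff h.opn (Dv_sm h.opn h.A_sm hF hZ) hy
  have c1 := Dv_comm h hX hY k hF hy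
  have c2 := Dv_comm h hX hJY k hF hy
  have c3 := Dv_comm h hJX hY k hF hy
  have c4 := Dv_comm h hJX hJY k hF hy
  rw [LCom_cur h hy] at c3
  rw [h.F11 y hy] at c4
  simp only [Dbv]
  rw [LCom_lin (d hY) (d hJY), LCom_lin (d hY) (d hJY), LCom_lin (d hX) (d hJX),
    LCom_lin (d hX) (d hJX), LCom_nij h hX hY hy, Dv_add, sub_eq_add_neg (VectorField.lieBracket
      ℝ X Y y), ← neg_one_smul ℝ (VectorField.lieBracket ℝ _ _ y), Dv_add, Dv_smul]
  push_cast at c3 ⊢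
  linear_combination c1 + Complex.I * c2 + Complex.I * c3 - c4 +
    (Dv A k (fun y => Dv A k F y (J y (Y y))) y (J y (X y)) -
      Dv A k (fun y => Dv A k F y (J y (X y))) y (J y (Y y))) * Complex.I_mul_I

/-- a holomorphic and an antiholomorphic derivative -/
theorem com_pb (h : Geo J A B) {X Y : V N → V N} (hX : ContDiffOn ℝ ∞ X B)
    (hY : ContDiffOn ℝ ∞ Y B) : ∃ P Q : V N → V N, ContDiffOn ℝ ∞ P B ∧ ContDiffOn ℝ ∞ Q B ∧
    ∀ (k : ℕ) (F : V N → ℂ), ContDiffOn ℝ ∞ F B → ∀ y ∈ B,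
      Dpv J A k (fun y => Dbv J A k F y (Y y)) y (X y) -
        Dbv J A k (fun y => Dpv J A k F y (X y)) y (Y y) =
      Dpv J A k F y (P y) + Dbv J A k F y (Q y) + k * Lv J A y (X y) (Y y) * F y := by
  have hJX : ContDiffOn ℝ ∞ (fun y => J y (X y)) B := h.J_sm.clm_apply hX
  have hJY : ContDiffOn ℝ ∞ (fun y => J y (Y y)) B := h.J_sm.clm_apply hY
  have hR := (LCom_lie h.opn hX hY).add (LCom_lie h.opn hJX hJY)
  have hS := h.J_sm.clm_apply ((LCom_lie h.opn hX hJY).sub (LCom_lie h.opn hJX hY))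
  refine ⟨_, _, (hR.add hS).const_smul (2⁻¹ : ℝ), (hR.sub hS).const_smul (2⁻¹ : ℝ),
    fun k F hF y hy => ?_⟩
  have d : ∀ {Z : V N → V N}, ContDiffOn ℝ ∞ Z B →
      DifferentiableAt ℝ (fun y => Dv A k F y (Z y)) y := fun hZ =>
    LCom_diff h.opn (Dv_sm h.opn h.A_sm hF hZ) hy
  have c1 := Dv_comm h hX hY k hF hy
  have c2 := Dv_comm h hX hJY k hF hy
  have c3 := Dv_comm h hJX hY k hF hy
  have c4 := Dv_comm h hJX hJY k hF hy
  rw [LCom_cur h hy] at c3
  rw [h.F11 y hy] at c4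
  have e : ∀ R S T : V N, Dpv J A k F y ((2⁻¹ : ℝ) • (R + J y (S - T))) +
      Dbv J A k F y ((2⁻¹ : ℝ) • (R - J y (S - T))) =
      Dv A k F y R + Complex.I * (Dv A k F y S - Dv A k F y T) := by
    intro R S T
    simp only [Dpv, Dbv, Dv, map_smul, map_add, map_sub, h.J_sq y hy, map_neg, smul_eq_mul,
      Complex.real_smul]
    push_cast
    ring
  rw [e, Dv_add]
  simp only [Dbv, Dpv, Lv, sub_eq_add_neg (Dv A k F _ _), ← neg_mul]
  rw [LCom_lin (d hY) (d hJY), LCom_lin (d hY) (d hJY), LCom_lin (d hX) (d hJX),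
    LCom_lin (d hX) (d hJX)]
  push_cast at c3 ⊢
  linear_combination c1 + Complex.I * c2 - Complex.I * c3 + c4 +
    (Dv A k (fun y => Dv A k F y (J y (X y))) y (J y (Y y)) -
      Dv A k (fun y => Dv A k F y (J y (Y y))) y (J y (X y)) +
      2 * k * cur A y (X y) (J y (Y y)) * F y) * Complex.I_mul_I

end Vale.Agent.P292E
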