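import Vale.Agent.P292E.UOps

/-! Inner products, adjoints and comparison of norms. -/

set_option maxSynthPendingDepth 3

open scoped ContDiff Topology ComplexConjugate InnerProductSpace
open Set Filter MeasureTheory Metric

noncomputable section

namespace Vale.Agent.P292E

variable {N : ℕ}

namespace UC

variable {S : Type} (U : UC N S)

theorem inner_emb (k : ℕ) (s t : U.G k) :
    ⟪U.emb k s, U.emb k t⟫_ℂ = U.I fun c => conj (s.1 c) * t.1 c := by
  rw [PiLp.inner_apply]
  refine Finset.sum_congr rfl fun a _ => ?_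
  rw [L2.inner_def]
  refine integral_congr_ae ?_
  filter_upwards [U.emb_ae k s a, U.emb_ae k t a] with y h1 h2
  rw [h1, h2]
  simp only [RCLike.inner_apply, map_mul, Complex.conj_ofReal, loc]
  ring

theorem UAdj_sq (k : ℕ) (s : U.G k) :
    ((‖U.emb k s‖ ^ 2 : ℝ) : ℂ) = U.I fun c => conj (s.1 c) * s.1 c := by
  rw [← inner_emb, inner_self_eq_norm_sq_to_K]
  simp

theorem norm_emb (k : ℕ) (s : U.G k) :
    ‖U.emb k s‖ ^ 2 = ∑ a, ∫ y, U.χ a y ^ 2 * ‖U.loc a s y‖ ^ 2 := by
  apply Complex.ofReal_injective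
  rw [UAdj_sq, Complex.ofReal_sum]
  refine Finset.sum_congr rfl fun a _ => ?_
  rw [← integral_complex_ofReal]
  refine integral_congr_ae (Eventually.of_forall fun y => ?_)
  simp only [loc, Complex.conj_mul']
  push_cast
  rfl

theorem emb_inj (k : ℕ) : Function.Injective (U.emb k) := by
  refine (injective_iff_map_eq_zero _).2 fun s hs => Subtype.ext (funext fun c => ?_)
  obtain ⟨a, hc, h1⟩ := U.cover c
  have h2 := U.emb_ae k s a
  rw [hs] at h2
  have h3 : (fun y => (U.χ a y : ℂ) * U.loc a s y) =ᵐ[volume] fun _ => 0 :=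
    h2.symm.trans (Lp.coeFn_zero ℂ 2 volume)
  have h4 := congrFun
    ((Continuous.ae_eq_iff_eq volume (tst_loc s.2 a).1.continuous continuous_const).1 h3) (U.z a c)
  rw [U.χ_one a _ (subset_tsupport _ (by simp [h1]))] at h4
  rw [eq_loc s.2 hc]
  simp only [Complex.ofReal_one, one_mul] at h4
  simp [h4]

theorem UAdj_DL (X : U.VF) (k : ℕ) (s t : U.G k) : ⟪U.emb k (U.DL X k s), U.emb k t⟫_ℂ =
    -⟪U.emb k s, U.emb k (U.DL X k t + U.mulL (U.dv X) k t)⟫_ℂ := by
  have h1 := U.I_DX X (conj_mul_mem s.2 t.2)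
  have h2 : U.DX X 0 (fun c => conj (s.1 c) * t.1 c) =
      (fun c => conj (U.DX X k s c) * t.1 c) + fun c => conj (s.1 c) * U.DX X k t c :=
    funext fun c => DX_conj_mul s.2 t.2 c
  rw [h2, I_add (conj_mul_mem (DX_mem X s.2) t.2) (conj_mul_mem s.2 (DX_mem X t.2))] at h1
  have h3 : (U.dv X * fun c => conj (s.1 c) * t.1 c : S → ℂ) =
      fun c => conj (s.1 c) * (U.mulL (U.dv X) k t).1 c := funext fun c => mul_left_comm _ _ _
  rw [h3] at h1
  rw [map_add, inner_add_right, inner_emb, inner_emb, inner_emb]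
  exact eq_neg_of_add_eq_zero_left (by
    rw [← add_assoc]
    exact add_eq_zero_iff_eq_neg.2 h1)

theorem adj (k : ℕ) (l : U.Λ) (s t : U.G k) :
    ⟪U.emb k (U.Db k l s), U.emb k t⟫_ℂ = ⟪U.emb k s, U.emb k (U.δ k l t)⟫_ℂ := by
  have h1 : U.δ k l t = -(U.DL (U.bas l) k t + U.mulL (U.dv (U.bas l)) k t) +
      Complex.I • (U.DL (U.bas l).J k t + U.mulL (U.dv (U.bas l).J) k t) := by
    refine Subtype.ext (funext fun c => ?_)
    change -(U.DX _ k t c - Complex.I * U.DX _ k t c +
      ((U.dv (U.bas l)).1 c - Complex.I * (U.dv (U.bas l).J).1 c) * t.1 c) =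
      -(U.DX _ k t c + (U.dv (U.bas l)).1 c * t.1 c) +
        Complex.I * (U.DX _ k t c + (U.dv (U.bas l).J).1 c * t.1 c)
    ring
  have h2 : U.Db k l s = U.DL (U.bas l) k s + Complex.I • U.DL (U.bas l).J k s := rfl
  rw [h1, h2, map_add, map_smul, inner_add_left, inner_smul_left, UAdj_DL, UAdj_DL,
    map_add (U.emb k) (-_), map_neg, map_smul, inner_add_right (U.emb k s) (-_), inner_neg_right,
    inner_smul_right, Complex.conj_I]
  ring

theorem UAdj_int (k : ℕ) (s : U.G k) (a : U.ι) :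
    Integrable fun y => U.χ a y ^ 2 * ‖U.loc a s y‖ ^ 2 := by
  have h := (memLp_two_iff_integrable_sq_norm (memLp_loc s.2 a).1).1 (memLp_loc s.2 a)
  simpa [mul_pow] using h

theorem norm_mulL (f : U.G 0) {B : ℝ} (hB : ∀ c, ‖f.1 c‖ ≤ B) (k : ℕ) (s : U.G k) :
    ‖U.emb k (U.mulL f k s)‖ ≤ B * ‖U.emb k s‖ := by
  rcases isEmpty_or_nonempty S with hS | ⟨⟨c⟩⟩
  · have : s = 0 := Subtype.ext (funext fun c => hS.elim c)
    simp [this]
  have hB0 : 0 ≤ B := (norm_nonneg _).trans (hB c)
  refine (pow_le_pow_iff_left₀ (norm_nonneg _) (by positivity) two_ne_zero).1 ?_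
  rw [mul_pow, norm_emb, norm_emb, Finset.mul_sum]
  refine Finset.sum_le_sum fun a _ => ?_
  rw [← integral_const_mul]
  refine integral_mono (U.UAdj_int k _ a) ((U.UAdj_int k s a).const_mul _) fun y => ?_
  have h1 : ‖U.loc a (U.mulL f k s) y‖ ≤ B * ‖U.loc a s y‖ :=
    (norm_mul_le _ _).trans (mul_le_mul_of_nonneg_right (hB _) (norm_nonneg _))
  have h2 := pow_le_pow_left₀ (norm_nonneg _) h1 2
  have h3 := mul_le_mul_of_nonneg_left h2 (sq_nonneg (U.χ a y))
  simp only
  linarith [mul_pow B ‖U.loc a s y‖ 2]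

/-- integration of a pointwise inequality -/
theorem re_I_nonneg {f : S → ℂ} (h : ∀ c, 0 ≤ (f c).re) (hf : f ∈ U.G 0) : 0 ≤ (U.I f).re := by
  rw [I, Complex.re_sum]
  refine Finset.sum_nonneg fun a _ => ?_
  have h1 : Integrable fun y => (U.χ a y : ℂ) * ((U.χ a y : ℂ) * U.loc a f y) :=
    ((U.χ_tst a).1.continuous.mul (tst_loc hf a).1.continuous).integrable_of_hasCompactSupport
      (U.χ_tst a).2.1.mul_right
  simp only [← mul_assoc, ← sq] at h1
  have h2 := integral_re h1
  simp only [RCLike.re_to_complex] at h2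
  rw [← h2]
  refine integral_nonneg fun y => ?_
  simp only [← Complex.ofReal_pow, Complex.re_ofReal_mul]
  exact mul_nonneg (sq_nonneg _) (h _)

/-- lower bound for the norm -/
theorem loc_le_norm (k : ℕ) (s : U.G k) (a : U.ι) {K : Set (V N)} (hK : IsCompact K)
    (h1 : ∀ y ∈ K, U.χ a y = 1) : ∫ y in K, ‖U.loc a s y‖ ^ 2 ≤ ‖U.emb k s‖ ^ 2 := by
  rw [norm_emb]
  have h2 : ∫ y in K, ‖U.loc a s y‖ ^ 2 = ∫ y in K, U.χ a y ^ 2 * ‖U.loc a s y‖ ^ 2 :=
    setIntegral_congr_fun hK.measurableSet fun y hy => by simp [h1 y hy]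
  rw [h2]
  refine (setIntegral_le_integral (U.UAdj_int k s a)
    (Eventually.of_forall fun y => by positivity)).trans ?_
  exact Finset.single_le_sum (f := fun a => ∫ y, U.χ a y ^ 2 * ‖U.loc a s y‖ ^ 2)
    (fun b _ => integral_nonneg fun y => by positivity) (Finset.mem_univ a)

/-- upper bound for the norm -/
theorem norm_le_loc (a : U.ι) {K : Set (V N)} (hK : IsCompact K) (hKa : K ⊆ U.B a) :
    ∃ C : ℝ, 0 ≤ C ∧ ∀ (k : ℕ) (s : U.G k), (∀ c, s.1 c ≠ 0 → c ∈ U.O a ∧ U.z a c ∈ K) →
      ‖U.emb k s‖ ^ 2 ≤ C * ∫ y in K, ‖U.loc a s y‖ ^ 2 := by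
  have hd : ContinuousOn (U.dens a) K := (U.dens_sm a).continuousOn.mono hKa
  obtain ⟨C, hC⟩ := hK.exists_bound_of_continuousOn hd
  refine ⟨max C 0, le_max_right _ _, fun k s hs => ?_⟩
  have hf := conj_mul_mem s.2 s.2
  set f : S → ℂ := fun c => conj (s.1 c) * s.1 c with hfe
  have h0 : ∀ y ∉ K, (U.B a).indicator (U.loc a f) y = 0 := by
    intro y hy
    by_cases hyB : y ∈ U.B a
    · rw [indicator_of_mem hyB]
      have : s.1 (U.σ a y) = 0 := by
        by_contra h
        exact hy (U.z_σ a y hyB ▸ (hs _ h).2)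
      simp [loc, hfe, this]
    · exact indicator_of_notMem hyB _
  have hts : tsupport ((U.B a).indicator (U.loc a f)) ⊆ K :=
    closure_minimal (fun y hy => by_contra fun h => hy (h0 y h)) hK.isClosed
  have hT : Tst (U.B a) ((U.B a).indicator (U.loc a f)) := by
    refine ⟨contDiff_iff_contDiffAt.2 fun y => ?_,
      hK.of_isClosed_subset (isClosed_tsupport _) hts, hts.trans hKa⟩
    by_cases hy : y ∈ U.B a
    · refine ((loc_sm hf a).contDiffAt ((B_open a).mem_nhds hy)).congr_of_eventuallyEq ?_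
      filter_upwards [(B_open a).mem_nhds hy] with w hw
      exact indicator_of_mem hw _
    · refine (contDiffAt_const (c := (0 : ℂ))).congr_of_eventuallyEq ?_
      filter_upwards [hK.isClosed.isOpen_compl.mem_nhds fun h => hy (hKa h)] with w hw
      exact h0 w hw
  have h1 : f = U.ext a 0 ((U.B a).indicator (U.loc a f)) :=
    eq_ext hf (fun c hc => by
      have : s.1 c = 0 := by_contra fun h => hc (hs c h).1
      simp [hfe, this]) fun y hy => indicator_of_mem hy _
  have h2 : ‖U.emb k s‖ ^ 2 = ∫ y in K, ‖U.loc a s y‖ ^ 2 * U.dens a y := by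
    apply Complex.ofReal_injective
    rw [UAdj_sq, ← hfe, h1, U.I_ext hT, ← integral_complex_ofReal,
      ← setIntegral_eq_integral_of_forall_compl_eq_zero (s := K) fun y hy => by
        rw [h0 y hy, zero_mul]]
    refine setIntegral_congr_fun hK.measurableSet fun y hy => ?_
    simp only [indicator_of_mem (hKa hy), loc, hfe, Complex.conj_mul']
    push_cast
    rfl
  have hc : ContinuousOn (fun y => ‖U.loc a s y‖ ^ 2) K :=
    ((loc_sm s.2 a).continuousOn.mono hKa).norm.pow 2
  rw [h2, ← integral_const_mul]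
  refine setIntegral_mono_on ((hc.mul hd).integrableOn_compact hK)
    ((continuousOn_const.mul hc).integrableOn_compact hK) hK.measurableSet fun y hy => ?_
  rw [mul_comm]
  exact mul_le_mul_of_nonneg_right (((le_abs_self _).trans (hC y hy)).trans (le_max_left _ _))
    (by positivity)

/-- the pairing with a section supported in a chart -/
theorem inner_ext (k : ℕ) (a : U.ι) {F : V N → ℂ} (hF : Tst (U.B a) F)
    (hχ : tsupport F ⊆ {y | U.χ a y ≠ 0}) {W : U.Hs} (hW : W ∈ closure (range (U.emb k))) :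
    ⟪U.emb k ⟨U.ext a k F, ext_mem hF k⟩, W⟫_ℂ =
      ∫ y, conj (F y) * (W a y * U.dens a y / U.χ a y) := by
  have hc : Continuous fun y => F y * ((U.dens a y : ℂ) / U.χ a y) := by
    refine continuous_iff_continuousAt.2 fun y => ?_
    by_cases hy : y ∈ tsupport F
    · refine hF.1.continuous.continuousAt.mul (ContinuousAt.div ?_
        (U.χ_tst a).1.continuous.continuousAt (by simpa using hχ hy))
      exact Complex.continuous_ofReal.continuousAt.comp
        ((U.dens_sm a).continuousOn.continuousAt ((B_open a).mem_nhds (hF.2.2 hy)))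
    · exact continuousAt_const.congr (BdC_zero _ hy).symm
  have hm : MemLp (fun y => F y * ((U.dens a y : ℂ) / U.χ a y)) 2 volume :=
    hc.memLp_of_hasCompactSupport hF.2.1.mul_right
  have h1 : ∀ W : U.Hs, ∫ y, conj (F y) * (W a y * U.dens a y / U.χ a y) = ⟪hm.toLp _, W a⟫_ℂ := by
    intro W
    rw [L2.inner_def]
    refine integral_congr_ae ?_
    filter_upwards [hm.coeFn_toLp] with y hy
    rw [hy]
    simp only [RCLike.inner_apply, map_mul, map_div₀, Complex.conj_ofReal]
    ring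
  rw [h1]
  have hcl : IsClosed {W : U.Hs | ⟪U.emb k ⟨U.ext a k F, ext_mem hF k⟩, W⟫_ℂ =
      ⟪hm.toLp _, W a⟫_ℂ} :=
    isClosed_eq (continuous_const.inner continuous_id)
      (continuous_const.inner (PiLp.continuous_apply 2 _ a))
  refine closure_minimal ?_ hcl hW
  rintro _ ⟨s, rfl⟩
  have hF' : Tst (U.B a) fun y => conj (F y) := by
    have h : tsupport (fun y => conj (F y)) ⊆ tsupport F :=
      closure_mono fun y hy h => hy (by simp [h])
    exact ⟨Complex.conjCLE.contDiff.comp hF.1,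
      hF.2.1.of_isClosed_subset (isClosed_tsupport _) h, h.trans hF.2.2⟩
  have h2 : (fun c => conj (U.ext a k F c) * s.1 c) =
      U.ext a 0 fun y => conj (F y) * U.loc a s y := by
    funext c
    by_cases hc : c ∈ U.O a
    · rw [ext_of_mem hc, ext_of_mem hc, eq_loc s.2 hc, map_mul, map_pow]
      have h3 : conj (U.l a c) * U.l a c = 1 := by
        rw [Complex.conj_mul', U.l_norm a c hc]
        simp
      have h4 : conj (U.l a c) ^ k * U.l a c ^ k = 1 := by rw [← mul_pow, h3, one_pow]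
      linear_combination (conj (F (U.z a c)) * U.loc a s (U.z a c)) * h4
    · simp [ext_of_notMem hc]
  rw [mem_ofPred_eq, ← h1, inner_emb]
  simp only
  rw [h2, U.I_ext (cut_contDiff (B_open a) hF' (loc_sm s.2 a))]
  refine integral_congr_ae ?_
  filter_upwards [U.emb_ae k s a] with y hy
  rw [hy]
  by_cases h : F y = 0
  · simp [h]
  · have h5 : (U.χ a y : ℂ) ≠ 0 := by simpa using hχ (subset_tsupport _ h)
    field_simp

end UC

end Vale.Agent.P292E
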