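import Vale.Agent.P292E.UDefs

/-! Changes of charts and the algebra of sections. -/

set_option maxSynthPendingDepth 3

open scoped ContDiff Topology ComplexConjugate InnerProductSpace
open Set Filter MeasureTheory Metric

noncomputable section

namespace Vale.Agent.P292E

variable {N : ℕ}

namespace UC

variable {S : Type} {U : UC N S}

variable {a b e : U.ι} {k : ℕ} {y : V N} {c : S} {s t f : S → ℂ} {F : V N → ℂ}

theorem B_open (a : U.ι) : IsOpen (U.B a) := (U.geo a).opn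

theorem isOpen_W (a b : U.ι) : IsOpen (U.W a b) := U.W_open a b

theorem tr_sm (b a : U.ι) : ContDiffOn ℝ ∞ (U.tr b a) (U.W a b) := U.z_sm a b

theorem ch_mem (c : S) : c ∈ U.O (U.ch c) := (U.cover c).choose_spec.1

theorem z_mem_W (ha : c ∈ U.O a) (hb : c ∈ U.O b) : U.z a c ∈ U.W a b :=
  ⟨U.z_mem a c ha, (U.mem_iff a b c ha).2 hb⟩

theorem tr_z (ha : c ∈ U.O a) (hb : c ∈ U.O b) : U.tr b a (U.z a c) = U.z b c :=
  U.z_eq a b c ha hb

theorem tr_mem (hy : y ∈ U.W a b) : U.tr b a y ∈ U.W b a :=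
  z_mem_W hy.2 (U.σ_mem a y hy.1)

theorem tr_tr (hy : y ∈ U.W a b) : U.tr a b (U.tr b a y) = y :=
  (tr_z hy.2 (U.σ_mem a y hy.1)).trans (U.z_σ a y hy.1)

theorem tr_self (hy : y ∈ U.B a) : U.tr a a y = y := U.z_σ a y hy

theorem tr_mem_iff (hy : y ∈ U.W a b) : U.tr b a y ∈ U.W b e ↔ y ∈ U.W a e :=
  ⟨fun h => ⟨hy.1, (U.mem_iff b e _ hy.2).1 h.2⟩, fun h => z_mem_W hy.2 h.2⟩

theorem tr_trans (hy : y ∈ U.W a b) (he : y ∈ U.W a e) : U.tr e b (U.tr b a y) = U.tr e a y :=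
  tr_z hy.2 he.2

theorem fderiv_tr_trans (hy : y ∈ U.W a b) (he : y ∈ U.W a e) (v : V N) :
    fderiv ℝ (U.tr e b) (U.tr b a y) (fderiv ℝ (U.tr b a) y v) = fderiv ℝ (U.tr e a) y v := by
  have h1 : DifferentiableAt ℝ (U.tr b a) y :=
    ((tr_sm b a).contDiffAt ((isOpen_W a b).mem_nhds hy)).differentiableAt (by simp)
  have h2 : DifferentiableAt ℝ (U.tr e b) (U.tr b a y) :=
    ((tr_sm e b).contDiffAt ((isOpen_W b e).mem_nhds ((tr_mem_iff hy).2 he))).differentiableAt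
      (by simp)
  have h3 : U.tr e a =ᶠ[𝓝 y] U.tr e b ∘ U.tr b a := by
    filter_upwards [(isOpen_W a b).mem_nhds hy, (isOpen_W a e).mem_nhds he] with x hx hx'
    exact (tr_trans hx hx').symm
  rw [h3.fderiv_eq, fderiv_comp y h2 h1]
  rfl

theorem fderiv_tr_self (hy : y ∈ U.B a) (v : V N) : fderiv ℝ (U.tr a a) y v = v := by
  have h : U.tr a a =ᶠ[𝓝 y] id := by
    filter_upwards [(B_open a).mem_nhds hy] with x hx
    exact tr_self hx
  rw [h.fderiv_eq, fderiv_id]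
  rfl

theorem loc_sm (hs : s ∈ U.G k) (a : U.ι) : ContDiffOn ℝ ∞ (U.loc a s) (U.B a) := (hs a).2

theorem eq_loc (hs : s ∈ U.G k) (hc : c ∈ U.O a) : s c = U.l a c ^ k * U.loc a s (U.z a c) :=
  (hs a).1 c hc

theorem norm_eq_loc (hs : s ∈ U.G k) (hc : c ∈ U.O a) : ‖s c‖ = ‖U.loc a s (U.z a c)‖ := by
  rw [eq_loc hs hc, norm_mul, norm_pow, U.l_norm a c hc, one_pow, one_mul]

theorem loc_tr (hs : s ∈ U.G k) (hy : y ∈ U.W a b) :
    U.loc a s y = U.l b (U.σ a y) ^ k * U.loc b s (U.tr b a y) := eq_loc hs hy.2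

/-- sections are determined by their local expressions -/
theorem G_ext (hs : s ∈ U.G k) (ht : t ∈ U.G k) (h : ∀ a, ∀ y ∈ U.B a, U.loc a s y = U.loc a t y) :
    s = t := by
  funext c
  rw [eq_loc hs (ch_mem c), eq_loc ht (ch_mem c), h _ _ (U.z_mem _ c (ch_mem c))]

theorem const_mem (x : ℂ) : (fun _ => x) ∈ U.G 0 := fun _ =>
  ⟨fun c _ => by simp [loc], contDiffOn_const⟩

theorem mul_mem (hf : f ∈ U.G 0) (hs : s ∈ U.G k) : f * s ∈ U.G k := fun a =>
  ⟨fun c hc => by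
    rw [Pi.mul_apply, eq_loc hf hc, eq_loc hs hc, pow_zero, one_mul, mul_left_comm]
    rfl, (loc_sm hf a).mul (loc_sm hs a)⟩

theorem conj_mul_mem (hs : s ∈ U.G k) (ht : t ∈ U.G k) : (fun c => conj (s c) * t c) ∈ U.G 0 := by
  intro a
  refine ⟨fun c hc => ?_,
    (Complex.conjCLE.contDiff.comp_contDiffOn (loc_sm hs a)).mul (loc_sm ht a)⟩
  have h1 : conj (U.l a c ^ k) * U.l a c ^ k = 1 := by
    rw [Complex.conj_mul', norm_pow, U.l_norm a c hc]
    simp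
  show conj (s c) * t c = U.l a c ^ 0 * (conj (U.loc a s (U.z a c)) * U.loc a t (U.z a c))
  rw [eq_loc hs hc, eq_loc ht hc, map_mul]
  linear_combination (conj (U.loc a s (U.z a c)) * U.loc a t (U.z a c)) * h1

theorem inv_mem (hf : f ∈ U.G 0) (h : ∀ c, f c ≠ 0) : (fun c => (f c)⁻¹) ∈ U.G 0 := by
  intro a
  refine ⟨fun c hc => ?_, (loc_sm hf a).inv fun y _ => h _⟩
  show (f c)⁻¹ = U.l a c ^ 0 * (U.loc a f (U.z a c))⁻¹
  rw [eq_loc hf hc, pow_zero, one_mul, one_mul]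

theorem ext_of_mem (hc : c ∈ U.O a) : U.ext a k F c = U.l a c ^ k * F (U.z a c) := if_pos hc

theorem ext_of_notMem (hc : c ∉ U.O a) : U.ext a k F c = 0 := if_neg hc

theorem loc_ext (hy : y ∈ U.B a) : U.loc a (U.ext a k F) y = F y := by
  show U.ext a k F (U.σ a y) = F y
  rw [ext_of_mem (U.σ_mem a y hy), U.l_σ a y hy, U.z_σ a y hy, one_pow, one_mul]

theorem ext_mem (hF : Tst (U.B a) F) (k : ℕ) : U.ext a k F ∈ U.G k := by
  intro b
  refine ⟨fun c hc => ?_, fun y hy => ContDiffAt.contDiffWithinAt ?_⟩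
  · show U.ext a k F c = U.l b c ^ k * U.ext a k F (U.σ b (U.z b c))
    by_cases ha : c ∈ U.O a
    · rw [ext_of_mem ha, ext_of_mem ((U.mem_iff b a c hc).2 ha), U.z_eq b a c hc ha,
        U.l_eq b a c hc ha, mul_pow, mul_assoc]
    · rw [ext_of_notMem ha, ext_of_notMem (mt (U.mem_iff b a c hc).1 ha), mul_zero]
  · by_cases ha : U.σ b y ∈ U.O a
    · have hW : U.W b a ∈ 𝓝 y := (isOpen_W b a).mem_nhds ⟨hy, ha⟩
      have h1 : ContDiffAt ℝ ∞ (fun x => U.l a (U.σ b x) ^ k * F (U.tr a b x)) y :=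
        (((U.l_sm b a).contDiffAt hW).pow k).mul
          (hF.1.contDiffAt.comp y ((tr_sm a b).contDiffAt hW))
      refine h1.congr_of_eventuallyEq ?_
      filter_upwards [hW] with x hx
      exact ext_of_mem hx.2
    · have hW := (U.cl b a (tsupport F) hF.2.1 hF.2.2).mem_nhds (x := y) ⟨hy, fun h => ha h.1⟩
      refine (contDiffAt_const (c := (0 : ℂ))).congr_of_eventuallyEq ?_
      filter_upwards [hW] with x hx
      show U.ext a k F (U.σ b x) = 0
      by_cases hx' : U.σ b x ∈ U.O a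
      · rw [ext_of_mem hx', image_eq_zero_of_notMem_tsupport fun h => hx.2 ⟨hx', h⟩, mul_zero]
      · exact ext_of_notMem hx'

/-- a section which vanishes outside the chart is the extension of its local expression -/
theorem eq_ext (hs : s ∈ U.G k) (h : ∀ c, c ∉ U.O a → s c = 0) {F : V N → ℂ}
    (hF : EqOn F (U.loc a s) (U.B a)) : s = U.ext a k F := by
  funext c
  by_cases hc : c ∈ U.O a
  · rw [ext_of_mem hc, hF (U.z_mem a c hc), eq_loc hs hc]
  · rw [ext_of_notMem hc, h c hc]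

theorem exists_bound (hf : f ∈ U.G 0) : ∃ B : ℝ, 0 ≤ B ∧ ∀ c, ‖f c‖ ≤ B := by
  have h : ∀ a, ∃ C, ∀ y ∈ tsupport fun y => (U.κ a y : ℂ), ‖U.loc a f y‖ ≤ C := fun a =>
    (U.κ_tst a).2.1.exists_bound_of_continuousOn
      ((loc_sm hf a).continuousOn.mono (U.κ_tst a).2.2)
  choose C hC using h
  refine ⟨∑ a, |C a|, Finset.sum_nonneg fun _ _ => abs_nonneg _, fun c => ?_⟩
  obtain ⟨a, ha, h1⟩ := U.cover c
  rw [norm_eq_loc hf ha]
  refine ((hC a _ (subset_tsupport _ ?_)).trans (le_abs_self _)).trans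
    (Finset.single_le_sum (f := fun a => |C a|) (fun _ _ => abs_nonneg _) (Finset.mem_univ a))
  simp [h1]

theorem UBas_sq {φ : V N → ℝ} (h : Tst (U.B a) fun y => (φ y : ℂ)) :
    Tst (U.B a) fun y => (φ y : ℂ) ^ 2 := by
  simpa only [sq] using cut_contDiff (B_open a) h h.1.contDiffOn

theorem UBas_sum_mem {φ : U.ι → V N → ℝ} (h : ∀ a, Tst (U.B a) fun y => (φ a y : ℂ)) :
    (fun c => ∑ a, U.ext a 0 (fun y => (φ a y : ℂ) ^ 2) c) ∈ U.G 0 := by
  have h1 := (U.G 0).sum_mem (t := Finset.univ) fun a _ => ext_mem (UBas_sq (h a)) 0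
  rwa [Finset.sum_fn] at h1

theorem UBas_sum_real {φ : U.ι → V N → ℝ} (ha : c ∈ U.O a) (h : φ a (U.z a c) = 1) :
    ∃ x : ℝ, 1 ≤ x ∧ ∑ a, U.ext a 0 (fun y => (φ a y : ℂ) ^ 2) c = x := by
  classical
  refine ⟨∑ e, if c ∈ U.O e then φ e (U.z e c) ^ 2 else 0, ?_, ?_⟩
  · refine le_trans ?_ (Finset.single_le_sum
      (f := fun e => if c ∈ U.O e then φ e (U.z e c) ^ 2 else 0) (fun e _ => ?_)
      (Finset.mem_univ a))
    · simp [ha, h]
    · split_ifs
      · exact sq_nonneg _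
      · exact le_rfl
  · rw [Complex.ofReal_sum]
    refine Finset.sum_congr rfl fun e _ => ?_
    by_cases he : c ∈ U.O e
    · rw [ext_of_mem he, if_pos he]
      simp
    · rw [ext_of_notMem he, if_neg he]
      simp

theorem Xi_mem : U.Xi ∈ U.G 0 := UBas_sum_mem U.χ_tst

theorem Xi_real (c : S) : ∃ x : ℝ, 1 ≤ x ∧ U.Xi c = x := by
  obtain ⟨a, ha, h1⟩ := U.cover c
  exact UBas_sum_real ha (U.χ_one a _ (subset_tsupport _ (by simp [h1])))

/-- averaging over the charts -/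
theorem avg {T : ℂ} {Φ : U.ι → V N → ℂ} (h : ∀ e, c ∈ U.O e → T = U.l e c ^ k * Φ e (U.z e c)) :
    T = (U.Xi c)⁻¹ * ∑ e, U.ext e k (fun y => (U.χ e y : ℂ) ^ 2 * Φ e y) c := by
  obtain ⟨x, hx, hX⟩ := U.Xi_real c
  have h0 : U.Xi c ≠ 0 := by
    rw [hX, Complex.ofReal_ne_zero]
    linarith
  rw [eq_inv_mul_iff_mul_eq₀ h0, Xi, Finset.sum_mul]
  refine Finset.sum_congr rfl fun e _ => ?_
  by_cases he : c ∈ U.O e
  · rw [ext_of_mem he, ext_of_mem he, h e he]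
    ring
  · rw [ext_of_notMem he, ext_of_notMem he, zero_mul]

/-- a partition of unity -/
theorem exists_pou : ∃ ρ : U.ι → V N → ℂ, (∀ a, Tst (U.B a) (ρ a)) ∧
    (∀ a, tsupport (ρ a) ⊆ {y | U.χ a y = 1}) ∧ ∀ c, ∑ a, U.ext a 0 (ρ a) c = 1 := by
  have hm := UBas_sum_mem U.κ_tst
  have h0 : ∀ c, ∑ a, U.ext a 0 (fun y => (U.κ a y : ℂ) ^ 2) c ≠ 0 := fun c => by
    obtain ⟨a, ha, h1⟩ := U.cover c
    obtain ⟨x, hx, hX⟩ := UBas_sum_real ha h1
    rw [hX, Complex.ofReal_ne_zero]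
    linarith
  have hi := inv_mem hm h0
  refine ⟨fun a y => (U.κ a y : ℂ) ^ 2 *
    U.loc a (fun c => (∑ a, U.ext a 0 (fun y => (U.κ a y : ℂ) ^ 2) c)⁻¹) y,
    fun a => cut_contDiff (B_open a) (UBas_sq (U.κ_tst a)) (loc_sm hi a), fun a y hy => ?_,
    fun c => ?_⟩
  · refine U.χ_one a y (closure_mono (fun x hx => ?_) hy)
    rw [Function.mem_support] at hx ⊢
    intro hx'
    simp [hx'] at hx
  · rw [← mul_inv_cancel₀ (h0 c), Finset.sum_mul]
    refine Finset.sum_congr rfl fun e _ => ?_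
    by_cases he : c ∈ U.O e
    · have h1 := eq_loc hi he
      rw [ext_of_mem he, ext_of_mem he, h1]
      ring
    · rw [ext_of_notMem he, ext_of_notMem he, zero_mul]

end UC

end Vale.Agent.P292E
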