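import Vale.Agent.P292E.UOps
import Vale.Agent.P292E.LCom

/-! Global commutation relations. -/

set_option maxSynthPendingDepth 3

open scoped ContDiff Topology ComplexConjugate InnerProductSpace
open Set Filter MeasureTheory Metric

noncomputable section

namespace Vale.Agent.P292E

variable {N : ℕ}

section

variable {J : V N → V N →L[ℝ] V N} {A : V N → V N →L[ℝ] ℝ} {k : ℕ} {F F' : V N → ℂ} {y : V N}
  {B : Set (V N)}

theorem UCom_bsmul (x : ℝ) (v : V N) : Dbv J A k F y (x • v) = x * Dbv J A k F y v := by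
  rw [Dbv, Dbv, map_smul, Dv_smul, Dv_smul]
  ring

theorem UCom_psmul (x : ℝ) (v : V N) : Dpv J A k F y (x • v) = x * Dpv J A k F y v := by
  rw [Dpv, Dpv, map_smul, Dv_smul, Dv_smul]
  ring

theorem UCom_psum (v : V N) : Dpv J A k F y v = ∑ p, (v p : ℂ) * Dpv J A k F y (ee p) := by
  have h : ∀ w, Dpv J A k F y w = 2 * Dv A k F y w - Dbv J A k F y w := fun w => by
    rw [Dpv, Dbv]
    ring
  rw [h, Dv_eq_sum, Dbv_eq_sum, Finset.mul_sum, ← Finset.sum_sub_distrib]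
  exact Finset.sum_congr rfl fun p _ => by rw [h]; ring

theorem UCom_bcongr (h : F =ᶠ[𝓝 y] F') (v : V N) : Dbv J A k F y v = Dbv J A k F' y v := by
  rw [Dbv, Dbv, Dv_congr h, Dv_congr h]

theorem UCom_pcongr (h : F =ᶠ[𝓝 y] F') (v : V N) : Dpv J A k F y v = Dpv J A k F' y v := by
  rw [Dpv, Dpv, Dv_congr h, Dv_congr h]

theorem UCom_cur (h : Geo J A B) {X Y : V N → V N} (hX : ContDiffOn ℝ ∞ X B)
    (hY : ContDiffOn ℝ ∞ Y B) : ContDiffOn ℝ ∞ (fun y => (cur A y (X y) (Y y) : ℂ)) B := by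
  have h1 : ContDiffOn ℝ ∞ (fderiv ℝ A) B := h.A_sm.fderiv_of_isOpen h.opn (by simp)
  exact Complex.ofRealCLM.contDiff.comp_contDiffOn
    (((h1.clm_apply hX).clm_apply hY).sub ((h1.clm_apply hY).clm_apply hX))

theorem UCom_Lv (h : Geo J A B) {X Y : V N → V N} (hX : ContDiffOn ℝ ∞ X B)
    (hY : ContDiffOn ℝ ∞ Y B) : ContDiffOn ℝ ∞ (fun y => Lv J A y (X y) (Y y)) B :=
  (contDiffOn_const.mul (UCom_cur h hX hY)).sub
    (contDiffOn_const.mul (UCom_cur h hX (h.J_sm.clm_apply hY)))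

end

namespace UC

variable {S : Type} (U : UC N S)

theorem UCom_inv : (fun c => (U.Xi c)⁻¹) ∈ U.G 0 :=
  inv_mem Xi_mem fun c => by
    obtain ⟨x, hx, hX⟩ := U.Xi_real c
    rw [hX, Complex.ofReal_ne_zero]
    linarith

theorem lam_mem (a b : U.Λ) : U.lam a b ∈ U.G 0 := by
  have h1 := (U.G 0).sum_mem (t := Finset.univ) fun e _ => ext_mem (cut_contDiff (B_open e)
    (UBas_sq (U.χ_tst e)) (UCom_Lv (U.geo e) ((U.bas a).sm e) ((U.bas b).sm e))) 0
  have h2 := mul_mem U.UCom_inv h1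
  rwa [Finset.sum_fn] at h2

/-- local fields are combinations of the basic fields -/
theorem glue (R : U.ι → V N → V N) (hR : ∀ e, ContDiffOn ℝ ∞ (R e) (U.B e)) :
    ∃ q : U.Λ → U.G 0, ∀ (k : ℕ) (s : U.G k) (c : S),
      (∑ l, (q l).1 c * (U.Db k l s).1 c = (U.Xi c)⁻¹ * ∑ e, U.ext e k (fun y => (U.χ e y : ℂ) ^ 2 *
        Dbv (U.J e) (U.A e) k (U.loc e s) y (R e y)) c) ∧
      ∑ l, (q l).1 c * (U.Dp k l s).1 c = (U.Xi c)⁻¹ * ∑ e, U.ext e k (fun y => (U.χ e y : ℂ) ^ 2 *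
        Dpv (U.J e) (U.A e) k (U.loc e s) y (R e y)) c := by
  have hm : ∀ l : U.Λ, (fun c => (U.Xi c)⁻¹) *
      U.ext l.1 0 (fun y => (U.χ l.1 y : ℂ) * (R l.1 y l.2 : ℂ)) ∈ U.G 0 := fun l =>
    mul_mem U.UCom_inv (ext_mem (cut_contDiff (B_open l.1) (U.χ_tst l.1)
      (Complex.ofRealCLM.contDiff.comp_contDiffOn
        ((EuclideanSpace.proj (𝕜 := ℝ) l.2).contDiff.comp_contDiffOn (hR l.1)))) 0)
  refine ⟨fun l => ⟨_, hm l⟩, fun k s c => ⟨?_, ?_⟩⟩
  · rw [Fintype.sum_prod_type, Finset.mul_sum]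
    refine Finset.sum_congr rfl fun e _ => ?_
    by_cases he : c ∈ U.O e
    · have hz := U.z_mem e c he
      rw [ext_of_mem he, Dbv_eq_sum]
      simp only [Finset.mul_sum]
      refine Finset.sum_congr rfl fun p _ => ?_
      rw [eq_loc (U.Db k (e, p) s).2 he, U.loc_Db k _ s hz, U.bas_self (e, p) hz, UCom_bsmul,
        Pi.mul_apply, ext_of_mem he]
      ring
    · simp only [Pi.mul_apply, ext_of_notMem he, mul_zero, zero_mul, Finset.sum_const_zero]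
  · rw [Fintype.sum_prod_type, Finset.mul_sum]
    refine Finset.sum_congr rfl fun e _ => ?_
    by_cases he : c ∈ U.O e
    · have hz := U.z_mem e c he
      rw [ext_of_mem he, UCom_psum]
      simp only [Finset.mul_sum]
      refine Finset.sum_congr rfl fun p _ => ?_
      rw [eq_loc (U.Dp k (e, p) s).2 he, U.loc_Dp k _ s hz, U.bas_self (e, p) hz, UCom_psmul,
        Pi.mul_apply, ext_of_mem he]
      ring
    · simp only [Pi.mul_apply, ext_of_notMem he, mul_zero, zero_mul, Finset.sum_const_zero]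

theorem UCom_evb (k : ℕ) (l : U.Λ) (s : U.G k) {e : U.ι} {y : V N} (hy : y ∈ U.B e) :
    U.loc e (U.Db k l s) =ᶠ[𝓝 y]
      fun y => Dbv (U.J e) (U.A e) k (U.loc e s) y ((U.bas l).X e y) := by
  filter_upwards [(B_open e).mem_nhds hy] with x hx using U.loc_Db k l s hx

theorem UCom_evp (k : ℕ) (l : U.Λ) (s : U.G k) {e : U.ι} {y : V N} (hy : y ∈ U.B e) :
    U.loc e (U.Dp k l s) =ᶠ[𝓝 y]
      fun y => Dpv (U.J e) (U.A e) k (U.loc e s) y ((U.bas l).X e y) := by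
  filter_upwards [(B_open e).mem_nhds hy] with x hx using U.loc_Dp k l s hx

theorem UCom_sum (k : ℕ) (t : U.Λ → U.G k) (c : S) : (∑ l, t l).1 c = ∑ l, (t l).1 c := by
  rw [Submodule.coe_sum, Finset.sum_apply]

theorem com_Db (a b : U.Λ) : ∃ q : U.Λ → U.G 0, ∀ (k : ℕ) (s : U.G k),
    U.Db k b (U.Db k a s) - U.Db k a (U.Db k b s) = ∑ c, U.mulL (q c) k (U.Db k c s) := by
  choose R hR h using fun e => com_bb (U.geo e) ((U.bas b).sm e) ((U.bas a).sm e)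
  obtain ⟨q, hq⟩ := U.glue R hR
  refine ⟨q, fun k s => Subtype.ext (funext fun c => ?_)⟩
  rw [U.UCom_sum]
  refine Eq.trans (avg fun e he => ?_) (hq k s c).1.symm
  have hz := U.z_mem e c he
  rw [← h e k _ (loc_sm s.2 e) _ hz, ← UCom_bcongr (U.UCom_evb k a s hz),
    ← UCom_bcongr (U.UCom_evb k b s hz), ← U.loc_Db k b _ hz, ← U.loc_Db k a _ hz, mul_sub,
    ← eq_loc (U.Db k b _).2 he, ← eq_loc (U.Db k a _).2 he]
  rfl

theorem UCom_pb (a b : U.Λ) : ∃ p q : U.Λ → U.G 0, ∀ (k : ℕ) (s : U.G k),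
    U.Dp k a (U.Db k b s) - U.Db k b (U.Dp k a s) = ∑ c, U.mulL (p c) k (U.Dp k c s) +
      ∑ c, U.mulL (q c) k (U.Db k c s) + (k : ℂ) • U.mulL ⟨U.lam a b, U.lam_mem a b⟩ k s := by
  choose P Q hP hQ h using fun e => com_pb (U.geo e) ((U.bas a).sm e) ((U.bas b).sm e)
  obtain ⟨p, hp⟩ := U.glue P hP
  obtain ⟨q, hq⟩ := U.glue Q hQ
  refine ⟨p, q, fun k s => Subtype.ext (funext fun c => ?_)⟩
  have e1 : (U.Dp k a (U.Db k b s) - U.Db k b (U.Dp k a s)).1 c = _ :=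
    avg (k := k) (Φ := fun e y => Dpv (U.J e) (U.A e) k (U.loc e s) y (P e y) +
      Dbv (U.J e) (U.A e) k (U.loc e s) y (Q e y) +
      k * Lv (U.J e) (U.A e) y ((U.bas a).X e y) ((U.bas b).X e y) * U.loc e s y) fun e he => by
      have hz := U.z_mem e c he
      rw [← h e k _ (loc_sm s.2 e) _ hz, ← UCom_pcongr (U.UCom_evb k b s hz),
        ← UCom_bcongr (U.UCom_evp k a s hz), ← U.loc_Db k b _ hz, ← U.loc_Dp k a _ hz, mul_sub,
        ← eq_loc (U.Db k b _).2 he, ← eq_loc (U.Dp k a _).2 he]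
      rfl
  rw [e1]
  change _ = (∑ l, U.mulL (p l) k (U.Dp k l s)).1 c + (∑ l, U.mulL (q l) k (U.Db k l s)).1 c +
    k * (U.lam a b c * s.1 c)
  rw [U.UCom_sum, U.UCom_sum]
  refine Eq.trans ?_ (congrArg₂ (· + ·) (congrArg₂ (· + ·) (hp k s c).2 (hq k s c).1) rfl).symm
  rw [lam, mul_assoc, mul_left_comm, ← mul_add, ← mul_add, Finset.sum_mul, Finset.mul_sum _ _ (k : ℂ),
    ← Finset.sum_add_distrib, ← Finset.sum_add_distrib]
  congr 1
  refine Finset.sum_congr rfl fun e _ => ?_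
  by_cases he : c ∈ U.O e
  · simp only [ext_of_mem he]
    rw [eq_loc s.2 he]
    ring
  · simp only [ext_of_notMem he, zero_mul, mul_zero, add_zero]

theorem UCom_DL (X : U.VF) (f : U.G 0) (k : ℕ) (s : U.G k) :
    U.DL X k (U.mulL f k s) = U.mulL (U.DL X 0 f) k s + U.mulL f k (U.DL X k s) :=
  Subtype.ext (DX_mul f.2 s.2)

/-- multiplication is linear in the function -/
def UCom_mul (k : ℕ) (s : U.G k) : U.G 0 →ₗ[ℂ] U.G k where
  toFun f := U.mulL f k s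
  map_add' f g := Subtype.ext (add_mul (f : S → ℂ) g s)
  map_smul' x f := Subtype.ext (smul_mul_assoc x (f : S → ℂ) (s : S → ℂ))

theorem UCom_mul_eq (f : U.G 0) (k : ℕ) (s : U.G k) : U.mulL f k s = U.UCom_mul k s f := rfl

theorem UCom_mb (l : U.Λ) (f : U.G 0) (k : ℕ) (s : U.G k) :
    U.Db k l (U.mulL f k s) = U.mulL (U.Db 0 l f) k s + U.mulL f k (U.Db k l s) := by
  simp only [Db, LinearMap.add_apply, LinearMap.smul_apply, map_add, map_smul,
    U.UCom_mul_eq _ k s]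
  simp only [← UCom_mul_eq, UCom_DL, smul_add]
  abel

theorem UCom_mp (l : U.Λ) (f : U.G 0) (k : ℕ) (s : U.G k) :
    U.Dp k l (U.mulL f k s) = U.mulL (U.Dp 0 l f) k s + U.mulL f k (U.Dp k l s) := by
  simp only [Dp, LinearMap.sub_apply, LinearMap.smul_apply, map_sub, map_smul,
    U.UCom_mul_eq _ k s]
  simp only [← UCom_mul_eq, UCom_DL, smul_add]
  abel

theorem UCom_mm (f g : U.G 0) (k : ℕ) (s : U.G k) :
    U.mulL (U.mulL f 0 g) k s = U.mulL f k (U.mulL g k s) :=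
  Subtype.ext (mul_assoc (f : S → ℂ) g s)

theorem com_δ (a b : U.Λ) : ∃ (p q : U.Λ → U.G 0) (r : U.G 0), ∀ (k : ℕ) (s : U.G k),
    U.Db k b (U.δ k a s) - U.δ k a (U.Db k b s) =
      (k : ℂ) • U.mulL ⟨U.lam a b, U.lam_mem a b⟩ k s + ∑ c, U.δ k c (U.mulL (p c) k s) +
        ∑ c, U.mulL (q c) k (U.Db k c s) + U.mulL r k s := by
  obtain ⟨p, q, h⟩ := U.UCom_pb a b
  refine ⟨fun c => -p c, q, -U.Db 0 b (U.dd a) - ∑ c, (U.mulL (U.dd c) 0 (p c) + U.Dp 0 c (p c)),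
    fun k s => ?_⟩
  have e1 : ∀ c, U.δ k c (U.mulL (-p c) k s) = U.mulL (p c) k (U.Dp k c s) +
      U.mulL (U.mulL (U.dd c) 0 (p c) + U.Dp 0 c (p c)) k s := fun c => by
    rw [U.UCom_mul_eq (-p c), map_neg, map_neg, U.UCom_mul_eq (_ + _), map_add, ← UCom_mul_eq,
      ← UCom_mul_eq, ← UCom_mul_eq, UCom_mm, δ, LinearMap.neg_apply, neg_neg, LinearMap.add_apply,
      UCom_mp]
    abel
  have e2 : U.mulL (-U.Db 0 b (U.dd a) - ∑ c, (U.mulL (U.dd c) 0 (p c) + U.Dp 0 c (p c))) k s =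
      -U.mulL (U.Db 0 b (U.dd a)) k s -
        ∑ c, U.mulL (U.mulL (U.dd c) 0 (p c) + U.Dp 0 c (p c)) k s := by
    rw [UCom_mul_eq, map_sub, map_neg, map_sum]
    rfl
  have e3 : U.Db k b (U.δ k a s) - U.δ k a (U.Db k b s) =
      U.Dp k a (U.Db k b s) - U.Db k b (U.Dp k a s) - U.mulL (U.Db 0 b (U.dd a)) k s := by
    rw [δ, LinearMap.neg_apply, LinearMap.neg_apply, LinearMap.add_apply, LinearMap.add_apply,
      map_neg, map_add, UCom_mb]
    abel
  rw [e3, h, e2]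
  simp only [e1, Finset.sum_add_distrib]
  abel

end UC

end Vale.Agent.P292E
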