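import Vale.Agent.P292E.UBas

/-! The covariant derivative of sections. -/

set_option maxSynthPendingDepth 3

open scoped ContDiff Topology ComplexConjugate InnerProductSpace
open Set Filter MeasureTheory Metric

noncomputable section

namespace Vale.Agent.P292E

variable {N : ℕ}

section
variable {J : V N → V N →L[ℝ] V N} {A : V N → V N →L[ℝ] ℝ} {k : ℕ} {F : V N → ℂ} {y : V N}

theorem UDer_sum {G : Type} [NormedAddCommGroup G] [NormedSpace ℝ G] (L : V N →L[ℝ] G)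
    (v : V N) : L v = ∑ p, v p • L (ee p) := by
  have hv : v = ∑ p, v p • ee p := by
    ext q
    simp [ee, Finset.sum_apply, Pi.single_apply]
  conv_lhs => rw [hv]
  simp only [map_sum, map_smul]

/-- the covariant derivative as a linear map -/
def UDer_L (A : V N → V N →L[ℝ] ℝ) (k : ℕ) (F : V N → ℂ) (y : V N) : V N →L[ℝ] ℂ :=
  fderiv ℝ F y + (A y).smulRight (Complex.I * k * F y)

theorem UDer_L_apply (v : V N) : UDer_L A k F y v = Dv A k F y v := by
  simp only [UDer_L, Dv, ContinuousLinearMap.add_apply, ContinuousLinearMap.smulRight_apply,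
    Complex.real_smul]
  ring

theorem Dv_eq_sum (v : V N) : Dv A k F y v = ∑ p, (v p : ℂ) * Dv A k F y (ee p) := by
  simp only [← UDer_L_apply, ← Complex.real_smul]
  exact UDer_sum _ v

theorem Dbv_eq_sum (v : V N) : Dbv J A k F y v = ∑ p, (v p : ℂ) * Dbv J A k F y (ee p) := by
  have h := UDer_sum ((UDer_L A k F y).comp (J y)) v
  simp only [ContinuousLinearMap.comp_apply, UDer_L_apply, Complex.real_smul] at h
  simp only [Dbv]
  rw [h, Dv_eq_sum v, Finset.mul_sum, ← Finset.sum_add_distrib]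
  exact Finset.sum_congr rfl fun p _ => by ring

theorem Dv_add (v w : V N) : Dv A k F y (v + w) = Dv A k F y v + Dv A k F y w := by
  simp only [← UDer_L_apply, map_add]

theorem Dv_smul (x : ℝ) (v : V N) : Dv A k F y (x • v) = x * Dv A k F y v := by
  simp only [← UDer_L_apply, map_smul, Complex.real_smul]

theorem Dv_congr {F' : V N → ℂ} (h : F =ᶠ[𝓝 y] F') (v : V N) : Dv A k F y v = Dv A k F' y v := by
  rw [Dv, Dv, h.fderiv_eq, h.eq_of_nhds]

theorem Dv_sm {B : Set (V N)} (hB : IsOpen B) (hA : ContDiffOn ℝ ∞ A B) (hF : ContDiffOn ℝ ∞ F B)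
    {X : V N → V N} (hX : ContDiffOn ℝ ∞ X B) : ContDiffOn ℝ ∞ (fun y => Dv A k F y (X y)) B :=
  ((BdC_fderiv hB hF).clm_apply hX).add ((contDiffOn_const.mul
    (Complex.ofRealCLM.contDiff.comp_contDiffOn (hA.clm_apply hX))).mul hF)

end

namespace UC

variable {S : Type} {U : UC N S}
variable {a b : U.ι} {k : ℕ} {y : V N} {c : S} {s t f : S → ℂ} {X : U.VF}

theorem UDer_diff (hs : s ∈ U.G k) (hy : y ∈ U.B a) : DifferentiableAt ℝ (U.loc a s) y :=
  ((loc_sm hs a).contDiffAt ((B_open a).mem_nhds hy)).differentiableAt (by simp)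

theorem Dv_tr (hs : s ∈ U.G k) (hy : y ∈ U.W a b) (v : V N) :
    Dv (U.A a) k (U.loc a s) y v = U.l b (U.σ a y) ^ k *
      Dv (U.A b) k (U.loc b s) (U.tr b a y) (fderiv ℝ (U.tr b a) y v) := by
  have hW : U.W a b ∈ 𝓝 y := (isOpen_W a b).mem_nhds hy
  have hg : DifferentiableAt ℝ (fun y => U.l b (U.σ a y)) y :=
    ((U.l_sm a b).contDiffAt hW).differentiableAt (by simp)
  have hT : DifferentiableAt ℝ (U.tr b a) y :=
    ((tr_sm b a).contDiffAt hW).differentiableAt (by simp)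
  have hG := UDer_diff hs (tr_mem hy).1
  have h1 := (hg.hasFDerivAt.pow k).fun_mul (hG.hasFDerivAt.comp y hT.hasFDerivAt)
  have h2 : U.loc a s =ᶠ[𝓝 y] fun y => U.l b (U.σ a y) ^ k * (U.loc b s ∘ U.tr b a) y := by
    filter_upwards [hW] with x hx
    exact loc_tr hs hx
  have h3 := U.A_tr a b y hy.1 hy.2 v
  have h4 : (k : ℂ) * U.l b (U.σ a y) ^ (k - 1) * U.l b (U.σ a y) = k * U.l b (U.σ a y) ^ k := by
    cases k with
    | zero => simp
    | succ k => rw [Nat.add_sub_cancel, pow_succ, mul_assoc]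
  rw [Dv, Dv, h2.fderiv_eq, h1.fderiv, loc_tr hs hy]
  simp only [ContinuousLinearMap.add_apply, ContinuousLinearMap.smul_apply,
    ContinuousLinearMap.comp_apply, smul_eq_mul, nsmul_eq_mul, Function.comp]
  rw [h3]
  change _ = _ * (_ + _ * ((U.A b (U.z b (U.σ a y))
    (fderiv ℝ (fun y => U.z b (U.σ a y)) y v) : ℝ) : ℂ) * _)
  linear_combination (Complex.I * U.loc b s (U.tr b a y) * (((U.A b (U.z b (U.σ a y))
    (fderiv ℝ (fun y => U.z b (U.σ a y)) y v) : ℝ) : ℂ) - (U.A a y v : ℝ))) * h4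

theorem Dbv_tr (hs : s ∈ U.G k) (hy : y ∈ U.W a b) (v : V N) :
    Dbv (U.J a) (U.A a) k (U.loc a s) y v = U.l b (U.σ a y) ^ k *
      Dbv (U.J b) (U.A b) k (U.loc b s) (U.tr b a y) (fderiv ℝ (U.tr b a) y v) := by
  have h : fderiv ℝ (U.tr b a) y (U.J a y v) = U.J b (U.tr b a y) (fderiv ℝ (U.tr b a) y v) :=
    U.J_tr a b y hy.1 hy.2 v
  rw [Dbv, Dbv, Dv_tr hs hy, Dv_tr hs hy, h]
  ring

theorem DX_eq (hs : s ∈ U.G k) (hc : c ∈ U.O a) : U.DX X k s c =
    U.l a c ^ k * Dv (U.A a) k (U.loc a s) (U.z a c) (X.X a (U.z a c)) := by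
  have h0 := ch_mem (U := U) c
  have hy := z_mem_W h0 hc
  rw [DX, Dv_tr hs hy, X.tr _ _ _ hy, tr_z h0 hc, U.l_eq _ a c h0 hc, mul_pow, mul_assoc]

theorem loc_DX (hs : s ∈ U.G k) (hy : y ∈ U.B a) :
    U.loc a (U.DX X k s) y = Dv (U.A a) k (U.loc a s) y (X.X a y) := by
  rw [loc, DX_eq hs (U.σ_mem a y hy), U.l_σ a y hy, U.z_σ a y hy, one_pow, one_mul]

theorem DX_mem (X : U.VF) (hs : s ∈ U.G k) : U.DX X k s ∈ U.G k := fun a =>
  ⟨fun c hc => by rw [loc_DX hs (U.z_mem a c hc), DX_eq hs hc],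
    (Dv_sm (B_open a) (U.geo a).A_sm (loc_sm hs a) (X.sm a)).congr fun _ hy => loc_DX hs hy⟩

theorem DX_add (hs : s ∈ U.G k) (ht : t ∈ U.G k) :
    U.DX X k (s + t) = U.DX X k s + U.DX X k t := by
  funext c
  have hy := U.z_mem _ c (ch_mem c)
  have h : U.loc (U.ch c) (s + t) = U.loc (U.ch c) s + U.loc (U.ch c) t := rfl
  simp only [DX, Dv, Pi.add_apply, h, fderiv_add (UDer_diff hs hy) (UDer_diff ht hy),
    ContinuousLinearMap.add_apply]
  ring

theorem DX_smul (x : ℂ) (hs : s ∈ U.G k) : U.DX X k (x • s) = x • U.DX X k s := by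
  funext c
  have hy := U.z_mem _ c (ch_mem c)
  have h : U.loc (U.ch c) (x • s) = x • U.loc (U.ch c) s := rfl
  simp only [DX, Dv, Pi.smul_apply, h, fderiv_const_smul (UDer_diff hs hy),
    ContinuousLinearMap.smul_apply, smul_eq_mul]
  ring

theorem DX_mul (hf : f ∈ U.G 0) (hs : s ∈ U.G k) :
    U.DX X k (f * s) = U.DX X 0 f * s + f * U.DX X k s := by
  funext c
  have hc := ch_mem (U := U) c
  have hy := U.z_mem _ c hc
  have h : U.loc (U.ch c) (f * s) = U.loc (U.ch c) f * U.loc (U.ch c) s := rfl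
  simp only [DX, Dv, Pi.add_apply, Pi.mul_apply, h, fderiv_mul (UDer_diff hf hy) (UDer_diff hs hy),
    ContinuousLinearMap.add_apply, ContinuousLinearMap.smul_apply, smul_eq_mul]
  rw [eq_loc hs hc, eq_loc hf hc]
  push_cast
  ring

theorem DX_conj_mul (hs : s ∈ U.G k) (ht : t ∈ U.G k) (c : S) :
    U.DX X 0 (fun c => conj (s c) * t c) c =
      conj (U.DX X k s c) * t c + conj (s c) * U.DX X k t c := by
  have hc := ch_mem (U := U) c
  have hy := U.z_mem _ c hc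
  have h : U.loc (U.ch c) (fun c => conj (s c) * t c) =
      fun y => Complex.conjCLE (U.loc (U.ch c) s y) * U.loc (U.ch c) t y := rfl
  have h1 := (Complex.conjCLE.hasFDerivAt.comp _ (UDer_diff hs hy).hasFDerivAt).fun_mul
    (UDer_diff ht hy).hasFDerivAt
  have h2 : conj (U.l (U.ch c) c ^ k) * U.l (U.ch c) c ^ k = 1 := by
    rw [Complex.conj_mul', norm_pow, U.l_norm _ c hc]
    simp
  simp only [Function.comp] at h1
  simp only [DX, Dv]
  rw [h, h1.fderiv]
  simp only [ContinuousLinearMap.add_apply, ContinuousLinearMap.smul_apply,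
    ContinuousLinearMap.comp_apply, smul_eq_mul, ContinuousLinearEquiv.coe_coe,
    Complex.conjCLE_apply]
  rw [eq_loc hs hc, eq_loc ht hc]
  simp only [map_mul, map_add, Complex.conj_I, Complex.conj_ofReal, map_natCast]
  push_cast
  linear_combination (-(conj (U.loc (U.ch c) s (U.z (U.ch c) c)) *
      fderiv ℝ (U.loc (U.ch c) t) (U.z (U.ch c) c) (X.X (U.ch c) (U.z (U.ch c) c)) +
    U.loc (U.ch c) t (U.z (U.ch c) c) *
      conj (fderiv ℝ (U.loc (U.ch c) s) (U.z (U.ch c) c) (X.X (U.ch c) (U.z (U.ch c) c))))) * h2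

open Classical in
/-- the basic fields in the charts -/
def UDer_X (U : UC N S) (a : U.ι) (p : Fin N) (b : U.ι) (y : V N) : V N :=
  if U.σ b y ∈ U.O a then U.χ a (U.tr a b y) • fderiv ℝ (U.tr b a) (U.tr a b y) (ee p) else 0

theorem UDer_X_sm (a : U.ι) (p : Fin N) (b : U.ι) : ContDiffOn ℝ ∞ (U.UDer_X a p b) (U.B b) := by
  refine fun y hy => ContDiffAt.contDiffWithinAt ?_
  have hχ : ContDiff ℝ ∞ (U.χ a) := Complex.reCLM.contDiff.comp (U.χ_tst a).1
  by_cases ha : U.σ b y ∈ U.O a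
  · have hy' : y ∈ U.W b a := ⟨hy, ha⟩
    have hW : U.W b a ∈ 𝓝 y := (isOpen_W b a).mem_nhds hy'
    have hT := (tr_sm a b).contDiffAt hW
    have hD := (BdC_fderiv (isOpen_W a b) (tr_sm b a)).contDiffAt
      ((isOpen_W a b).mem_nhds (tr_mem hy'))
    have h1 : ContDiffAt ℝ ∞ (fun x => U.χ a (U.tr a b x) •
        fderiv ℝ (U.tr b a) (U.tr a b x) (ee p)) y :=
      (hχ.contDiffAt.comp y hT).smul ((hD.comp y hT).clm_apply contDiffAt_const)
    refine h1.congr_of_eventuallyEq ?_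
    filter_upwards [hW] with x hx
    exact if_pos hx.2
  · have hW := (U.cl b a _ (U.χ_tst a).2.1 (U.χ_tst a).2.2).mem_nhds (x := y)
      ⟨hy, fun h => ha h.1⟩
    refine (contDiffAt_const (c := (0 : V N))).congr_of_eventuallyEq ?_
    filter_upwards [hW] with x hx
    by_cases hx' : U.σ b x ∈ U.O a
    · have h0 : (U.χ a (U.tr a b x) : ℂ) = 0 :=
        image_eq_zero_of_notMem_tsupport (f := fun y => (U.χ a y : ℂ)) fun h => hx.2 ⟨hx', h⟩
      rw [UDer_X, if_pos hx', Complex.ofReal_eq_zero.1 h0, zero_smul]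
    · exact if_neg hx'

theorem UDer_X_tr (a : U.ι) (p : Fin N) (b e : U.ι) (hy : y ∈ U.W b e) :
    fderiv ℝ (U.tr e b) y (U.UDer_X a p b y) = U.UDer_X a p e (U.tr e b y) := by
  by_cases ha : U.σ b y ∈ U.O a
  · have hya : y ∈ U.W b a := ⟨hy.1, ha⟩
    have h1 := fderiv_tr_trans (tr_mem hya) ((tr_mem_iff hya).2 hy) (ee p)
    rw [tr_tr hya] at h1
    rw [UDer_X, UDer_X, if_pos ha, if_pos ((tr_mem_iff hy).2 hya).2, tr_trans hy hya, map_smul, h1]
  · have h1 : U.σ e (U.tr e b y) ∉ U.O a := fun h =>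
      ha ((tr_mem_iff hy).1 ⟨(tr_mem hy).1, h⟩).2
    rw [UDer_X, UDer_X, if_neg ha, if_neg h1, map_zero]

/-- the basic fields -/
theorem exists_bas (U : UC N S) : ∃ X : U.Λ → U.VF,
    (∀ l : U.Λ, ∀ y ∈ U.B l.1, (X l).X l.1 y = U.χ l.1 y • ee l.2) ∧
      ∀ (l : U.Λ) (b : U.ι), ∀ y ∈ U.B b, U.σ b y ∉ U.O l.1 → (X l).X b y = 0 := by
  refine ⟨fun l => ⟨U.UDer_X l.1 l.2, UDer_X_sm l.1 l.2, fun b e _ hy => UDer_X_tr l.1 l.2 b e hy⟩,
    fun l y hy => ?_, fun l b y _ h => if_neg h⟩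
  show U.UDer_X l.1 l.2 l.1 y = _
  rw [UDer_X, if_pos (U.σ_mem _ y hy), tr_self hy, fderiv_tr_self hy]

end UC

end Vale.Agent.P292E
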