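import Vale.Agent.P292E.UOps

/-! Positivity of the curvature term. -/

set_option maxSynthPendingDepth 3

open scoped ContDiff Topology ComplexConjugate InnerProductSpace
open Set Filter MeasureTheory Metric

noncomputable section

namespace Vale.Agent.P292E

variable {N : ℕ}

/-- the Levi form as a bilinear map -/
def UPos_L (J : V N → V N →L[ℝ] V N) (A : V N → V N →L[ℝ] ℝ) (y : V N) :
    V N →ₗ[ℝ] V N →ₗ[ℝ] ℂ :=
  LinearMap.mk₂ ℝ (Lv J A y)
    (fun v v' w => by simp only [Lv, cur, map_add, add_apply]; push_cast; ring)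
    (fun x v w => by
      simp only [Lv, cur, map_smul, smul_apply, smul_eq_mul, Complex.real_smul]
      push_cast; ring)
    (fun v w w' => by simp only [Lv, cur, map_add, add_apply]; push_cast; ring)
    (fun x v w => by
      simp only [Lv, cur, map_smul, smul_apply, smul_eq_mul, Complex.real_smul]
      push_cast; ring)

theorem UPos_L_apply (J : V N → V N →L[ℝ] V N) (A : V N → V N →L[ℝ] ℝ) (y v w : V N) :
    UPos_L J A y v w = Lv J A y v w := rfl

theorem UPos_cur_neg_left (A : V N → V N →L[ℝ] ℝ) (y v w : V N) :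
    cur A y (-v) w = -cur A y v w := by
  simp only [cur, map_neg, neg_apply]; ring

theorem UPos_cur_neg_right (A : V N → V N →L[ℝ] ℝ) (y v w : V N) :
    cur A y v (-w) = -cur A y v w := by
  simp only [cur, map_neg, neg_apply]; ring

theorem UPos_cur_smul (A : V N → V N →L[ℝ] ℝ) (y v w : V N) (x : ℝ) :
    cur A y (x • v) (x • w) = x ^ 2 * cur A y v w := by
  simp only [cur, map_smul, smul_apply, smul_eq_mul]; ring

section
variable {J : V N → V N →L[ℝ] V N} {A : V N → V N →L[ℝ] ℝ} {B K : Set (V N)}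

theorem UPos_left (h : Geo J A B) {y : V N} (hy : y ∈ B) (v w : V N) :
    Lv J A y (J y v) w = Complex.I * Lv J A y v w := by
  have h1 : cur A y (J y v) w = -cur A y v (J y w) := by
    rw [← h.F11 y hy (J y v) w, h.J_sq y hy, UPos_cur_neg_left]
  simp only [Lv, h1, h.F11 y hy]
  push_cast
  linear_combination (-2 * (cur A y v w : ℂ)) * Complex.I_mul_I

theorem UPos_right (h : Geo J A B) {y : V N} (hy : y ∈ B) (v w : V N) :
    Lv J A y v (J y w) = -Complex.I * Lv J A y v w := by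
  simp only [Lv, h.J_sq y hy, UPos_cur_neg_right]
  push_cast
  linear_combination (2 * (cur A y v w : ℂ)) * Complex.I_mul_I

theorem UPos_low (h : Geo J A B) (hK : IsCompact K) (hKB : K ⊆ B) :
    ∃ c : ℝ, 0 < c ∧ ∀ y ∈ K, ∀ v, c * ‖v‖ ^ 2 ≤ -cur A y v (J y v) := by
  have hA : ContinuousOn (fun p : V N × V N => fderiv ℝ A p.1) (K ×ˢ sphere 0 1) :=
    ((BdC_fderiv h.opn h.A_sm).continuousOn.mono hKB).comp continuousOn_fst fun p hp => hp.1
  have hJ : ContinuousOn (fun p : V N × V N => J p.1 p.2) (K ×ˢ sphere 0 1) :=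
    ((h.J_sm.continuousOn.mono hKB).comp continuousOn_fst fun p hp => hp.1).clm_apply
      continuousOn_snd
  have hc : ContinuousOn (fun p : V N × V N => -cur A p.1 p.2 (J p.1 p.2)) (K ×ˢ sphere 0 1) :=
    (((hA.clm_apply continuousOn_snd).clm_apply hJ).sub
      ((hA.clm_apply hJ).clm_apply continuousOn_snd)).neg
  obtain ⟨c, hc0, hc⟩ := (hK.prod (isCompact_sphere (0 : V N) 1)).exists_forall_le' hc (a := 0)
    fun p hp => neg_pos.2 (h.Fneg p.1 (hKB hp.1) p.2 (ne_zero_of_mem_unit_sphere ⟨p.2, hp.2⟩))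
  refine ⟨c, hc0, fun y hy v => ?_⟩
  rcases eq_or_ne v 0 with rfl | hv
  · simp [cur]
  have hn : 0 < ‖v‖ := norm_pos_iff.2 hv
  have h1 := hc (y, ‖v‖⁻¹ • v) ⟨hy, by
    simp only [mem_sphere_iff_norm, sub_zero, norm_smul, norm_inv, norm_norm]
    exact inv_mul_cancel₀ hn.ne'⟩
  simp only [map_smul, UPos_cur_smul] at h1
  have h2 := mul_le_mul_of_nonneg_right h1 (sq_nonneg ‖v‖)
  refine h2.trans (le_of_eq ?_)
  field_simp

theorem UPos_coord (β : V N →ₗ[ℝ] ℂ) (v : V N) : β v = ∑ p, (v p : ℂ) * β (ee p) := by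
  have : v = ∑ p, v p • ee p := by
    ext q
    simp [ee, Pi.single_apply]
  conv_lhs => rw [this]
  simp only [map_sum, map_smul, Complex.real_smul]

end

/-- the pointwise inequality in a chart -/
theorem Geo.pos {J : V N → V N →L[ℝ] V N} {A : V N → V N →L[ℝ] ℝ} {B K : Set (V N)} (h : Geo J A B)
    (hK : IsCompact K) (hKB : K ⊆ B) : ∃ c : ℝ, 0 < c ∧ ∀ y ∈ K, ∀ {Λ : Type} [Fintype Λ]
      (X : Λ → V N) (β : V N →ₗ[ℝ] ℂ) (x : ℝ), (∀ v, β (J y v) = -Complex.I * β v) →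
      (∀ p, ∃ l, X l = x • ee p) → c * x ^ 2 * ∑ l, ‖β (X l)‖ ^ 2 ≤
        (∑ a, ∑ b, conj (β (X b)) * (Lv J A y (X a) (X b) * β (X a))).re := by
  obtain ⟨c, hc0, hc⟩ := UPos_low h hK hKB
  refine ⟨c / ((N : ℝ) + 1) ^ 2, by positivity, fun y hy Λ _ X β x hβ hX => ?_⟩
  have hyB := hKB hy
  set Q : ℝ := ∑ l, ‖β (X l)‖ ^ 2 with hQ
  have hQ0 : 0 ≤ Q := Finset.sum_nonneg fun _ _ => sq_nonneg _
  set Y : Λ → V N := fun l => (β (X l)).re • X l + (β (X l)).im • J y (X l) with hY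
  set Xs : V N := ∑ l, Y l with hXs
  have e1 : ∀ a w, UPos_L J A y (Y a) w = Lv J A y (X a) w * β (X a) := fun a w => by
    simp only [hY, map_add, map_smul, LinearMap.add_apply, LinearMap.smul_apply, UPos_L_apply,
      UPos_left h hyB, Complex.real_smul]
    conv_rhs => rw [← Complex.re_add_im (β (X a))]
    ring
  have e2 : ∀ v b, UPos_L J A y v (Y b) = conj (β (X b)) * Lv J A y v (X b) := fun v b => by
    simp only [hY, map_add, map_smul, UPos_L_apply, UPos_right h hyB, Complex.real_smul]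
    conv_rhs => rw [← Complex.re_add_im (β (X b))]
    simp only [map_add, map_mul, Complex.conj_ofReal, Complex.conj_I]
    ring
  have e3 : ∑ a, ∑ b, conj (β (X b)) * (Lv J A y (X a) (X b) * β (X a)) =
      UPos_L J A y Xs Xs := by
    rw [hXs, map_sum (UPos_L J A y), LinearMap.sum_apply]
    refine Finset.sum_congr rfl fun a _ => ?_
    rw [map_sum]
    refine Finset.sum_congr rfl fun b _ => ?_
    rw [e2, ← UPos_L_apply J A y (Y a), e1]
  have e4 : (UPos_L J A y Xs Xs).re = -2 * cur A y Xs (J y Xs) := by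
    simp [UPos_L_apply, Lv, cur]
  have e5 : β Xs = Q := by
    rw [hXs, map_sum, hQ]
    push_cast
    refine Finset.sum_congr rfl fun l _ => ?_
    simp only [hY, map_add, map_smul, hβ, Complex.real_smul]
    have hcj : conj (β (X l)) = (β (X l)).re - (β (X l)).im * Complex.I := by
      apply Complex.ext <;> simp
    rw [← Complex.conj_mul', hcj]
    ring
  have e6 : |x| * Q ≤ N * (‖Xs‖ * √Q) := by
    have h1 : (x : ℂ) * β Xs = ∑ p, (Xs p : ℂ) * β (x • ee p) := by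
      rw [UPos_coord β Xs, Finset.mul_sum]
      refine Finset.sum_congr rfl fun p _ => ?_
      rw [map_smul, Complex.real_smul]; ring
    have h2 : ‖(x : ℂ) * β Xs‖ = |x| * Q := by
      rw [norm_mul, e5, Complex.norm_real, Complex.norm_real, Real.norm_eq_abs,
        Real.norm_of_nonneg hQ0]
    rw [← h2, h1]
    refine (norm_sum_le _ _).trans ((Finset.sum_le_sum (g := fun _ => ‖Xs‖ * √Q)
      fun p _ => ?_).trans (by simp))
    obtain ⟨l, hl⟩ := hX p
    rw [norm_mul, ← hl, Complex.norm_real]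
    refine mul_le_mul (PiLp.norm_apply_le Xs p) (Real.le_sqrt_of_sq_le ?_) (norm_nonneg _)
      (norm_nonneg _)
    exact Finset.single_le_sum (f := fun l => ‖β (X l)‖ ^ 2) (fun _ _ => sq_nonneg _)
      (Finset.mem_univ l)
  have e7 : x ^ 2 * Q ≤ ((N : ℝ) + 1) ^ 2 * ‖Xs‖ ^ 2 := by
    rcases hQ0.eq_or_lt with h0 | h0
    · rw [← h0, mul_zero]; positivity
    have h1 := pow_le_pow_left₀ (by positivity) e6 2
    rw [mul_pow, mul_pow, mul_pow, Real.sq_sqrt hQ0, sq_abs] at h1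
    have h2 : x ^ 2 * Q ≤ (N : ℝ) ^ 2 * ‖Xs‖ ^ 2 :=
      le_of_mul_le_mul_right (by nlinarith) h0
    refine h2.trans (mul_le_mul_of_nonneg_right ?_ (sq_nonneg _))
    have : (0 : ℝ) ≤ N := Nat.cast_nonneg N
    nlinarith
  rw [e3, e4]
  have h1 := hc y hy Xs
  have h2 : c / ((N : ℝ) + 1) ^ 2 * x ^ 2 * Q ≤ c * ‖Xs‖ ^ 2 := by
    rw [mul_assoc, div_mul_eq_mul_div, div_le_iff₀ (by positivity)]
    nlinarith
  have h3 : 0 ≤ c * ‖Xs‖ ^ 2 := by positivity
  linarith

/-- the antiholomorphic derivative as a real linear map -/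
def UPos_β (J : V N → V N →L[ℝ] V N) (A : V N → V N →L[ℝ] ℝ) (k : ℕ) (F : V N → ℂ) (y : V N) :
    V N →ₗ[ℝ] ℂ where
  toFun v := Dbv J A k F y v
  map_add' v w := by simp only [Dbv, map_add, Dv_add]; ring
  map_smul' x v := by
    simp only [Dbv, map_smul, Dv_smul, RingHom.id_apply, Complex.real_smul]; ring

theorem UPos_βJ {J : V N → V N →L[ℝ] V N} {A : V N → V N →L[ℝ] ℝ} {B : Set (V N)} (h : Geo J A B)
    (k : ℕ) (F : V N → ℂ) {y : V N} (hy : y ∈ B) (v : V N) :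
    UPos_β J A k F y (J y v) = -Complex.I * UPos_β J A k F y v := by
  change Dbv J A k F y (J y v) = -Complex.I * Dbv J A k F y v
  have h1 : Dv A k F y (-v) = -Dv A k F y v := by
    rw [← neg_one_smul ℝ v, Dv_smul]; simp
  simp only [Dbv, h.J_sq y hy, h1]
  linear_combination (Dv A k F y (J y v)) * Complex.I_mul_I

namespace UC

variable {S : Type} (U : UC N S)

theorem UPos_chart (e : U.ι) : ∃ c₀ : ℝ, 0 < c₀ ∧ ∀ (k : ℕ) (s : U.G k) (c : S), c ∈ U.O e →
    c₀ * U.χ e (U.z e c) ^ 4 * ∑ l, ‖(U.Db k l s).1 c‖ ^ 2 ≤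
      (∑ a, ∑ b, conj ((U.Db k b s).1 c) * (U.ext e 0 (fun y => (U.χ e y : ℂ) ^ 2 *
        Lv (U.J e) (U.A e) y ((U.bas a).X e y) ((U.bas b).X e y)) c * (U.Db k a s).1 c)).re := by
  obtain ⟨c₀, h0, h⟩ := (U.geo e).pos (U.χ_tst e).2.1 (U.χ_tst e).2.2
  refine ⟨c₀, h0, fun k s c hc => ?_⟩
  have hz := U.z_mem e c hc
  by_cases hχ : U.χ e (U.z e c) = 0
  · simp [ext_of_mem hc, hχ]
  have hK : U.z e c ∈ tsupport fun y => (U.χ e y : ℂ) :=
    subset_tsupport _ (Complex.ofReal_ne_zero.2 hχ)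
  set β := UPos_β (U.J e) (U.A e) k (U.loc e s) (U.z e c) with hβ
  have e1 : ∀ l, (U.Db k l s).1 c = U.l e c ^ k * β ((U.bas l).X e (U.z e c)) := fun l => by
    rw [eq_loc (U.Db k l s).2 hc, U.loc_Db k l s hz]; rfl
  have hl : conj (U.l e c ^ k) * U.l e c ^ k = 1 := by
    rw [Complex.conj_mul', norm_pow, U.l_norm e c hc]; simp
  have h1 := h _ hK (fun l : U.Λ => (U.bas l).X e (U.z e c)) β (U.χ e (U.z e c))
    (UPos_βJ (U.geo e) k _ hz) fun p => ⟨(e, p), U.bas_self (e, p) hz⟩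
  have e2 : ∀ l, ‖(U.Db k l s).1 c‖ = ‖β ((U.bas l).X e (U.z e c))‖ := fun l => by
    rw [e1, norm_mul, norm_pow, U.l_norm e c hc, one_pow, one_mul]
  have e3 : (∑ a, ∑ b, conj ((U.Db k b s).1 c) * (U.ext e 0 (fun y => (U.χ e y : ℂ) ^ 2 *
      Lv (U.J e) (U.A e) y ((U.bas a).X e y) ((U.bas b).X e y)) c * (U.Db k a s).1 c)) =
      ((U.χ e (U.z e c) ^ 2 : ℝ) : ℂ) * ∑ a, ∑ b, conj (β ((U.bas b).X e (U.z e c))) *
        (Lv (U.J e) (U.A e) (U.z e c) ((U.bas a).X e (U.z e c)) ((U.bas b).X e (U.z e c)) *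
          β ((U.bas a).X e (U.z e c))) := by
    rw [Finset.mul_sum]
    refine Finset.sum_congr rfl fun a _ => ?_
    rw [Finset.mul_sum]
    refine Finset.sum_congr rfl fun b _ => ?_
    rw [ext_of_mem hc, e1, e1, map_mul, pow_zero]
    push_cast
    linear_combination ((U.χ e (U.z e c) : ℂ) ^ 2 * conj (β ((U.bas b).X e (U.z e c))) *
      Lv (U.J e) (U.A e) (U.z e c) ((U.bas a).X e (U.z e c)) ((U.bas b).X e (U.z e c)) *
        β ((U.bas a).X e (U.z e c))) * hl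
  rw [e3, Complex.re_ofReal_mul]
  simp only [e2]
  refine le_trans (le_of_eq ?_) (mul_le_mul_of_nonneg_left h1 (sq_nonneg _))
  ring

theorem pos : ∃ c₀ : ℝ, 0 < c₀ ∧ ∀ (k : ℕ) (s : U.G k) (c : S),
    c₀ * ∑ l, ‖(U.Db k l s).1 c‖ ^ 2 ≤
      (∑ a, ∑ b, conj ((U.Db k b s).1 c) * (U.lam a b c * (U.Db k a s).1 c)).re := by
  choose f hf0 hf using U.UPos_chart
  obtain ⟨B, hB0, hB⟩ := exists_bound (Xi_mem (U := U))
  have hs0 : 0 ≤ ∑ e, (f e)⁻¹ := Finset.sum_nonneg fun e _ => (inv_pos.2 (hf0 e)).le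
  have hm : ∀ e, (∑ e, (f e)⁻¹ + 1)⁻¹ ≤ f e := fun e => by
    rw [inv_le_comm₀ (by positivity) (hf0 e)]
    exact (Finset.single_le_sum (f := fun e => (f e)⁻¹) (fun e _ => (inv_pos.2 (hf0 e)).le)
      (Finset.mem_univ e)).trans (le_add_of_nonneg_right zero_le_one)
  refine ⟨(B + 1)⁻¹ * (∑ e, (f e)⁻¹ + 1)⁻¹, by positivity, fun k s c => ?_⟩
  obtain ⟨x, hx1, hx⟩ := Xi_real (U := U) c
  have hxB : x ≤ B + 1 := by
    have := hB c
    rw [hx, Complex.norm_real] at this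
    linarith [le_abs_self x, Real.norm_eq_abs x]
  set Q : ℝ := ∑ l, ‖(U.Db k l s).1 c‖ ^ 2 with hQ
  have hQ0 : 0 ≤ Q := Finset.sum_nonneg fun _ _ => sq_nonneg _
  set T : U.ι → ℂ := fun e => ∑ a, ∑ b, conj ((U.Db k b s).1 c) *
    (U.ext e 0 (fun y => (U.χ e y : ℂ) ^ 2 *
      Lv (U.J e) (U.A e) y ((U.bas a).X e y) ((U.bas b).X e y)) c * (U.Db k a s).1 c) with hT
  have e1 : ∑ a, ∑ b, conj ((U.Db k b s).1 c) * (U.lam a b c * (U.Db k a s).1 c) =
      ((x⁻¹ : ℝ) : ℂ) * ∑ e, T e := by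
    simp only [hT]
    rw [Finset.sum_comm (s := (Finset.univ : Finset U.ι)), Finset.mul_sum]
    refine Finset.sum_congr rfl fun a _ => ?_
    rw [Finset.sum_comm (s := (Finset.univ : Finset U.ι)), Finset.mul_sum]
    refine Finset.sum_congr rfl fun b _ => ?_
    rw [← Finset.mul_sum, ← Finset.sum_mul, lam, hx]
    push_cast
    ring
  have h0 : ∀ e, 0 ≤ (T e).re := fun e => by
    by_cases hc : c ∈ U.O e
    · refine le_trans ?_ (hf e k s c hc)
      have := hf0 e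
      positivity
    · simp [hT, ext_of_notMem hc]
  obtain ⟨e, he, hκ⟩ := U.cover c
  have hχ : U.χ e (U.z e c) = 1 :=
    U.χ_one e _ (subset_tsupport _ (by rw [Function.mem_support, hκ]; exact one_ne_zero))
  have h1 : f e * Q ≤ (T e).re := by
    have := hf e k s c he
    rwa [hχ, one_pow, mul_one] at this
  have h2 : (∑ e, (f e)⁻¹ + 1)⁻¹ * Q ≤ (∑ e, T e).re := by
    rw [Complex.re_sum]
    exact ((mul_le_mul_of_nonneg_right (hm e) hQ0).trans h1).trans
      (Finset.single_le_sum (f := fun e => (T e).re) (fun e _ => h0 e) (Finset.mem_univ e))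
  rw [e1, Complex.re_ofReal_mul, mul_assoc]
  exact mul_le_mul (inv_anti₀ (by linarith) hxB) h2 (by positivity) (by positivity)

end UC

end Vale.Agent.P292E
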