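import Vale.Agent.P292E.UAdj
import Vale.Agent.P292E.UCom
import Vale.Agent.P292E.UPos
import Vale.Agent.P292E.Boch

/-! The spectral gap. -/

set_option maxSynthPendingDepth 3

open scoped ContDiff Topology ComplexConjugate InnerProductSpace
open Set Filter MeasureTheory Metric

noncomputable section

namespace Vale.Agent.P292E

variable {N : ℕ}

namespace UC

variable {S : Type} (U : UC N S)

theorem UGap_bound {α : Type} [Fintype α] (f : α → U.G 0) :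
    ∃ K : ℝ, 0 ≤ K ∧ ∀ i c, ‖(f i).1 c‖ ≤ K := by
  choose B hB0 hB using fun i => exists_bound (f i).2
  exact ⟨∑ i, B i, Finset.sum_nonneg fun i _ => hB0 i, fun i c =>
    (hB i c).trans (Finset.single_le_sum (fun i _ => hB0 i) (Finset.mem_univ i))⟩

theorem UGap_int : ∃ c₀ : ℝ, 0 < c₀ ∧ ∀ (k : ℕ) (u : U.G k),
    c₀ * ∑ l, ‖U.emb k (U.Db k l u)‖ ^ 2 ≤ (∑ a, ∑ b, ⟪U.emb k (U.Db k b u),
      U.emb k (U.mulL ⟨U.lam a b, U.lam_mem a b⟩ k (U.Db k a u))⟫_ℂ).re := by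
  obtain ⟨c₀, h0, h⟩ := U.pos
  refine ⟨c₀, h0, fun k u => ?_⟩
  let f : U.Λ → U.Λ → S → ℂ := fun a b c => conj ((U.Db k b u).1 c) *
    (U.mulL ⟨U.lam a b, U.lam_mem a b⟩ k (U.Db k a u)).1 c
  let g : U.Λ → S → ℂ := fun l c => conj ((U.Db k l u).1 c) * (U.Db k l u).1 c
  have hf : ∀ a b, f a b ∈ U.G 0 := fun a b => conj_mul_mem (U.Db k b u).2 (Subtype.prop _)
  have hg : ∀ l, g l ∈ U.G 0 := fun l => conj_mul_mem (U.Db k l u).2 (Subtype.prop _)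
  have hf1 : ∀ a, ∑ b, f a b ∈ U.G 0 := fun a => Submodule.sum_mem _ fun b _ => hf a b
  have hf2 : ∑ a, ∑ b, f a b ∈ U.G 0 := Submodule.sum_mem _ fun a _ => hf1 a
  have hg1 : ∑ l, g l ∈ U.G 0 := Submodule.sum_mem _ fun l _ => hg l
  have hg2 : (-(c₀ : ℂ)) • ∑ l, g l ∈ U.G 0 := Submodule.smul_mem _ _ hg1
  have h1 := U.re_I_nonneg (f := ∑ a, ∑ b, f a b + (-(c₀ : ℂ)) • ∑ l, g l) (fun c => by
    have h2 := h k u c
    have e1 : (∑ l, g l) c = ((∑ l, ‖(U.Db k l u).1 c‖ ^ 2 : ℝ) : ℂ) := by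
      rw [Finset.sum_apply]
      push_cast
      exact Finset.sum_congr rfl fun l _ => Complex.conj_mul' _
    have e2 : (∑ a, ∑ b, f a b) c =
        ∑ a, ∑ b, conj ((U.Db k b u).1 c) * (U.lam a b c * (U.Db k a u).1 c) := by
      simp only [Finset.sum_apply]
      rfl
    rw [Pi.add_apply, Pi.smul_apply, e1, e2, smul_eq_mul, neg_mul, ← Complex.ofReal_mul,
      Complex.add_re, Complex.neg_re, Complex.ofReal_re]
    linarith) (Submodule.add_mem _ hf2 hg2)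
  have e3 : U.I (∑ l, g l) = ((∑ l, ‖U.emb k (U.Db k l u)‖ ^ 2 : ℝ) : ℂ) := by
    rw [I_sum _ fun l _ => hg l]
    push_cast
    refine Finset.sum_congr rfl fun l _ => ?_
    rw [← U.inner_emb, inner_self_eq_norm_sq_to_K]
    rfl
  have e4 : U.I (∑ a, ∑ b, f a b) = ∑ a, ∑ b, ⟪U.emb k (U.Db k b u),
      U.emb k (U.mulL ⟨U.lam a b, U.lam_mem a b⟩ k (U.Db k a u))⟫_ℂ := by
    rw [I_sum _ fun a _ => hf1 a]
    refine Finset.sum_congr rfl fun a _ => ?_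
    rw [I_sum _ fun b _ => hf a b]
    exact Finset.sum_congr rfl fun b _ => (U.inner_emb k _ _).symm
  rw [I_add hf2 hg2, I_smul, e3, e4, neg_mul, ← Complex.ofReal_mul, Complex.add_re,
    Complex.neg_re, Complex.ofReal_re] at h1
  linarith

theorem gap : ∃ (c : ℝ) (k₀ : ℕ), 0 < c ∧ 0 < k₀ ∧ ∀ k, k₀ ≤ k → ∀ u : U.G k,
    c * k * ∑ l, ‖U.emb k (U.Db k l u)‖ ^ 2 ≤
      ‖U.emb k (∑ l, U.δ k l (U.Db k l u))‖ ^ 2 := by
  choose p q r h1 using U.com_δ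
  choose q' h2 using U.com_Db
  obtain ⟨K1, z1, b1⟩ := U.UGap_bound fun i : U.Λ × U.Λ × U.Λ => p i.1 i.2.1 i.2.2
  obtain ⟨K2, z2, b2⟩ := U.UGap_bound fun i : U.Λ × U.Λ × U.Λ => q i.1 i.2.1 i.2.2
  obtain ⟨K3, z3, b3⟩ := U.UGap_bound fun i : U.Λ × U.Λ × U.Λ => q' i.1 i.2.1 i.2.2
  obtain ⟨K4, z4, b4⟩ := U.UGap_bound fun i : U.Λ × U.Λ => r i.1 i.2
  obtain ⟨C, hC⟩ := boch U.Λ (K1 + K2 + K3 + K4)
  obtain ⟨c₀, h0, h⟩ := U.UGap_int
  obtain ⟨k₀, hk₀⟩ := exists_nat_ge (2 * C / c₀)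
  refine ⟨c₀ / 2, k₀ + 1, by positivity, Nat.succ_pos _, fun k hk u => ?_⟩
  have h3 := hC (U.emb k) (U.Db k) (U.δ k)
    (fun a b => (k : ℂ) • U.mulL ⟨U.lam a b, U.lam_mem a b⟩ k) (fun a b => U.mulL (r a b) k)
    (fun a b c => U.mulL (p a b c) k) (fun a b c => U.mulL (q a b c) k)
    (fun a b c => U.mulL (q' a b c) k) (c₀ * k) u (U.adj k) (fun a b v => h1 a b k v)
    (fun a b v => h2 a b k v)
    (fun a b v => U.norm_mulL _ (fun c => (b4 (a, b) c).trans (by linarith)) k v)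
    (fun a b c v => U.norm_mulL _ (fun x => (b1 (a, b, c) x).trans (by linarith)) k v)
    (fun a b c v => U.norm_mulL _ (fun x => (b2 (a, b, c) x).trans (by linarith)) k v)
    (fun a b c v => U.norm_mulL _ (fun x => (b3 (a, b, c) x).trans (by linarith)) k v) (by
      simp only [LinearMap.smul_apply, map_smul, inner_smul_right, ← Finset.mul_sum]
      rw [← Complex.ofReal_natCast, Complex.re_ofReal_mul, mul_comm c₀, mul_assoc]
      exact mul_le_mul_of_nonneg_left (h k u) (Nat.cast_nonneg k))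
  refine le_trans (mul_le_mul_of_nonneg_right ?_ (Finset.sum_nonneg fun _ _ => sq_nonneg _)) h3
  have h4 : (k₀ : ℝ) ≤ k := by exact_mod_cast (Nat.le_succ k₀).trans hk
  rw [div_le_iff₀ h0] at hk₀
  nlinarith

end UC

end Vale.Agent.P292E
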