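import Vale.Agent.P292E.UMeas

/-! The divergence of a field. -/

set_option maxSynthPendingDepth 3

open scoped ContDiff Topology ComplexConjugate InnerProductSpace
open Set Filter MeasureTheory Metric

noncomputable section

namespace Vale.Agent.P292E

variable {N : ℕ}

theorem UIbp_zero {B : Set (V N)} {F : V N → ℂ} (h : Tst B F) (p : Fin N) :
    ∫ y, pd p F y = 0 := by
  have := integral_mul_fderiv_eq_neg_fderiv_mul_of_integrable (μ := volume) (𝕜 := ℂ)
    (f := fun _ => 1) (g := F) (v := ee p) (by simp)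
    ((UMeas_int (h.pd p).1).congr (ae_of_all _ fun _ => (one_mul _).symm))
    (by simpa using UMeas_int h) (fun _ _ => differentiableAt_const _)
    fun y _ => h.1.differentiable (by simp) y
  simpa [pd] using this

theorem UIbp_ibp {B : Set (V N)} (hB : IsOpen B) {ψ F : V N → ℂ} (h : Tst B ψ)
    (hF : ContDiffOn ℝ ∞ F B) (p : Fin N) : ∫ y, ψ y * pd p F y = -∫ y, pd p ψ y * F y := by
  rw [eq_neg_iff_add_eq_zero, ← integral_add (UMeas_int (cut_contDiff hB h (contDiffOn_pd hB hF p)))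
    (UMeas_int (cut_contDiff hB (h.pd p).1 hF)), ← UIbp_zero (cut_contDiff hB h hF) p]
  refine integral_congr_ae (ae_of_all _ fun y => ?_)
  by_cases hy : y ∈ tsupport ψ
  · have h1 := (hF.contDiffAt (hB.mem_nhds (h.2.2 hy))).differentiableAt (by simp)
    simp only [pd, fderiv_fun_mul (h.1.differentiable (by simp) y) h1]
    simp [mul_comm]
  · simp only [pd, (BdC_zero F hy).fderiv_eq, image_eq_zero_of_notMem_tsupport hy,
      (notMem_tsupport_iff_eventuallyEq.1 hy).fderiv_eq]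
    simp

namespace UC

variable {S : Type} {U : UC N S}

theorem UIbp_chart (X : U.VF) (a : U.ι) : ∃ D, Tst (U.B a) D ∧ ∀ f ∈ U.G 0,
    ∫ y, (U.χ a y : ℂ) ^ 2 * U.loc a (U.DX X 0 f) y = -U.I (U.ext a 0 D * f) := by
  obtain ⟨m, m1, m2, m3⟩ := exists_dens (U := U) a
  have hψ : ∀ p, Tst (U.B a) fun y => (U.χ a y : ℂ) * (U.χ a y * (X.X a y p : ℝ)) := fun p =>
    cut_contDiff (B_open a) (U.χ_tst a) ((U.χ_tst a).1.contDiffOn.mul
      (Complex.ofRealCLM.contDiff.comp_contDiffOn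
        ((EuclideanSpace.proj p : V N →L[ℝ] ℝ).contDiff.comp_contDiffOn (X.sm a))))
  have hm : ContDiffOn ℝ ∞ (fun y => (m y : ℂ)⁻¹) (U.B a) :=
    (Complex.ofRealCLM.contDiff.comp_contDiffOn m1).inv fun y hy =>
      Complex.ofReal_ne_zero.2 (m2 y hy).ne'
  have hD := fun p => cut_contDiff (B_open a) ((hψ p).pd p).1 hm
  have hs : ∀ {g : Fin N → V N → ℂ}, (∀ p, Tst (U.B a) (g p)) →
      Tst (U.B a) fun y => ∑ p, g p y := fun {g} hg => by
    have h1 : tsupport (fun y => ∑ p, g p y) ⊆ ⋃ p, tsupport (g p) :=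
      closure_minimal (fun y hy => by
        obtain ⟨p, -, hp⟩ := Finset.exists_ne_zero_of_sum_ne_zero hy
        exact mem_iUnion.2 ⟨p, subset_tsupport _ hp⟩)
        (isClosed_iUnion_of_finite fun p => isClosed_tsupport _)
    exact ⟨ContDiff.sum fun p _ => (hg p).1, (isCompact_iUnion fun p => (hg p).2.1).of_isClosed_subset
      (isClosed_tsupport _) h1, h1.trans (iUnion_subset fun p => (hg p).2.2)⟩
  refine ⟨_, hs hD, fun f hf => ?_⟩
  have h2 := cut_contDiff (B_open a) (hs hD) (loc_sm hf a)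
  rw [eq_ext (a := a) (mul_mem (ext_mem (hs hD) 0) hf)
    (fun c hc => by rw [Pi.mul_apply, ext_of_notMem hc, zero_mul])
    (F := fun y => (∑ p, pd p (fun y => (U.χ a y : ℂ) * (U.χ a y * (X.X a y p : ℝ))) y *
      (m y : ℂ)⁻¹) * U.loc a f y) fun y hy => by
        beta_reduce
        rw [← loc_ext (k := 0) (F := fun y => ∑ p, pd p
          (fun y => (U.χ a y : ℂ) * (U.χ a y * (X.X a y p : ℝ))) y * (m y : ℂ)⁻¹) hy]
        rfl, m3 _ h2]
  have h3 : ∫ y, (U.χ a y : ℂ) ^ 2 * U.loc a (U.DX X 0 f) y =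
      ∫ y, ∑ p, (U.χ a y : ℂ) * (U.χ a y * (X.X a y p : ℝ)) * pd p (U.loc a f) y := by
    refine integral_congr_ae (ae_of_all _ fun y => ?_)
    beta_reduce
    by_cases hy : y ∈ U.B a
    · rw [loc_DX hf hy, Dv_eq_sum, Finset.mul_sum]
      refine Finset.sum_congr rfl fun p _ => ?_
      simp only [Dv, pd]
      ring
    · rw [UMeas_chi fun h' => hy ((U.χ_tst a).2.2 h')]
      simp
  rw [h3, integral_finsetSum _ fun p _ => UMeas_int (cut_contDiff (B_open a) (hψ p)
    (contDiffOn_pd (B_open a) (loc_sm hf a) p)), Finset.sum_congr rfl fun p _ =>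
      UIbp_ibp (B_open a) (hψ p) (loc_sm hf a) p, Finset.sum_neg_distrib,
    ← integral_finsetSum _ fun p _ => UMeas_int (cut_contDiff (B_open a) ((hψ p).pd p).1
      (loc_sm hf a))]
  refine congrArg _ (integral_congr_ae (ae_of_all _ fun y => ?_))
  beta_reduce
  rw [Finset.sum_mul, Finset.sum_mul]
  refine Finset.sum_congr rfl fun p _ => ?_
  by_cases hy : y ∈ U.B a
  · have := Complex.ofReal_ne_zero.2 (m2 y hy).ne'
    field_simp
  · rw [image_eq_zero_of_notMem_tsupport fun h' => hy (((hψ p).pd p).1.2.2 h')]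
    simp

theorem exists_div (X : U.VF) : ∃ d ∈ U.G 0, ∀ f ∈ U.G 0, U.I (U.DX X 0 f) = -U.I (d * f) := by
  choose D h1 h2 using UIbp_chart X
  refine ⟨∑ a, U.ext a 0 (D a), Submodule.sum_mem _ fun a _ => ext_mem (h1 a) 0, fun f hf => ?_⟩
  rw [Finset.sum_mul, I_sum _ fun a _ => mul_mem (ext_mem (h1 a) 0) hf, ← Finset.sum_neg_distrib]
  exact Finset.sum_congr rfl fun a _ => h2 a f hf

end UC

end Vale.Agent.P292E
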