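import Vale.Agent.P292E.UDer

/-! The integral in a chart and integration by parts. -/

set_option maxSynthPendingDepth 3

open scoped ContDiff Topology ComplexConjugate InnerProductSpace
open Set Filter MeasureTheory Metric

noncomputable section

namespace Vale.Agent.P292E

variable {N : ℕ}

theorem UMeas_int {B : Set (V N)} {F : V N → ℂ} (h : Tst B F) : Integrable F :=
  h.1.continuous.integrable_of_hasCompactSupport h.2.1

theorem UMeas_det : ContDiff ℝ ∞ fun A : V N →L[ℝ] V N => A.det := by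
  let b := (EuclideanSpace.basisFun (Fin N) ℝ).toBasis
  have : (fun A : V N →L[ℝ] V N => A.det) = fun A => ∑ σ : Equiv.Perm (Fin N),
      ((Equiv.Perm.sign σ : ℤ) : ℝ) * ∏ i, b.coord (σ i) (A (b i)) := by
    funext A
    rw [ContinuousLinearMap.det, ← LinearMap.det_toMatrix b, Matrix.det_apply']
    simp only [LinearMap.toMatrix_apply, Module.Basis.coord_apply, ContinuousLinearMap.coe_coe]
  rw [this]
  exact ContDiff.sum fun σ _ => contDiff_const.mul (contDiff_prod fun i _ =>
    (LinearMap.toContinuousLinearMap (b.coord (σ i))).contDiff.comp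
      (contDiff_id.clm_apply contDiff_const))

namespace UC

variable {S : Type} {U : UC N S}

variable {a : U.ι} {k : ℕ} {s f g : S → ℂ}

theorem tst_loc (hs : s ∈ U.G k) (a : U.ι) : Tst (U.B a) fun y => (U.χ a y : ℂ) * U.loc a s y :=
  cut_contDiff (B_open a) (U.χ_tst a) (loc_sm hs a)

theorem memLp_loc (hs : s ∈ U.G k) (a : U.ι) :
    MemLp (fun y => (U.χ a y : ℂ) * U.loc a s y) 2 volume :=
  (tst_loc hs a).1.continuous.memLp_of_hasCompactSupport (tst_loc hs a).2.1

theorem UMeas_tst (hs : s ∈ U.G k) (a : U.ι) :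
    Tst (U.B a) fun y => (U.χ a y : ℂ) ^ 2 * U.loc a s y := by
  simpa only [sq, mul_assoc] using cut_contDiff (B_open a) (U.χ_tst a) (tst_loc hs a).1.contDiffOn

theorem I_add (hf : f ∈ U.G 0) (hg : g ∈ U.G 0) : U.I (f + g) = U.I f + U.I g := by
  rw [I, I, I, ← Finset.sum_add_distrib]
  refine Finset.sum_congr rfl fun a _ => ?_
  rw [← integral_add (UMeas_int (UMeas_tst hf a)) (UMeas_int (UMeas_tst hg a))]
  simp only [loc, Pi.add_apply, mul_add]

theorem I_smul (x : ℂ) (f : S → ℂ) : U.I (x • f) = x * U.I f := by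
  rw [I, I, Finset.mul_sum]
  refine Finset.sum_congr rfl fun a _ => ?_
  rw [← integral_const_mul]
  simp only [loc, Pi.smul_apply, smul_eq_mul, mul_left_comm]

theorem I_sum {α : Type} (T : Finset α) {f : α → S → ℂ} (hf : ∀ i ∈ T, f i ∈ U.G 0) :
    U.I (∑ i ∈ T, f i) = ∑ i ∈ T, U.I (f i) := by
  classical
  induction T using Finset.induction_on with
  | empty => simp [I, loc]
  | insert i T hi ih =>
    have h : ∀ j ∈ T, f j ∈ U.G 0 := fun j hj => hf j (Finset.mem_insert_of_mem hj)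
    rw [Finset.sum_insert hi, Finset.sum_insert hi, I_add (hf i (Finset.mem_insert_self _ _))
      (Submodule.sum_mem _ h), ih h]

theorem UMeas_chi {b : U.ι} {y : V N} (h : y ∉ tsupport fun y => (U.χ b y : ℂ)) : U.χ b y = 0 :=
  Complex.ofReal_eq_zero.1 (image_eq_zero_of_notMem_tsupport (f := fun y => (U.χ b y : ℂ)) h)

theorem UMeas_ne {b : U.ι} {y : V N} (hy : y ∈ U.W a b) : (fderiv ℝ (U.tr b a) y).det ≠ 0 := by
  intro h
  obtain ⟨v, hv, h0⟩ := Submodule.exists_mem_ne_zero_of_ne_bot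
    (LinearMap.det_eq_zero_iff_ker_ne_bot.1 h)
  have h1 := fderiv_tr_trans (e := a) hy ⟨hy.1, U.σ_mem a y hy.1⟩ v
  rw [fderiv_tr_self hy.1, show fderiv ℝ (U.tr b a) y v = 0 from hv, map_zero] at h1
  exact h0 h1.symm

/-- the part of the density that comes from the chart `b` -/
def UMeasM (U : UC N S) (a b : U.ι) : V N → ℝ :=
  (U.W a b).indicator fun y => U.χ b (U.tr b a y) ^ 2 * |(fderiv ℝ (U.tr b a) y).det|

theorem UMeas_sm (a b : U.ι) : ContDiffOn ℝ ∞ (UMeasM U a b) (U.B a) := by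
  intro y hy
  refine ContDiffAt.contDiffWithinAt ?_
  by_cases h : y ∈ U.W a b
  · have h1 := (isOpen_W a b).mem_nhds h
    have h2 : ContDiff ℝ ∞ (U.χ b) := Complex.reCLM.contDiff.comp (U.χ_tst b).1
    refine (((h2.contDiffAt.comp y ((tr_sm b a).contDiffAt h1)).pow 2).mul
      ((UMeas_det.contDiffAt.comp y ((BdC_fderiv (isOpen_W a b) (tr_sm b a)).contDiffAt h1)).abs
        (UMeas_ne h))).congr_of_eventuallyEq ?_
    filter_upwards [h1] with y hy using indicator_of_mem hy _
  · refine (contDiffAt_const (c := (0 : ℝ))).congr_of_eventuallyEq ?_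
    filter_upwards [(U.cl a b _ (U.χ_tst b).2.1 (U.χ_tst b).2.2).mem_nhds
      ⟨hy, fun h' => h ⟨hy, h'.1⟩⟩] with y hy
    refine indicator_apply_eq_zero.2 fun h' => ?_
    rw [show U.χ b (U.tr b a y) = 0 from UMeas_chi fun h2 => hy.2 ⟨h'.2, h2⟩]
    simp

theorem UMeas_eq (a b : U.ι) (F : V N → ℂ) :
    ∫ y, (U.χ b y : ℂ) ^ 2 * U.loc b (U.ext a 0 F) y = ∫ y, F y * UMeasM U a b y := by
  have h1 : U.W b a = U.tr b a '' U.W a b := Subset.antisymm
    (fun y hy => ⟨_, tr_mem hy, tr_tr hy⟩) (by rintro _ ⟨y, hy, rfl⟩; exact tr_mem hy)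
  rw [← setIntegral_eq_integral_of_forall_compl_eq_zero (s := U.W b a), h1,
    integral_image_eq_integral_abs_det_fderiv_smul volume (isOpen_W a b).measurableSet
      (f' := fderiv ℝ (U.tr b a)) (fun y hy => (((tr_sm b a).contDiffAt
        ((isOpen_W a b).mem_nhds hy)).differentiableAt (by simp)).hasFDerivAt.hasFDerivWithinAt)
      (fun y hy z hz e => by rw [← tr_tr hy, e, tr_tr hz]),
    ← integral_indicator (isOpen_W a b).measurableSet]
  · refine integral_congr_ae (ae_of_all _ fun y => ?_)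
    by_cases h : y ∈ U.W a b
    · simp only [UMeasM, indicator_of_mem h, loc]
      rw [ext_of_mem (tr_mem h).2, show U.z a (U.σ b (U.tr b a y)) = y from tr_tr h,
        Complex.real_smul]
      push_cast
      ring
    · simp [UMeasM, indicator_of_notMem h]
  · intro y hy
    by_cases h : y ∈ U.B b
    · rw [loc, ext_of_notMem fun h' => hy ⟨h, h'⟩, mul_zero]
    · rw [UMeas_chi fun h' => h ((U.χ_tst b).2.2 h')]
      simp

/-- the density of the integral in a chart -/
theorem exists_dens (a : U.ι) : ∃ m : V N → ℝ, ContDiffOn ℝ ∞ m (U.B a) ∧ (∀ y ∈ U.B a, 0 < m y) ∧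
    ∀ F, Tst (U.B a) F → U.I (U.ext a 0 F) = ∫ y, F y * m y := by
  refine ⟨fun y => ∑ b, UMeasM U a b y, ContDiffOn.sum fun b _ => UMeas_sm a b, fun y hy => ?_,
    fun F hF => ?_⟩
  · obtain ⟨b, h1, h2⟩ := U.cover (U.σ a y)
    refine Finset.sum_pos' (fun b _ => indicator_nonneg (fun _ _ => by positivity) y)
      ⟨b, Finset.mem_univ b, ?_⟩
    rw [UMeasM, indicator_of_mem (show y ∈ U.W a b from ⟨hy, h1⟩), show U.χ b (U.tr b a y) = 1 from
      U.χ_one b _ (subset_tsupport _ (h2.trans_ne one_ne_zero))]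
    simpa using UMeas_ne (show y ∈ U.W a b from ⟨hy, h1⟩)
  · rw [I, Finset.sum_congr rfl fun b _ => UMeas_eq a b F, ← integral_finsetSum _ fun b _ =>
      UMeas_int (cut_contDiff (a := fun y => UMeasM U a b y) (B_open a) hF
        (Complex.ofRealCLM.contDiff.comp_contDiffOn (UMeas_sm a b)))]
    simp only [Complex.ofReal_sum, Finset.mul_sum]

end UC

end Vale.Agent.P292E
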