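import Vale.Agent.P292E.UIbp

/-! The operators on sections. -/

set_option maxSynthPendingDepth 3

open scoped ContDiff Topology ComplexConjugate InnerProductSpace
open Set Filter MeasureTheory Metric

noncomputable section

namespace Vale.Agent.P292E

variable {N : ℕ}

namespace UC

variable {S : Type} (U : UC N S)

/-- the basic fields -/
def bas : U.Λ → U.VF := U.exists_bas.choose

theorem bas_self (l : U.Λ) {y : V N} (hy : y ∈ U.B l.1) : (U.bas l).X l.1 y = U.χ l.1 y • ee l.2 :=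
  U.exists_bas.choose_spec.1 l y hy

theorem bas_zero (l : U.Λ) {b : U.ι} {y : V N} (hy : y ∈ U.B b) (h : U.σ b y ∉ U.O l.1) :
    (U.bas l).X b y = 0 := U.exists_bas.choose_spec.2 l b y hy h

/-- the density -/
def dens (a : U.ι) : V N → ℝ := (exists_dens a).choose

theorem dens_sm (a : U.ι) : ContDiffOn ℝ ∞ (U.dens a) (U.B a) := (exists_dens a).choose_spec.1

theorem dens_pos (a : U.ι) {y : V N} (hy : y ∈ U.B a) : 0 < U.dens a y :=
  (exists_dens a).choose_spec.2.1 y hy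

theorem I_ext {a : U.ι} {F : V N → ℂ} (hF : Tst (U.B a) F) :
    U.I (U.ext a 0 F) = ∫ y, F y * U.dens a y := (exists_dens a).choose_spec.2.2 F hF

/-- the divergence -/
def dv (X : U.VF) : U.G 0 := ⟨(exists_div X).choose, (exists_div X).choose_spec.1⟩

theorem I_DX (X : U.VF) {f : S → ℂ} (hf : f ∈ U.G 0) : U.I (U.DX X 0 f) = -U.I (U.dv X * f) :=
  (exists_div X).choose_spec.2 f hf

/-- the covariant derivative as a linear map -/
def DL (X : U.VF) (k : ℕ) : U.G k →ₗ[ℂ] U.G k where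
  toFun s := ⟨U.DX X k s, DX_mem X s.2⟩
  map_add' s t := Subtype.ext (DX_add s.2 t.2)
  map_smul' x s := Subtype.ext (DX_smul x s.2)

/-- multiplication by a function -/
def mulL (f : U.G 0) (k : ℕ) : U.G k →ₗ[ℂ] U.G k where
  toFun s := ⟨f * s, mul_mem f.2 s.2⟩
  map_add' s t := Subtype.ext (mul_add (f : S → ℂ) s t)
  map_smul' x s := Subtype.ext (mul_smul_comm x (f : S → ℂ) s)

/-- the antiholomorphic derivatives -/
def Db (k : ℕ) (l : U.Λ) : U.G k →ₗ[ℂ] U.G k := U.DL (U.bas l) k + Complex.I • U.DL (U.bas l).J k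

/-- the holomorphic derivatives -/
def Dp (k : ℕ) (l : U.Λ) : U.G k →ₗ[ℂ] U.G k := U.DL (U.bas l) k - Complex.I • U.DL (U.bas l).J k

/-- the order zero part of the adjoint -/
def dd (l : U.Λ) : U.G 0 := U.dv (U.bas l) - Complex.I • U.dv (U.bas l).J

/-- the adjoints -/
def δ (k : ℕ) (l : U.Λ) : U.G k →ₗ[ℂ] U.G k := -(U.Dp k l + U.mulL (U.dd l) k)

/-- the Hilbert space -/
abbrev Hs : Type := PiLp 2 fun _ : U.ι => Lp ℂ 2 (volume : Measure (V N))

/-- the embedding in the Hilbert space -/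
def emb (k : ℕ) : U.G k →ₗ[ℂ] U.Hs where
  toFun s := WithLp.toLp 2 fun a => (memLp_loc s.2 a).toLp _
  map_add' s t := by
    refine PiLp.ext fun a => ?_
    change (memLp_loc (s + t).2 a).toLp _ = (memLp_loc s.2 a).toLp _ + (memLp_loc t.2 a).toLp _
    rw [← MemLp.toLp_add]
    exact MemLp.toLp_congr _ _ (Eventually.of_forall fun y => mul_add _ _ _)
  map_smul' x s := by
    refine PiLp.ext fun a => ?_
    change (memLp_loc (x • s).2 a).toLp _ = x • (memLp_loc s.2 a).toLp _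
    rw [← MemLp.toLp_const_smul]
    exact MemLp.toLp_congr _ _ (Eventually.of_forall fun y => mul_smul_comm x _ _)

theorem emb_ae (k : ℕ) (s : U.G k) (a : U.ι) :
    (U.emb k s a : V N → ℂ) =ᵐ[volume] fun y => (U.χ a y : ℂ) * U.loc a s y :=
  (memLp_loc s.2 a).coeFn_toLp

/-- the curvature coefficients -/
def lam (a b : U.Λ) (c : S) : ℂ := (U.Xi c)⁻¹ * ∑ e, U.ext e 0 (fun y => (U.χ e y : ℂ) ^ 2 *
  Lv (U.J e) (U.A e) y ((U.bas a).X e y) ((U.bas b).X e y)) c

theorem loc_Db (k : ℕ) (l : U.Λ) (s : U.G k) {a : U.ι} {y : V N} (hy : y ∈ U.B a) :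
    U.loc a (U.Db k l s) y = Dbv (U.J a) (U.A a) k (U.loc a s) y ((U.bas l).X a y) := by
  change U.loc a (U.DX _ k s) y + Complex.I * U.loc a (U.DX _ k s) y = _
  rw [loc_DX s.2 hy, loc_DX s.2 hy]
  rfl

theorem loc_Dp (k : ℕ) (l : U.Λ) (s : U.G k) {a : U.ι} {y : V N} (hy : y ∈ U.B a) :
    U.loc a (U.Dp k l s) y = Dpv (U.J a) (U.A a) k (U.loc a s) y ((U.bas l).X a y) := by
  change U.loc a (U.DX _ k s) y - Complex.I * U.loc a (U.DX _ k s) y = _
  rw [loc_DX s.2 hy, loc_DX s.2 hy]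
  rfl

theorem loc_δ (k : ℕ) (l : U.Λ) (s : U.G k) {a : U.ι} {y : V N} (hy : y ∈ U.B a) :
    U.loc a (U.δ k l s) y = -(Dpv (U.J a) (U.A a) k (U.loc a s) y ((U.bas l).X a y) +
      U.loc a (U.dd l) y * U.loc a s y) := by
  rw [← loc_Dp U k l s hy]
  rfl

end UC

end Vale.Agent.P292E
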